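import Crest.Agent.R244.Defs2
set_option autoImplicit false
open scoped ContDiff Manifold Topology
open Bundle Set Filter
open Crest.GeometryTopology.Geodesic Crest.GeometryTopology.CoordMetric
  Crest.GeometryTopology.ChartCurvature

noncomputable section
namespace Crest.Agent.R244

namespace CatOfExp

theorem b_nonneg (b : E3 →L[ℝ] E3 →L[ℝ] ℝ) (hp : ∀ u, u ≠ 0 → 0 < b u u) (u : E3) : 0 ≤ b u u := by
  by_cases h : u = 0
  · simp [h]
  · exact (hp u h).le

theorem cs (b : E3 →L[ℝ] E3 →L[ℝ] ℝ) (hs : ∀ u v, b u v = b v u) (hp : ∀ u, 0 ≤ b u u)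
    (u v : E3) : b u v ≤ √(b u u) * √(b v v) := by
  have h : ∀ t : ℝ, 0 ≤ b v v * (t * t) + (2 * b u v) * t + b u u := by
    intro t
    have := hp (u + t • v)
    simp only [map_add, map_smul, add_apply, smul_apply, smul_eq_mul] at this
    rw [hs v u] at this
    linarith
  have hd := discrim_le_zero h
  rw [← Real.sqrt_mul (hp u)]
  refine Real.le_sqrt_of_sq_le ?_
  unfold discrim at hd
  nlinarith

theorem mink (b : E3 →L[ℝ] E3 →L[ℝ] ℝ) (hs : ∀ u v, b u v = b v u) (hp : ∀ u, 0 ≤ b u u)
    (u v : E3) : √(b (u + v) (u + v)) ≤ √(b u u) + √(b v v) := by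
  refine Real.sqrt_le_iff.2 ⟨by positivity, ?_⟩
  have h1 := cs b hs hp u v
  have h2 := Real.sq_sqrt (hp u)
  have h3 := Real.sq_sqrt (hp v)
  simp only [map_add, add_apply]
  rw [hs v u]
  nlinarith

end CatOfExp

/-- Row 244, task CatOfExp: the universal cover is a CAT(0)-like space. -/
theorem catOfExp (hCF : CoverFactsS) : CatOfExpS := by
  intro M _ ex B hex x₀
  have cov := hex.cover x₀
  have cf := hCF M _ cov
  have hE : ∀ a : E3, ∃ E : E3 → E3, Continuous E ∧ (∀ v, ex x₀ (E v) = ex (ex x₀ a) v) ∧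
      E 0 = a := by
    intro a
    obtain ⟨E, h1, h2, h3⟩ := cf.lift univ (ex (ex x₀ a)) 0 a convex_univ
      (hex.cover _).continuous.continuousOn (mem_univ _) (hex.zero _).symm
    exact ⟨E, continuousOn_univ.1 h1, fun v => h2 v (mem_univ _), h3⟩
  have hl : ∀ a : E3, ∃ l : E3 → E3, Continuous l ∧ (∀ b, ex (ex x₀ a) (l b) = ex x₀ b) ∧
      l a = 0 := by
    intro a
    obtain ⟨l, h1, h2, h3⟩ := (hCF M _ (hex.cover (ex x₀ a))).lift univ (ex x₀) a 0 convex_univ
      cov.continuous.continuousOn (mem_univ _) (hex.zero _)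
    exact ⟨l, continuousOn_univ.1 h1, fun v => h2 v (mem_univ _), h3⟩
  choose E Ec Ep E0 using hE
  choose l lc lp l0 using hl
  have El : ∀ a b, E a (l a b) = b := by
    intro a
    have := cov.eq_of_comp_eq (g₁ := fun b => E a (l a b)) (g₂ := id) ((Ec a).comp (lc a))
      continuous_id (by funext b; simp only [Function.comp, id]; rw [Ep, lp]) a
      (by simp only [id]; rw [l0, E0])
    exact fun b => congrFun this b
  have lE : ∀ a v, l a (E a v) = v := by
    intro a
    have := (hex.cover (ex x₀ a)).eq_of_comp_eq (g₁ := fun v => l a (E a v)) (g₂ := id)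
      ((lc a).comp (Ec a)) continuous_id
      (by funext b; simp only [Function.comp, id]; rw [lp, Ep]) 0
      (by simp only [id]; rw [E0, l0])
    exact fun b => congrFun this b
  have hp : ∀ x u, 0 ≤ B x u u := fun x => CatOfExp.b_nonneg _ (hex.pos x)
  have cmp : ∀ a b c, B (ex x₀ a) (l a c - l a b) (l a c - l a b) ≤
      B (ex x₀ b) (l b c) (l b c) := by
    intro a b c
    have := hex.compare (ex x₀ a) (ex x₀ b) (l b c) (fun t => l a (E b (t • l b c)))
      ((lc a).comp ((Ec b).comp (continuous_id.smul continuous_const))) (fun t => by rw [lp, Ep])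
    simpa only [one_smul, zero_smul, El, E0] using this
  have comm' : ∀ a b, B (ex x₀ a) (l a b) (l a b) = B (ex x₀ b) (l b a) (l b a) := by
    have : ∀ a b, B (ex x₀ a) (l a b) (l a b) ≤ B (ex x₀ b) (l b a) (l b a) := by
      intro a b
      have := cmp a b a
      simpa [l0] using this
    exact fun a b => le_antisymm (this a b) (this b a)
  refine ⟨fun a b => √(B (ex x₀ a) (l a b) (l a b)), dact_one, dact_mul,
    fun _ _ => Real.sqrt_nonneg _, fun a => by simp [l0], fun a b => by rw [comm'],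
    fun a b c => ?_, fun g a b => ?_, fun x y => ?_, ?_⟩
  · have h1 := CatOfExp.mink (B (ex x₀ a)) (hex.symm _) (hp _) (l a b) (l a c - l a b)
    rw [add_sub_cancel] at h1
    have h2 := Real.sqrt_le_sqrt (cmp a b c)
    linarith
  · have e : ex x₀ (dact g a) = ex x₀ a := dact_proj g a
    have := (hex.cover (ex x₀ a)).eq_of_comp_eq (g₁ := fun b => l (dact g a) (dact g b))
      (g₂ := l a) ((lc _).comp (dact_cont g)) (lc a)
      (by
        funext b
        simp only [Function.comp]
        rw [lp, ← e, lp]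
        exact dact_proj g b) a (by rw [l0, l0])
    have h2 : l (dact g a) (dact g b) = l a b := congrFun this b
    rw [h2, e]
  · obtain ⟨u, hu, hm⟩ := hex.mid (ex x₀ x) (l x y)
    set m := E x ((1 / 2 : ℝ) • l x y) with hmd
    have pm : ex x₀ m = ex (ex x₀ x) ((1 / 2 : ℝ) • l x y) := Ep _ _
    rw [← pm] at hu hm
    have key := cov.eq_of_comp_eq (g₁ := fun t : ℝ => E m (t • u))
      (g₂ := fun t : ℝ => E x (((1 + t) / 2) • l x y))
      ((Ec m).comp (continuous_id.smul continuous_const))
      ((Ec x).comp (Continuous.smul (f := fun t : ℝ => (1 + t) / 2) (by fun_prop) continuous_const))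
      (by funext t; simp only [Function.comp]; rw [Ep m, hm, Ep x]) 0
      (by simp only [zero_smul, add_zero, E0]; exact hmd)
    have k1 : E m u = y := by
      have := congrFun key 1
      simp only [one_smul] at this
      rw [this, show ((1 : ℝ) + 1) / 2 = 1 by norm_num, one_smul, El]
    have k2 : E m (-u) = x := by
      have := congrFun key (-1)
      simp only [neg_smul, one_smul] at this
      rw [this, show ((1 : ℝ) + -1) / 2 = 0 by norm_num, zero_smul, E0]
    have l1 : l m y = u := by rw [← k1, lE]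
    have l2 : l m x = -u := by rw [← k2, lE]
    refine ⟨m, fun w => ?_⟩
    have c1 := cmp m y w
    have c2 := cmp m x w
    rw [l1] at c1
    rw [l2] at c2
    rw [Real.sq_sqrt (hp _ _), Real.sq_sqrt (hp _ _), Real.sq_sqrt (hp _ _), Real.sq_sqrt (hp _ _),
      comm' w m, comm' w x, comm' w y]
    simp only [map_sub, map_neg, sub_apply, neg_apply] at c1 c2
    linarith
  · obtain ⟨ε, hε, hs⟩ := hex.small
    refine ⟨ε, hε, fun g hg x => ?_⟩
    by_contra hlt
    have hlt' : B (ex x₀ x) (l x (dact g x)) (l x (dact g x)) < ε ^ 2 :=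
      (Real.sqrt_lt' hε).1 (not_le.1 hlt)
    obtain ⟨C, q, c, hC, hq, hc, hcC, h10, hqc⟩ :=
      hs (ex x₀ x) (l x (dact g x)) hlt' (by rw [lp]; exact dact_proj g x)
    have h0 : (0 : ℝ) ∈ Icc (0 : ℝ) 1 := ⟨le_rfl, zero_le_one⟩
    have h1 : (1 : ℝ) ∈ Icc (0 : ℝ) 1 := ⟨zero_le_one, le_rfl⟩
    obtain ⟨L, hL1, hL2, hL3⟩ := cf.lift C q (c 0) x hC hq (hcC h0)
      (by rw [hqc 0 h0, zero_smul, hex.zero])
    have key := cov.eqOn_of_comp_eqOn (g₁ := fun t : ℝ => L (c t))
      (g₂ := fun t : ℝ => E x (t • l x (dact g x))) (s := Icc 0 1) isPreconnected_Icc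
      (hL1.comp hc hcC) ((Ec x).comp (continuous_id.smul continuous_const)).continuousOn
      (fun t ht => by simp only [Function.comp]; rw [hL2 _ (hcC ht), hqc t ht, Ep]) h0
      (by simp only [zero_smul, E0]; exact hL3)
    have := key h1
    simp only [one_smul, El] at this
    rw [h10, hL3] at this
    exact hg (cf.free g x this.symm)

end Crest.Agent.R244
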