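import Crest.Agent.R244.Defs2
set_option autoImplicit false
open scoped ContDiff Topology
open Set Filter

noncomputable section
namespace Crest.Agent.R244
namespace Mono

lemma eps (f : ℝ → ℝ) (h : ∀ s, LowDer f s 0) {a b ε : ℝ} (hab : a ≤ b) (hε : 0 < ε) :
    f a - ε * (b - a) ≤ f b := by
  set S := {t | t ∈ Icc a b ∧ f a - ε * (t - a) ≤ f t} with hS
  have haS : a ∈ S := ⟨⟨le_rfl, hab⟩, by simp⟩
  have hbd : BddAbove S := ⟨b, fun t ht => ht.1.2⟩
  set c := sSup S with hc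
  have hac : a ≤ c := le_csSup hbd haS
  have hcb : c ≤ b := csSup_le ⟨a, haS⟩ fun t ht => ht.1.2
  have hcS : f a - ε * (c - a) ≤ f c := by
    by_contra hn
    have hcn : c ∉ S := fun h' => hn h'.2
    obtain ⟨l, hl, hsub⟩ := mem_nhdsLT_iff_exists_Ioo_subset.1 (h c ε hε).2
    obtain ⟨t, htS, hlt⟩ := exists_lt_of_lt_csSup ⟨a, haS⟩ (show l < sSup S from hl)
    have htc : t < c := lt_of_le_of_ne (le_csSup hbd htS) fun e => hcn (e ▸ htS)
    have h1 : f t ≤ f c - (0 - ε) * (c - t) := hsub ⟨hlt, htc⟩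
    have h2 := htS.2
    apply hn; nlinarith
  rcases eq_or_lt_of_le hcb with e | hlt
  · rw [← e]; exact hcS
  · exfalso
    have h3 : ∀ᶠ r in 𝓝[>] c, r < b := nhdsWithin_le_nhds (Iio_mem_nhds hlt)
    obtain ⟨r, hr1, hr2, hr3⟩ := ((h c ε hε).1.and (h3.and self_mem_nhdsWithin)).exists
    have hr3' : c < r := hr3
    have : r ∈ S := ⟨⟨by linarith, hr2.le⟩, by nlinarith⟩
    exact absurd (le_csSup hbd this) (not_le.2 hr3')

lemma slope {g : ℝ → ℝ} {D s ε : ℝ} (hg : HasDerivAt g D s) (hε : 0 < ε) :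
    ∀ᶠ r in 𝓝 s, |g r - g s - (r - s) * D| ≤ ε * |r - s| := by
  have := (hasDerivAt_iff_isLittleO.1 hg).def hε
  simpa using this

end Mono

theorem mono : MonoS := by
  refine ⟨fun f h a b hab => ?_, fun n f g D s c hg hD h1 h2 ε hε => ?_⟩
  · refine le_of_forall_pos_le_add fun ε hε => ?_
    have := Mono.eps f h hab (show 0 < ε / (b - a + 1) from div_pos hε (by linarith))
    have h2 : ε / (b - a + 1) * (b - a) ≤ ε := by
      rw [div_mul_eq_mul_div, div_le_iff₀ (by linarith)]; nlinarith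
    linarith
  · have hall : ∀ᶠ r in 𝓝 s, ∀ j, |g j r - g j s - (r - s) * D j| ≤ ε * |r - s| :=
      eventually_all.2 fun j => Mono.slope (hg j) hε
    constructor
    · filter_upwards [h1, nhdsWithin_le_nhds hall, self_mem_nhdsWithin] with r ⟨j, hj1, hj2⟩ hr hrs
      have hp : 0 < r - s := sub_pos.2 hrs
      have := (abs_le.1 (hr j)).1
      rw [abs_of_pos hp] at this
      nlinarith [hD j]
    · filter_upwards [h2, nhdsWithin_le_nhds hall, self_mem_nhdsWithin] with r ⟨j, hj1, hj2⟩ hr hrs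
      have hp : r - s < 0 := sub_neg.2 hrs
      have := (abs_le.1 (hr j)).2
      rw [abs_of_neg hp] at this
      nlinarith [hD j]

end Crest.Agent.R244
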