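import Crest.Agent.R244.Star1
set_option autoImplicit false
open scoped ContDiff Topology
open Set Filter

noncomputable section
namespace Crest.Agent.R244
namespace Star2
open Star1

/-- `x = λ' u`, `y = λ'' u`, `w = a u²`, `w1 = -a' u²`. -/
lemma core (a b b1 ψ x y w w1 : ℝ) (ha : 0 ≤ a) (hb : 0 ≤ b)
    (hbδ : b ≤ 1 / 200) (hψ0 : 0 < ψ) (hψ2 : ψ ≤ 2) (hb1 : b ≤ b1) (hw0 : 0 ≤ w) (hw1 : w ≤ w1)
    (hx : x ^ 2 ≤ (1 / 200) ^ 2 * (b * w)) (hy : y ^ 2 ≤ (1 / 200) ^ 2 * (b * w))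
    (hn : 0 ≤ b + ψ * x - w) :
    (b + ψ * x - w) ^ 2 ≤
      (b1 + ψ * y - 2 * b * x + ψ * x ^ 2 + w1 - 2 * w * x) * ψ + 4 * (b + ψ * x - w) * b := by
  have hx0 : |x| ≤ (b + w) / 400 := abs_le_of_sq (by positivity)
    (by linarith [sq_nonneg (b - w), show ((b + w) / 400) ^ 2 =
      (1 / 200) ^ 2 * (b * w) + (b - w) ^ 2 / 160000 by ring])
  have hψx := mul_abs hψ0.le hψ2 hx0
  have hw2 : w ≤ 2 * b := by have := (abs_le.1 hψx).2; linarith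
  have hx1 : |x| ≤ b / 100 := by linarith
  have haw : b * w ≤ 2 * b ^ 2 := by nlinarith
  have hy1 : |y| ≤ b / 100 := abs_le_of_sq (by positivity)
    (by linarith [sq_nonneg b, show (b / 100) ^ 2 = b ^ 2 / 10000 by ring])
  obtain ⟨x1, x2⟩ := abs_le.1 (mul_abs hψ0.le hψ2 hx1)
  obtain ⟨y1, y2⟩ := abs_le.1 (mul_abs hψ0.le hψ2 hy1)
  obtain ⟨bx1, bx2⟩ := abs_le.1 (mul_abs hb hbδ hx1)
  obtain ⟨wx1, wx2⟩ := abs_le.1 (mul_abs hw0 (le_refl w) (hx1.trans (show b / 100 ≤ 1 / 4 by linarith)))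
  have h1 : 0 ≤ ψ * x ^ 2 := by positivity
  have h2 : 0 ≤ (b1 + ψ * y - 2 * b * x + ψ * x ^ 2 + w1 - 2 * w * x) * ψ :=
    mul_nonneg (by linarith) hψ0.le
  have h3 : b + ψ * x - w ≤ 4 * b := by linarith
  nlinarith [mul_le_mul_of_nonneg_left h3 hn]

end Star2

theorem star2 : Star2S := by
  intro P h p t ht hR hV
  obtain ⟨hψ2, hbδ, hb1, hl, hl1, hl2, hla⟩ := h.bd t ht
  obtain ⟨hφ1, hφ2, haδ, ha1⟩ := h.phi.bd t ht
  have ha : 0 ≤ P.a t := by have := h.phi.mono t; rw [Prof.a]; linarith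
  have hb := h.b_nonneg t
  have hψ := h.ψ_pos t
  set R := p.2 - P.lam t * p.1 with hRd
  set u := p.1 / R with hu
  have hP : p.1 = u * R := by rw [hu]; field_simp
  have hR2 : 0 < R ^ 2 := by positivity
  have hVn : P.V1 p t = -(R ^ 2 * (P.b t + P.ψ t * (deriv P.lam t * u) - P.a t * u ^ 2)) := by
    rw [h.V1_eq, ← hRd, hP]; ring
  have hn : 0 ≤ P.b t + P.ψ t * (deriv P.lam t * u) - P.a t * u ^ 2 := by
    rw [hVn, neg_nonpos] at hV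
    exact (mul_nonneg_iff_of_pos_left hR2).1 hV
  have ha1' : P.a t ≤ -(deriv (deriv P.φ) t / 2) := ha1
  have hcore := Star2.core (P.a t) (P.b t) (deriv P.b t) (P.ψ t)
    (deriv P.lam t * u) (deriv (deriv P.lam) t * u)
    (P.a t * u ^ 2) (-(deriv (deriv P.φ) t / 2) * u ^ 2) ha hb hbδ hψ hψ2 hb1
    (by positivity) (mul_le_mul_of_nonneg_right ha1' (sq_nonneg u))
    (by rw [mul_pow]; nlinarith [sq_nonneg u]) (by rw [mul_pow]; nlinarith [sq_nonneg u]) hn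
  have hNe : P.Aq t p (0, 1) = P.ψ t * R := by rw [Prof.Aq, ← hRd]; ring
  have hN : P.Aq t p (0, 1) ≠ 0 := by rw [hNe]; exact mul_ne_zero hψ.ne' hR
  refine ⟨hN, ?_⟩
  rw [(h.hasDerivAt_kap p (0, 1) t hN).deriv, Prof.kap, hNe, hVn, h.A2_eq, h.A1_eq, ← hRd]
  have hA : P.Aq t (0, 1) (0, 1) = P.ψ t := by rw [Prof.Aq]; ring
  rw [hA]
  rw [h.deriv_b] at hcore
  simp only [Prof.a, Prof.b] at hcore ⊢
  clear_value u R
  rw [hP]
  have hD4 : 0 < P.ψ t ^ 3 := by positivity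
  refine le_of_mul_le_mul_right ?_ hD4
  refine le_of_eq_of_le ?_ (le_of_le_of_eq hcore ?_)
  · field_simp
  · field_simp
    ring

end Crest.Agent.R244
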