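import Crest.Agent.R244.Qk
import Crest.Agent.R244.Star2
import Crest.Agent.R244.Mono
set_option autoImplicit false
open scoped ContDiff Topology
open Set Filter

noncomputable section
namespace Crest.Agent.R244
namespace Cert

/-- a branch function -/
def br (P : Prof) (p dp q : ℝ × ℝ) (κ : ℝ → ℝ) (w : St) : ℝ := Qf dp w - κ w.θ * P.Gf p q w

def GoodBr (P : Prof) (dp : ℝ × ℝ) (z : ℝ → St) (s : ℝ) (g : St → ℝ) : Prop :=
  ∃ D, HasDerivAt (fun r => g (z r)) D s ∧ P.low dp (z s) ≤ D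

variable {P : Prof} (h : P.OK) {p dp : ℝ × ℝ} {z : ℝ → St} {s : ℝ} (hs : SysC P p dp z s)
include h hs

lemma good_br (q : ℝ × ℝ) (κ : ℝ → ℝ) (κ' : ℝ) (hκ : HasDerivAt κ κ' (z s).θ)
    (c1 : κ (z s).θ * (P.V1 p (z s).θ - κ (z s).θ * P.Aq (z s).θ p q ^ 2) = 0)
    (c2 : κ (z s).θ ^ 2 * P.Aq (z s).θ q q ≤ -κ')
    (c3 : κ' * P.Aq (z s).θ p q ^ 2 + 2 * κ (z s).θ * P.Aq (z s).θ p q * P.A1 (z s).θ p q
          - P.A2 (z s).θ p p / 2 = 0) : GoodBr P dp z s (br P p dp q κ) := by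
  refine ⟨_, qk P h p dp q z s hs κ κ' hκ, ?_⟩
  rw [c1, c3, Prof.low]
  split_ifs with hz
  · obtain ⟨h1, h2, h3⟩ := hz
    simp [Prof.yf, Xf, h1, h2, h3]
  · have := h.Aq_nonneg (z s).θ (dp - (κ (z s).θ * P.yf p q (z s)) • q)
    have h2 : 0 ≤ (-κ' - κ (z s).θ ^ 2 * P.Aq (z s).θ q q) * P.yf p q (z s) ^ 2 :=
      mul_nonneg (by linarith) (sq_nonneg _)
    positivity

lemma good_kap (q : ℝ × ℝ) (hN : P.Aq (z s).θ p q ≠ 0)
    (hst : P.kap p q (z s).θ ^ 2 * P.Aq (z s).θ q q ≤ -deriv (P.kap p q) (z s).θ) :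
    GoodBr P dp z s (br P p dp q (P.kap p q)) := by
  have hd := h.hasDerivAt_kap p q (z s).θ hN
  refine good_br h hs q _ _ hd ?_ (by rw [← hd.deriv]; exact hst) ?_
  · rw [Prof.kap]; field_simp; ring
  · rw [Prof.kap]; field_simp; ring

lemma good_k1 (ht : (z s).θ ∈ Icc (0 : ℝ) (1 / 2)) (hp : p.1 ≠ 0) (hV : 0 ≤ P.V1 p (z s).θ) :
    GoodBr P dp z s (br P p dp (1, 0) (P.kap p (1, 0))) :=
  good_kap h hs _ (star1 P h p _ ht hp hV).1 (star1 P h p _ ht hp hV).2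

lemma good_k2 (ht : (z s).θ ∈ Icc (0 : ℝ) (1 / 2)) (hp : p.2 - P.lam (z s).θ * p.1 ≠ 0)
    (hV : P.V1 p (z s).θ ≤ 0) : GoodBr P dp z s (br P p dp (0, 1) (P.kap p (0, 1))) :=
  good_kap h hs _ (star2 P h p _ ht hp hV).1 (star2 P h p _ ht hp hV).2

lemma good_Q (hp : p = 0) : GoodBr P dp z s (Qf dp) := by
  have := good_br h hs (1, 0) (fun _ => 0) 0 (hasDerivAt_const _ _) (by simp) (by simp)
    (by rw [h.A2_eq]; simp [hp])
  have e : br P p dp (1, 0) (fun _ => 0) = Qf dp := by funext w; simp [br]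
  rwa [e] at this

lemma good_left (ht : (z s).θ ≤ 0) :
    GoodBr P dp z s (br P p dp (1, 0) (fun t => P.a t / P.φ t ^ 2)) := by
  have hφ := h.phi.pos (z s).θ
  have hd := (h.da (z s).θ).div ((h.dφ (z s).θ).pow 2) (pow_ne_zero 2 hφ.ne')
  have l0 := h.lam_left (z s).θ (by linarith)
  have l1 := h.dl_left (z s).θ (by linarith)
  have l2 := h.ddl_left (z s).θ (by linarith)
  have s1 := h.dψ_left _ ht
  have s2 := h.ddψ_left _ ht
  refine good_br h hs _ _ _ hd ?_ ?_ ?_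
  · rw [h.V1_eq]; simp only [Prof.Aq, Prof.b, l0, l1, s1]; field_simp; ring
  · have hc := h.phi.conv (z s).θ
    simp only [Prof.Aq, Prof.a, l0, Pi.pow_apply, Nat.cast_ofNat, Nat.add_one_sub_one, pow_one]
    have h3 : 0 < P.φ (z s).θ ^ 3 := by positivity
    refine le_of_mul_le_mul_right ?_ h3
    field_simp
    nlinarith
  · rw [h.A1_eq, h.A2_eq]
    simp only [Prof.Aq, Prof.a, l0, l1, l2, s1, s2, Pi.pow_apply, Nat.cast_ofNat,
      Nat.add_one_sub_one, pow_one]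
    field_simp; ring

lemma good_right (ht : 1 / 2 ≤ (z s).θ) :
    GoodBr P dp z s (br P p dp (0, 1) (fun t => -(P.b t / P.ψ t ^ 2))) := by
  have hψ := h.ψ_pos (z s).θ
  have hd := ((h.db (z s).θ).div ((h.dψ (z s).θ).pow 2) (pow_ne_zero 2 hψ.ne')).neg
  have l1 := h.dl_right (z s).θ (by linarith)
  have l2 := h.ddl_right (z s).θ (by linarith)
  have s1 := h.dφ_right _ ht
  have s2 := h.ddφ_right _ ht
  refine good_br h hs _ _ _ hd ?_ ?_ ?_
  · rw [h.V1_eq]; simp only [Prof.Aq, Prof.a, l1, s1]; field_simp; ring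
  · have hc := h.ψ_conv (z s).θ
    rw [h.deriv_b] at hc
    simp only [Prof.Aq, Prof.b, Pi.pow_apply, Nat.cast_ofNat, Nat.add_one_sub_one, pow_one] at hc ⊢
    have h3 : 0 < P.ψ (z s).θ ^ 3 := by positivity
    refine le_of_mul_le_mul_right ?_ h3
    field_simp
    nlinarith
  · rw [h.A1_eq, h.A2_eq]
    simp only [Prof.Aq, Prof.b, l1, l2, s1, s2, Pi.pow_apply, Nat.cast_ofNat,
      Nat.add_one_sub_one, pow_one]
    field_simp; ring

omit h hs in
/-- two branches -/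
lemma low2 {f : St → ℝ} {g₁ g₂ : St → ℝ} (h1 : GoodBr P dp z s g₁) (h2 : GoodBr P dp z s g₂)
    (hr : ∀ᶠ r in 𝓝[>] s, (g₁ (z r) ≤ f (z r) ∧ f (z s) ≤ g₁ (z s)) ∨
      (g₂ (z r) ≤ f (z r) ∧ f (z s) ≤ g₂ (z s)))
    (hl : ∀ᶠ r in 𝓝[<] s, (f (z r) ≤ g₁ (z r) ∧ g₁ (z s) ≤ f (z s)) ∨
      (f (z r) ≤ g₂ (z r) ∧ g₂ (z s) ≤ f (z s))) :
    LowDer (fun r => f (z r)) s (P.low dp (z s)) := by
  obtain ⟨D₁, d1, e1⟩ := h1
  obtain ⟨D₂, d2, e2⟩ := h2
  refine mono.2 2 _ ![fun r => g₁ (z r), fun r => g₂ (z r)] ![D₁, D₂] s _ ?_ ?_ ?_ ?_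
  · intro j; fin_cases j; exacts [d1, d2]
  · intro j; fin_cases j; exacts [e1, e2]
  · filter_upwards [hr] with r hr
    rcases hr with hr | hr; exacts [⟨0, hr⟩, ⟨1, hr⟩]
  · filter_upwards [hl] with r hr
    rcases hr with hr | hr; exacts [⟨0, hr⟩, ⟨1, hr⟩]

omit h hs in
/-- two branches without jumps -/
lemma low2' {f : St → ℝ} {g₁ g₂ : St → ℝ} (h1 : GoodBr P dp z s g₁) (h2 : GoodBr P dp z s g₂)
    (e1 : f (z s) = g₁ (z s)) (e2 : f (z s) = g₂ (z s))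
    (hr : ∀ᶠ r in 𝓝 s, f (z r) = g₁ (z r) ∨ f (z r) = g₂ (z r)) :
    LowDer (fun r => f (z r)) s (P.low dp (z s)) := by
  refine low2 h1 h2 ?_ ?_
  · filter_upwards [nhdsWithin_le_nhds hr] with r hr
    rcases hr with hr | hr
    exacts [Or.inl ⟨hr.ge, e1.le⟩, Or.inr ⟨hr.ge, e2.le⟩]
  · filter_upwards [nhdsWithin_le_nhds hr] with r hr
    rcases hr with hr | hr
    exacts [Or.inl ⟨hr.le, e1.ge⟩, Or.inr ⟨hr.le, e2.ge⟩]

omit h hs in
lemma low1 {f : St → ℝ} {g₁ : St → ℝ} (h1 : GoodBr P dp z s g₁)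
    (hr : ∀ᶠ r in 𝓝 s, f (z r) = g₁ (z r)) :
    LowDer (fun r => f (z r)) s (P.low dp (z s)) :=
  low2' h1 h1 hr.self_of_nhds hr.self_of_nhds (hr.mono fun _ h => Or.inl h)

omit h hs in
lemma cert_left {w : St} (hw : w.θ ≤ 0) :
    P.cert p dp w = br P p dp (1, 0) (fun t => P.a t / P.φ t ^ 2) w := by
  rw [Prof.cert, if_pos hw, br]

omit h hs in
lemma cert_right {w : St} (hw : 1 / 2 ≤ w.θ) :
    P.cert p dp w = br P p dp (0, 1) (fun t => -(P.b t / P.ψ t ^ 2)) w := by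
  rw [Prof.cert, if_neg (by linarith), if_pos hw, br]; ring

omit h hs in
lemma cert_pos {w : St} (h0 : 0 < w.θ) (h1 : w.θ < 1 / 2) (hV : 0 ≤ P.V1 p w.θ) :
    P.cert p dp w = br P p dp (1, 0) (P.kap p (1, 0)) w := by
  rw [Prof.cert, if_neg (by linarith), if_neg (by linarith), br]
  rcases hV.eq_or_lt with e | e
  · rw [if_neg (by linarith), if_neg (by linarith), Prof.kap, ← e]; simp
  · rw [if_pos e]

omit h hs in
lemma cert_neg {w : St} (h0 : 0 < w.θ) (h1 : w.θ < 1 / 2) (hV : P.V1 p w.θ ≤ 0) :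
    P.cert p dp w = br P p dp (0, 1) (P.kap p (0, 1)) w := by
  rw [Prof.cert, if_neg (by linarith), if_neg (by linarith), if_neg (by linarith), br]
  rcases hV.eq_or_lt with e | e
  · rw [if_neg (by linarith), Prof.kap, e]; simp
  · rw [if_pos e]

omit h hs in
lemma cert_zero {w : St} (h0 : 0 < w.θ) (h1 : w.θ < 1 / 2) (hV : P.V1 p w.θ = 0) :
    P.cert p dp w = Qf dp w := by
  rw [Prof.cert, if_neg (by linarith), if_neg (by linarith), if_neg (by linarith),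
    if_neg (by linarith)]

lemma contV : ContinuousAt (fun r => P.V1 p (z r).θ) s := by
  have := ((h.hasDerivAt_V1 p (z s).θ).comp s hs.θ).continuousAt
  exact this

omit h in
lemma side_pos (hτ : 0 < (z s).τ) : (∀ᶠ r in 𝓝[>] s, (z s).θ < (z r).θ) ∧
    (∀ᶠ r in 𝓝[<] s, (z r).θ < (z s).θ) := by
  have := Mono.slope hs.θ (half_pos hτ)
  constructor
  · filter_upwards [nhdsWithin_le_nhds this, self_mem_nhdsWithin] with r hr hrs
    have hp : 0 < r - s := sub_pos.2 hrs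
    have := (abs_le.1 hr).1
    rw [abs_of_pos hp] at this
    nlinarith
  · filter_upwards [nhdsWithin_le_nhds this, self_mem_nhdsWithin] with r hr hrs
    have hp : r - s < 0 := sub_neg.2 hrs
    have := (abs_le.1 hr).2
    rw [abs_of_neg hp] at this
    nlinarith

omit h in
lemma side_neg (hτ : (z s).τ < 0) : (∀ᶠ r in 𝓝[>] s, (z r).θ < (z s).θ) ∧
    (∀ᶠ r in 𝓝[<] s, (z s).θ < (z r).θ) := by
  have := Mono.slope hs.θ (half_pos (neg_pos.2 hτ))
  constructor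
  · filter_upwards [nhdsWithin_le_nhds this, self_mem_nhdsWithin] with r hr hrs
    have hp : 0 < r - s := sub_pos.2 hrs
    have := (abs_le.1 hr).2
    rw [abs_of_pos hp] at this
    nlinarith
  · filter_upwards [nhdsWithin_le_nhds this, self_mem_nhdsWithin] with r hr hrs
    have hp : r - s < 0 := sub_neg.2 hrs
    have := (abs_le.1 hr).1
    rw [abs_of_neg hp] at this
    nlinarith

end Cert
end Crest.Agent.R244
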