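import Crest.Agent.R244.CertAux
set_option autoImplicit false
open scoped ContDiff Topology
open Set Filter

noncomputable section
namespace Crest.Agent.R244
open Cert

theorem certHalf : CertHalfS := by
  intro P h p dp z s hs ht
  have ht0 : (z s).θ = 1 / 2 := ht
  have ht' : (z s).θ ∈ Icc (0 : ℝ) (1 / 2) := by rw [ht0]; constructor <;> norm_num
  have hin : ∀ᶠ r in 𝓝 s, 1 / 3 < (z r).θ :=
    hs.θ.continuousAt.eventually (Ioi_mem_nhds (show 1 / 3 < (z s).θ by linarith))
  have hb : 0 < P.b (z s).θ := h.b_pos (z s).θ (by rw [ht0]; constructor <;> norm_num)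
  have hψ := h.ψ_pos (z s).θ
  have l0 := h.lam_right (z s).θ (by rw [ht0]; norm_num)
  have l1 := h.dl_right (z s).θ (by rw [ht0]; norm_num)
  have ha : P.a (z s).θ = 0 := by rw [Prof.a, h.dφ_right _ ht0.ge]; simp
  have hVe : P.V1 p (z s).θ = -(P.b (z s).θ * (p.2 - P.lam (z s).θ * p.1) ^ 2) := by
    rw [h.V1_eq, ha, l1]; ring
  have g1 := good_right h hs ht0.ge
  have e1 := cert_right (P := P) (p := p) (dp := dp) ht0.ge
  by_cases hR : p.2 - P.lam (z s).θ * p.1 = 0
  · obtain ⟨g, gg, gs, ge⟩ : ∃ g : St → ℝ, GoodBr P dp z s g ∧ g (z s) = Qf dp (z s) ∧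
        ∀ w : St, 1 / 3 < w.θ → w.θ < 1 / 2 → P.cert p dp w = g w := by
      have hV0 : P.V1 p (z s).θ = 0 := by rw [hVe, hR]; simp
      by_cases hP : p.1 = 0
      · have hp : p = 0 := Prod.ext hP (by simpa [hP] using hR)
        exact ⟨_, good_Q h hs hp, rfl, fun w h0 h1 =>
          cert_zero (by linarith) h1 (by rw [h.V1_eq]; simp [hp])⟩
      · refine ⟨_, good_k1 h hs ht' hP hV0.ge,
          by simp [br, Prof.kap, hV0], fun w h0 h1 => cert_pos (by linarith) h1 ?_⟩
        rw [h.V1_eq, h.lam_right w.θ h0.le, ← l0, hR]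
        have : 0 ≤ P.a w.θ := by have := h.phi.mono w.θ; rw [Prof.a]; linarith
        nlinarith [sq_nonneg p.1]
    have jump : P.cert p dp (z s) =
        g (z s) + P.b (z s).θ / P.ψ (z s).θ ^ 2 * (z s).ξ₂ ^ 2 * (z s).τ := by
      rw [e1, gs]; simp only [br, Prof.Gf, Prof.Aq, Xf, hR]; ring
    have hk : 0 ≤ P.b (z s).θ / P.ψ (z s).θ ^ 2 * (z s).ξ₂ ^ 2 := by positivity
    rcases lt_trichotomy (z s).τ 0 with hτ | hτ | hτ
    · obtain ⟨s1, s2⟩ := side_neg hs hτ
      refine low2 g1 gg ?_ ?_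
      · filter_upwards [s1, nhdsWithin_le_nhds hin] with r hr hr'
        exact Or.inr ⟨(ge _ hr' (by linarith)).ge, by rw [jump]; nlinarith⟩
      · filter_upwards [s2] with r hr
        exact Or.inl ⟨(cert_right (by linarith)).le, e1.ge⟩
    · refine low2' g1 gg e1 (by rw [jump, hτ]; ring) ?_
      filter_upwards [hin] with r hr
      rcases le_or_gt (1 / 2) (z r).θ with e | e
      exacts [Or.inl (cert_right e), Or.inr (ge _ hr e)]
    · obtain ⟨s1, s2⟩ := side_pos hs hτ
      refine low2 g1 gg ?_ ?_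
      · filter_upwards [s1] with r hr
        exact Or.inl ⟨(cert_right (by linarith)).ge, e1.le⟩
      · filter_upwards [s2, nhdsWithin_le_nhds hin] with r hr hr'
        exact Or.inr ⟨(ge _ hr' (by linarith)).le, by rw [jump]; nlinarith⟩
  · have hv : P.V1 p (z s).θ < 0 := by rw [hVe, neg_lt_zero]; positivity
    refine low2' g1 (good_k2 h hs ht' hR hv.le) e1 ?_ ?_
    · rw [e1]; simp only [br, Prof.kap, hVe, Prof.Aq]; congr 2; field_simp; ring
    · filter_upwards [hin, (contV h hs).eventually (Iio_mem_nhds hv)] with r hr hr'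
      rcases le_or_gt (1 / 2) (z r).θ with e | e
      exacts [Or.inl (cert_right e), Or.inr (cert_neg (by linarith) e (le_of_lt hr'))]

end Crest.Agent.R244
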