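import Crest.Agent.R244.CertAux
set_option autoImplicit false
open scoped ContDiff Topology
open Set Filter

noncomputable section
namespace Crest.Agent.R244
open Cert

theorem certMid : CertMidS := by
  intro P h p dp z s hs ht
  have hin : ∀ᶠ r in 𝓝 s, (z r).θ ∈ Ioo (0 : ℝ) (1 / 2) :=
    hs.θ.continuousAt.eventually (Ioo_mem_nhds ht.1 ht.2)
  have hV := contV h hs
  have ht' : (z s).θ ∈ Icc (0 : ℝ) (1 / 2) := ⟨ht.1.le, ht.2.le⟩
  have ha : 0 < P.a (z s).θ := by have := h.phi.spos _ ⟨ht.1.le, ht.2⟩; rw [Prof.a]; linarith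
  have hb : 0 < P.b (z s).θ := h.b_pos _ ⟨ht.1, ht.2.le⟩
  have hVe := h.V1_eq p (z s).θ
  rcases lt_trichotomy (P.V1 p (z s).θ) 0 with hv | hv | hv
  · have hR : p.2 - P.lam (z s).θ * p.1 ≠ 0 := fun e => by
      rw [e] at hVe; nlinarith [sq_nonneg p.1]
    refine low1 (good_k2 h hs ht' hR hv.le) ?_
    filter_upwards [hin, hV.eventually (Iio_mem_nhds hv)] with r hr hr'
      using cert_neg hr.1 hr.2 (le_of_lt hr')
  · by_cases hp : p = 0
    · refine low1 (good_Q h hs hp) ?_
      filter_upwards [hin] with r hr using cert_zero hr.1 hr.2 (by rw [h.V1_eq]; simp [hp])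
    · have hP : p.1 ≠ 0 := fun e => by
        rw [e, hv] at hVe
        have : p.2 ^ 2 = 0 := by nlinarith [sq_nonneg p.2]
        exact hp (Prod.ext e (pow_eq_zero_iff (two_ne_zero) |>.1 this))
      have hR : p.2 - P.lam (z s).θ * p.1 ≠ 0 := fun e => by
        rw [e, hv] at hVe
        have : 0 < p.1 ^ 2 := by positivity
        nlinarith
      refine low2' (good_k1 h hs ht' hP hv.ge) (good_k2 h hs ht' hR hv.le)
        (cert_pos ht.1 ht.2 hv.ge) (cert_neg ht.1 ht.2 hv.le) ?_
      filter_upwards [hin] with r hr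
      rcases le_total 0 (P.V1 p (z r).θ) with e | e
      exacts [Or.inl (cert_pos hr.1 hr.2 e), Or.inr (cert_neg hr.1 hr.2 e)]
  · have hP : p.1 ≠ 0 := fun e => by
      rw [e] at hVe; nlinarith [sq_nonneg (p.2 - P.lam (z s).θ * 0)]
    refine low1 (good_k1 h hs ht' hP hv.le) ?_
    filter_upwards [hin, hV.eventually (Ioi_mem_nhds hv)] with r hr hr'
      using cert_pos hr.1 hr.2 (le_of_lt hr')

end Crest.Agent.R244
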