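import Crest.Agent.R244.Defs2
/-! Row 244, task CertNeck: the certificate near a point of the neck. -/
set_option autoImplicit false
open scoped ContDiff Manifold Topology
open Bundle Set Filter
open Crest.GeometryTopology.Geodesic Crest.GeometryTopology.CoordMetric
  Crest.GeometryTopology.ChartCurvature

noncomputable section
namespace Crest.Agent.R244

namespace CertNeck

lemma loc_const {f : ℝ → ℝ × ℝ} {s : ℝ} (h : ∀ᶠ r in 𝓝 s, HasDerivAt f 0 r) :
    ∀ᶠ r in 𝓝 s, f r = f s := by
  obtain ⟨ε, hε, hb⟩ := Metric.eventually_nhds_iff_ball.1 h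
  filter_upwards [Metric.ball_mem_nhds s hε] with r hr
  exact Metric.isOpen_ball.is_const_of_deriv_eq_zero (convex_ball s ε).isPreconnected
    (fun x hx => (hb x hx).differentiableAt.differentiableWithinAt)
    (fun x hx => (hb x hx).deriv) hr (Metric.mem_ball_self hε)

lemma lowDer_congr {f f' : ℝ → ℝ} {s c : ℝ} (h : f =ᶠ[𝓝 s] f') (hl : LowDer f' s c) :
    LowDer f s c := by
  intro ε hε
  obtain ⟨h1, h2⟩ := hl ε hε
  have e := h.eq_of_nhds
  constructor
  · filter_upwards [h1, nhdsWithin_le_nhds h] with r hr hr'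
    rw [e, hr']; exact hr
  · filter_upwards [h2, nhdsWithin_le_nhds h] with r hr hr'
    rw [e, hr']; exact hr

lemma tt_eq {M : Type} [TopologicalSpace M] [ChartedSpace E3 M] {m m' x : M} {k : E3}
    (h : (fun x => ch m' x) =ᶠ[𝓝 x] fun x => ch m x + k) : TT m' x = TT m x := by
  have hx : x ∈ (ch x).source := mem_chart_source E3 x
  have hc : Tendsto (ch x).symm (𝓝 (ch x x)) (𝓝 x) := by
    have := ((ch x).continuousAt_symm ((ch x).map_source hx)).tendsto
    rwa [(ch x).left_inv hx] at this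
  have h2 : trM x m' =ᶠ[𝓝 (ch x x)] fun y => trM x m y + k := hc.eventually h
  unfold TT
  rw [h2.fderiv_eq, fderiv_add_const]

end CertNeck

open CertNeck in
theorem certNeck (hCF : ChartFactsS) (hC : CongrS) (hNM : NeckMetS) (hNG : NeckGeoS)
    (hNJ : NeckJacS) (hPR : PureRhoS) (hO : CertOutS) (hMi : CertMidS) (hZ : CertZeroS)
    (hH : CertHalfS) : CertNeckS := by
  intro M _ _ _ P g N hP hI γ J gj s₀ hs₀
  have CF := hCF M g
  have NM := hNM P hP
  set m := γ s₀ with hm
  set c : ℝ → E3 := fun r => ch m (γ r) with hc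
  set K : ℝ → E3 := fun r => TT m (γ r) (J r) with hK
  have hsrc : ∀ᶠ s in 𝓝 s₀, γ s ∈ (ch m).source :=
    gj.cont.continuousAt.eventually ((ch m).open_source.mem_nhds (mem_chart_source E3 m))
  have hsys : ∀ s, γ s ∈ (ch m).source → HasDerivAt (P.mom c) 0 s ∧
      HasDerivAt (P.dmom c K) 0 s ∧ SysC P (P.mom c s) (P.dmom c K s) (jet c K) s := by
    intro s hs
    have h1 := gj.smooth_c m s hs
    have h2 := gj.smooth_J m s hs
    have hg : mic g m =ᶠ[𝓝 (c s)] P.GN := by
      filter_upwards [(ch m).open_target.mem_nhds ((ch m).map_source hs)] with y hy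
      exact hI.metN m hs₀ y hy
    have h3 := (hC _ _ _ hg).2.2 c K s rfl h1.continuousAt
    have h4 := h3.1.1 (gj.geo m s hs)
    have h5 := h3.2.1 (gj.jac m s hs)
    exact ⟨(hNG P hP c s h1 h4).1, hNJ P hP c K s h1 h2 h4 h5⟩
  have hp := loc_const (hsrc.mono fun s hs => (hsys s hs).1)
  have hdp := loc_const (hsrc.mono fun s hs => (hsys s hs).2.1)
  set p := P.mom c s₀ with hpd
  set dp := P.dmom c K s₀ with hdpd
  have hrho : (fun r => ipM g (γ r) (J r) (J r)) =ᶠ[𝓝 s₀] fun r => P.rho (jet c K r) := by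
    filter_upwards [hsrc] with r hr
    have e : ipL (mic g m) (ch m (γ r)) = ipL P.GN (ch m (γ r)) := by
      unfold ipL; rw [hI.metN m hs₀ _ ((ch m).map_source hr)]
    rw [← CF.tt_ip m (γ r) hr, e, NM.ip]
    simp only [Prof.rho, Prof.Bq, jet, hc, hK]
    ring
  have hcert : certM P g N γ J =ᶠ[𝓝 s₀] fun s => P.cert p dp (jet c K s) := by
    filter_upwards [hsrc, hp, hdp, hrho.eventually_nhds,
      gj.cont.continuousAt.eventually (hI.neck m hs₀)] with s hs e1 e2 e3 ⟨hN, k, hk0, hk⟩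
    have a1 : (fun r => ch (γ s) (γ r)) =ᶠ[𝓝 s] fun r => c r + k :=
      gj.cont.continuousAt.eventually hk
    have a2 : (fun r => TT (γ s) (γ r) (J r)) =ᶠ[𝓝 s] K := by
      filter_upwards [gj.cont.continuousAt.eventually hk.eventually_nhds] with r hr
      rw [tt_eq hr]
    have b1 : ch (γ s) (γ s) 0 = c s 0 := by
      have : ch (γ s) (γ s) = c s + k := a1.eq_of_nhds
      rw [this, PiLp.add_apply, hk0, add_zero]
    have b2 : deriv (fun r => ch (γ s) (γ r)) s = deriv c s := by
      rw [a1.deriv_eq, deriv_add_const]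
    have b3 : TT (γ s) (γ s) (J s) = K s := a2.eq_of_nhds
    have b4 := a2.deriv_eq
    unfold certM
    split_ifs with h
    · rw [← e1, ← e2]
      simp only [Prof.mom, Prof.dmom, jet, b1, b2, b3, b4]
    · have S := (hsys s hs).2.2
      rw [e1, e2] at S
      have h' : (jet c K s).θ ≤ 0 ∨ 1 / 2 ≤ (jet c K s).θ := by
        by_contra hcon
        push Not at hcon
        exact h ⟨hN, by rw [b1]; exact hcon.1, by rw [b1]; exact hcon.2⟩
      have e4 : (fun r => ipM g (γ r) (J r) (J r)) =ᶠ[𝓝 s] fun r => P.rho (jet c K r) := e3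
      rw [e4.deriv_eq, (hPR P hP p dp _ s S h').deriv]
      ring
  have S₀ := (hsys s₀ (mem_chart_source E3 m)).2.2
  have hφ := hP.phi.pos (c s₀ 0)
  have hψ := hP.ψ_pos (c s₀ 0)
  refine ⟨P.low dp (jet c K s₀), ?_, lowDer_congr hcert ?_, fun hJ => ?_⟩
  · unfold Prof.low
    split_ifs
    · have e : P.Aq (jet c K s₀).θ dp dp =
          P.φ (c s₀ 0) * dp.1 ^ 2 + P.ψ (c s₀ 0) * (dp.2 - P.lam (c s₀ 0) * dp.1) ^ 2 := by
        simp only [Prof.Aq, jet]; ring
      rw [e]; positivity
    · exact le_rfl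
  · rcases lt_trichotomy (jet c K s₀).θ 0 with h | h | h
    · exact hO P hP p dp _ s₀ S₀ (Or.inl h)
    · exact hZ P hP p dp _ s₀ S₀ h
    · rcases lt_trichotomy (jet c K s₀).θ (1 / 2) with h' | h' | h'
      · exact hMi P hP p dp _ s₀ S₀ ⟨h, h'⟩
      · exact hH P hP p dp _ s₀ S₀ h'
      · exact hO P hP p dp _ s₀ S₀ (Or.inr h')
  · have hK0 : K s₀ = 0 := by simp only [hK, hJ, map_zero]
    constructor
    · rw [hcert.eq_of_nhds]
      simp [Prof.cert, Qf, Prof.Gf, Xf, jet, hK0]
    · intro hne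
      have b11 : bas 1 1 = 1 := by simp [bas_apply]
      have b12 : bas 1 2 = 0 := by simp [bas_apply]
      have b21 : bas 2 1 = 0 := by simp [bas_apply]
      have b22 : bas 2 2 = 1 := by simp [bas_apply]
      set w := deriv K s₀ with hw
      have e : P.low dp (jet c K s₀) = w 0 ^ 2 +
          ((w 1 + P.lam (c s₀ 0) * w 2) ^ 2 / P.φ (c s₀ 0) + w 2 ^ 2 / P.ψ (c s₀ 0)) := by
        unfold Prof.low
        rw [if_pos (by simp [jet, hK0])]
        simp only [hdpd, Prof.dmom, Prof.Aq, Prof.Bq, jet, hK0, b11, b12, b21, b22, ← hw,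
          PiLp.zero_apply]
        field_simp
        ring
      rw [e]
      have p0 := sq_nonneg (w 0)
      have p1 : 0 ≤ (w 1 + P.lam (c s₀ 0) * w 2) ^ 2 / P.φ (c s₀ 0) := by positivity
      have p2 : 0 ≤ w 2 ^ 2 / P.ψ (c s₀ 0) := by positivity
      by_contra hcon
      push Not at hcon
      have q0 : w 0 = 0 := pow_eq_zero_iff (two_ne_zero) |>.1 (by linarith)
      have q2 : w 2 = 0 := by
        have : w 2 ^ 2 / P.ψ (c s₀ 0) = 0 := by linarith
        rw [div_eq_zero_iff] at this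
        exact pow_eq_zero_iff (two_ne_zero) |>.1 (this.resolve_right hψ.ne')
      have q1 : w 1 = 0 := by
        have : (w 1 + P.lam (c s₀ 0) * w 2) ^ 2 / P.φ (c s₀ 0) = 0 := by linarith
        rw [div_eq_zero_iff] at this
        have := pow_eq_zero_iff (two_ne_zero) |>.1 (this.resolve_right hφ.ne')
        rwa [q2, mul_zero, add_zero] at this
      apply hne
      ext i
      fin_cases i
      · exact q0
      · exact q1
      · exact q2

end Crest.Agent.R244
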