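import Crest.Agent.R244.CertAux
set_option autoImplicit false
open scoped ContDiff Topology
open Set Filter

noncomputable section
namespace Crest.Agent.R244
open Cert

theorem certOut : CertOutS := by
  intro P h p dp z s hs ht
  have hc := hs.θ.continuousAt
  rcases ht with ht | ht
  · refine low1 (good_left h hs (le_of_lt ht)) ?_
    filter_upwards [hc.eventually (Iio_mem_nhds ht)] with r hr using cert_left (le_of_lt hr)
  · refine low1 (good_right h hs (le_of_lt ht)) ?_
    filter_upwards [hc.eventually (Ioi_mem_nhds ht)] with r hr using cert_right (le_of_lt hr)

end Crest.Agent.R244
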