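import Crest.Agent.R244.Defs2
set_option autoImplicit false
open scoped ContDiff Topology
open Set Filter
open Crest.GeometryTopology.CoordMetric

noncomputable section
namespace Crest.Agent.R244
namespace Congr

lemma gam_eq {g g' : MF} {x : E3} (h : g =ᶠ[𝓝 x] g') : Gam g x = Gam g' x := by
  have hp : ∀ i j k : Fin 3, pderiv i (fun y => g y j k) x = pderiv i (fun y => g' y j k) x := by
    intro i j k
    have : (fun y => g y j k) =ᶠ[𝓝 x] fun y => g' y j k := h.mono fun y hy => by simp only [hy]
    simp only [pderiv, this.fderiv_eq]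
  simp only [Gam, christoffel, inverseField, hp, h.self_of_nhds]

end Congr

theorem congr : CongrS := by
  intro g g' x h
  have hG : Gam g =ᶠ[𝓝 x] Gam g' := h.eventually_nhds.mono fun y hy => Congr.gam_eq hy
  have hR : ∀ u v w, Rm g x u v w = Rm g' x u v w := fun u v w => by
    simp only [Rm, hG.fderiv_eq, hG.self_of_nhds]
  refine ⟨hG, hR, fun c J t hc hcont => ?_⟩
  subst hc
  have hc' : ∀ᶠ s in 𝓝 t, Gam g (c s) = Gam g' (c s) := hcont.eventually hG
  have hcov : cov g c J =ᶠ[𝓝 t] cov g' c J := hc'.mono fun s hs => by simp only [cov, hs]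
  constructor
  · simp only [GeoAt, hG.self_of_nhds]
  · have : cov g c (cov g c J) t = cov g' c (cov g' c J) t := by
      show deriv (cov g c J) t + Gam g (c t) (deriv c t) (cov g c J t) =
        deriv (cov g' c J) t + Gam g' (c t) (deriv c t) (cov g' c J t)
      rw [hcov.deriv_eq, hG.self_of_nhds, hcov.self_of_nhds]
    simp only [JacAt, this, hR]

end Crest.Agent.R244
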