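import Crest.Agent.R244.Defs2
set_option autoImplicit false
open scoped ContDiff Manifold Topology
open Bundle Set Filter
open Crest.GeometryTopology.Geodesic Crest.GeometryTopology.CoordMetric
  Crest.GeometryTopology.ChartCurvature

noncomputable section
namespace Crest.Agent.R244

namespace RhoDeriv

theorem hd_comp {F : Type} [NormedAddCommGroup F] [NormedSpace ℝ F] {f : E3 → F} {c : ℝ → E3}
    {t : ℝ} (hf : DifferentiableAt ℝ f (c t)) (hc : DifferentiableAt ℝ c t) :
    HasDerivAt (fun s => f (c s)) (fderiv ℝ f (c t) (deriv c t)) t :=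
  hf.hasFDerivAt.comp_hasDerivAt t hc.hasDerivAt

end RhoDeriv

/-- Row 244, task RhoDeriv: metric compatibility along curves. -/
theorem rhoDeriv (hG : GamBasicS) : RhoDerivS := by
  intro g U h
  have gb := hG g U h
  refine ⟨fun c V W t ht hc hV hW => ?_, fun c J t ht hc hJ => ?_⟩
  · have h1 : DifferentiableAt ℝ (ipL g) (c t) :=
      (gb.ip_smooth.contDiffAt (h.isOpen.mem_nhds ht)).differentiableAt (by simp)
    have h2 : HasDerivAt (fun s => ipL g (c s)) (fderiv ℝ (ipL g) (c t) (deriv c t)) t :=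
      RhoDeriv.hd_comp (F := E3 →L[ℝ] E3 →L[ℝ] ℝ) h1 hc
    have h3 := (h2.clm_apply hV.hasDerivAt).clm_apply hW.hasDerivAt
    refine h3.congr_deriv ?_
    have := gb.compat (c t) ht (deriv c t) (V t) (W t)
    simp only [cov, map_add, add_apply]
    rw [this]; ring
  · have h1 : ContDiffAt ℝ 1 (Gam g) (c t) :=
      (gb.gam_smooth.contDiffAt (h.isOpen.mem_nhds ht)).of_le (by exact_mod_cast le_top)
    have hc1 : ContDiffAt ℝ 1 c t := hc.of_le (by norm_num)
    have hJ1 : ContDiffAt ℝ 1 J t := hJ.of_le (by norm_num)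
    have h2 : ContDiffAt ℝ 1 (fun s => Gam g (c s)) t := h1.comp t hc1
    have hc' : ContDiffAt ℝ 1 (deriv c) t := hc.derivWithin (by norm_num)
    have hJ' : ContDiffAt ℝ 1 (deriv J) t := hJ.derivWithin (by norm_num)
    exact hJ'.add ((h2.clm_apply hc').clm_apply hJ1)

end Crest.Agent.R244
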