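import Crest.Agent.R244.Mono
import Crest.Agent.R244.Congr
import Crest.Agent.R244.RhoDeriv
import Crest.Agent.R244.CertNeck
set_option autoImplicit false
open scoped ContDiff Manifold Topology
open Set Filter
open Crest.GeometryTopology.CoordMetric

noncomputable section
namespace Crest.Agent.R244
namespace CertPiece

lemma gam_const (G₀ : Matrix (Fin 3) (Fin 3) ℝ) : Gam (fun _ => G₀) = fun _ => 0 := by
  funext x
  ext u v k
  simp [Gam_apply, christoffel, pderiv]

end CertPiece

theorem certPiece (hG : GamBasicS) (hCF : ChartFactsS) : CertPieceS := by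
  intro M _ _ _ P g N _ hI γ J gj s₀ hs₀
  have CF := hCF M g
  set m := γ s₀ with hm
  set c : ℝ → E3 := fun r => ch m (γ r) with hc
  set K : ℝ → E3 := fun r => TT m (γ r) (J r) with hK
  have hm0 : γ s₀ ∈ (ch m).source := mem_chart_source E3 m
  have hsrc : ∀ᶠ s in 𝓝 s₀, γ s ∈ (ch m).source :=
    gj.cont.continuousAt.eventually ((ch m).open_source.mem_nhds hm0)
  have ht0 : c s₀ ∈ (ch m).target := (ch m).map_source hm0
  obtain ⟨G₀, hG₀⟩ := hI.metP m hs₀
  have hg : mic g m =ᶠ[𝓝 (c s₀)] fun _ => G₀ := by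
    filter_upwards [(ch m).open_target.mem_nhds ht0] with y hy using hG₀ y hy
  obtain ⟨hGam, hRm, -⟩ := congr _ _ _ hg
  rw [CertPiece.gam_const] at hGam
  have hRm0 : ∀ u v w, Rm (mic g m) (c s₀) u v w = 0 := fun u v w => by
    rw [hRm]; simp [Rm, CertPiece.gam_const]
  obtain ⟨R1, R2⟩ := rhoDeriv hG _ _ (CF.riem m)
  have GB := hG _ _ (CF.riem m)
  have hrho : ∀ᶠ r in 𝓝 s₀, ipM g (γ r) (J r) (J r) = ipL (mic g m) (c r) (K r) (K r) := by
    filter_upwards [hsrc] with r hr using (CF.tt_ip m (γ r) hr _ _).symm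
  have hcert : certM P g N γ J =ᶠ[𝓝 s₀]
      fun r => ipL (mic g m) (c r) (cov (mic g m) c K r) (K r) := by
    filter_upwards [hsrc, hrho.eventually_nhds, gj.cont.continuousAt.eventually (hI.away m hs₀)]
      with r hr hr2 hr3
    have d1 := (gj.smooth_c m r hr).differentiableAt (by norm_num)
    have d2 := (gj.smooth_J m r hr).differentiableAt (by norm_num)
    have h1 := R1 c K K r ((ch m).map_source hr) d1 d2 d2
    have hr2' : (fun r => ipM g (γ r) (J r) (J r)) =ᶠ[𝓝 r]
        fun r => ipL (mic g m) (c r) (K r) (K r) := hr2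
    rw [certM, if_neg hr3, hr2'.deriv_eq, h1.deriv,
      GB.ip_symm _ ((ch m).map_source hr) (K r)]
    ring
  have c1 := gj.smooth_c m s₀ hm0
  have c2 := gj.smooth_J m s₀ hm0
  have hd := R1 c (cov (mic g m) c K) K s₀ ht0 (c1.differentiableAt (by norm_num))
    ((R2 c K s₀ ht0 c1 c2).differentiableAt (by norm_num)) (c2.differentiableAt (by norm_num))
  have hj : cov (mic g m) c (cov (mic g m) c K) s₀ = 0 := by
    have := gj.jac m s₀ hm0
    rw [JacAt, hRm0, add_zero] at this
    exact this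
  have hcov : cov (mic g m) c K s₀ = deriv K s₀ := by
    show deriv K s₀ + Gam (mic g m) (c s₀) (deriv c s₀) (K s₀) = _
    rw [hGam.self_of_nhds]; simp
  rw [hj, hcov] at hd
  simp only [map_zero, ContinuousLinearMap.zero_apply, zero_add] at hd
  refine ⟨ipL (mic g m) (c s₀) (deriv K s₀) (deriv K s₀), ?_, ?_, fun hJ => ⟨?_, fun hne => ?_⟩⟩
  · by_cases h0 : deriv K s₀ = 0
    · simp [h0]
    · exact (GB.ip_pos _ ht0 _ h0).le
  · refine CertNeck.lowDer_congr hcert ?_
    refine mono.2 1 _ (fun _ => _) (fun _ => _) s₀ _ (fun _ => hd) (fun _ => le_rfl) ?_ ?_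
    · exact Eventually.of_forall fun r => ⟨0, le_rfl, le_rfl⟩
    · exact Eventually.of_forall fun r => ⟨0, le_rfl, le_rfl⟩
  · rw [hcert.self_of_nhds]
    simp [hK, hJ]
  · exact GB.ip_pos _ ht0 _ hne

end Crest.Agent.R244
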