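import Crest.Agent.R244.CertAux
set_option autoImplicit false
open scoped ContDiff Topology
open Set Filter

noncomputable section
namespace Crest.Agent.R244
open Cert

theorem certZero : CertZeroS := by
  intro P h p dp z s hs ht
  have ht0 : (z s).θ = 0 := ht
  have ht' : (z s).θ ∈ Icc (0 : ℝ) (1 / 2) := by rw [ht0]; constructor <;> norm_num
  have hin : ∀ᶠ r in 𝓝 s, (z r).θ < 1 / 6 :=
    hs.θ.continuousAt.eventually (Iio_mem_nhds (show (z s).θ < 1 / 6 by linarith))
  have ha : 0 < P.a (z s).θ := by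
    have := h.phi.spos (z s).θ (by rw [ht0]; constructor <;> norm_num); rw [Prof.a]; linarith
  have hφ := h.phi.pos (z s).θ
  have l0 := h.lam_left (z s).θ (by rw [ht0]; norm_num)
  have l1 := h.dl_left (z s).θ (by rw [ht0]; norm_num)
  have hb : P.b (z s).θ = 0 := by rw [Prof.b, h.dψ_left _ ht0.le]; simp
  have hVe : P.V1 p (z s).θ = P.a (z s).θ * p.1 ^ 2 := by rw [h.V1_eq, hb, l1]; ring
  have g1 := good_left h hs ht0.le
  have e1 := cert_left (P := P) (p := p) (dp := dp) ht0.le
  by_cases hP : p.1 = 0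
  · -- the second branch `g`
    obtain ⟨g, gg, gs, ge⟩ : ∃ g : St → ℝ, GoodBr P dp z s g ∧ g (z s) = Qf dp (z s) ∧
        ∀ w : St, 0 < w.θ → w.θ < 1 / 6 → P.cert p dp w = g w := by
      have hV0 : P.V1 p (z s).θ = 0 := by rw [hVe, hP]; simp
      by_cases hR : p.2 = 0
      · have hp : p = 0 := Prod.ext hP hR
        exact ⟨_, good_Q h hs hp, rfl, fun w h0 h1 =>
          cert_zero h0 (by linarith) (by rw [h.V1_eq]; simp [hp])⟩
      · refine ⟨_, good_k2 h hs ht' (by rw [hP]; simpa using hR) hV0.le,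
          by simp [br, Prof.kap, hV0], fun w h0 h1 => cert_neg h0 (by linarith) ?_⟩
        rw [h.V1_eq, hP]
        have := h.b_nonneg w.θ
        nlinarith [sq_nonneg (p.2 - P.lam w.θ * 0)]
    have jump : P.cert p dp (z s) =
        g (z s) - P.a (z s).θ / P.φ (z s).θ ^ 2 * (z s).ξ₁ ^ 2 * (z s).τ := by
      rw [e1, gs]; simp only [br, Prof.Gf, Prof.Aq, Xf, hP, l0]; ring
    have hk : 0 ≤ P.a (z s).θ / P.φ (z s).θ ^ 2 * (z s).ξ₁ ^ 2 := by positivity
    rcases lt_trichotomy (z s).τ 0 with hτ | hτ | hτ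
    · obtain ⟨s1, s2⟩ := side_neg hs hτ
      refine low2 g1 gg ?_ ?_
      · filter_upwards [s1] with r hr
        exact Or.inl ⟨(cert_left (by linarith)).ge, e1.le⟩
      · filter_upwards [s2, nhdsWithin_le_nhds hin] with r hr hr'
        exact Or.inr ⟨(ge _ (by linarith) hr').le, by rw [jump]; nlinarith⟩
    · refine low2' g1 gg e1 (by rw [jump, hτ]; ring) ?_
      filter_upwards [hin] with r hr
      rcases le_or_gt (z r).θ 0 with e | e
      exacts [Or.inl (cert_left e), Or.inr (ge _ e hr)]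
    · obtain ⟨s1, s2⟩ := side_pos hs hτ
      refine low2 g1 gg ?_ ?_
      · filter_upwards [s1, nhdsWithin_le_nhds hin] with r hr hr'
        exact Or.inr ⟨(ge _ (by linarith) hr').ge, by rw [jump]; nlinarith⟩
      · filter_upwards [s2] with r hr
        exact Or.inl ⟨(cert_left (by linarith)).le, e1.ge⟩
  · have hv : 0 < P.V1 p (z s).θ := by rw [hVe]; positivity
    refine low2' g1 (good_k1 h hs ht' hP hv.le) e1 ?_ ?_
    · rw [e1]; simp only [br, Prof.kap, hVe, Prof.Aq, l0]; congr 2; field_simp; ring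
    · filter_upwards [hin, (contV h hs).eventually (Ioi_mem_nhds hv)] with r hr hr'
      rcases le_or_gt (z r).θ 0 with e | e
      exacts [Or.inl (cert_left e), Or.inr (cert_pos e (by linarith) (le_of_lt hr'))]

end Crest.Agent.R244
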