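import Crest.Agent.R244.TanAux
/-! Row 244, task `ChartFacts`. -/
set_option autoImplicit false
open scoped ContDiff Manifold Topology
open Bundle Set Filter
open Crest.GeometryTopology.Geodesic Crest.GeometryTopology.CoordMetric
  Crest.GeometryTopology.ChartCurvature

noncomputable section
namespace Crest.Agent.R244

namespace ChartFacts
open TanAux
variable {M : Type} [TopologicalSpace M] [ChartedSpace E3 M] [IsManifold I3 ∞ M]

theorem fd_ne {z : M} {y : E3} (hy : y ∈ (ch z).target) {u : E3} (hu : u ≠ 0) :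
    fderiv ℝ (trM z ((ch z).symm y)) y u ≠ 0 := by
  intro h
  have hx : (ch z).symm y ∈ (ch z).source := (ch z).map_target hy
  have h1 := fd_comp (a := z) (b := (ch z).symm y) (c := z) hx (mem_chart_source E3 _) hx u
  rw [fd_self hx, (ch z).right_inv hy, h, map_zero] at h1
  exact hu h1.symm

theorem pull (g : RM M) (x z : M) {y : E3} (hy : y ∈ dom x z) (u v : E3) :
    ipL (mic g x) y u v = ipL (mic g z) (trM x z y) (fderiv ℝ (trM x z) y u)
      (fderiv ℝ (trM x z) y v) := by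
  obtain ⟨hy1, hy2⟩ := hy
  obtain ⟨w, hwx, rfl⟩ : ∃ w ∈ (ch x).source, ch x w = y :=
    ⟨(ch x).symm y, (ch x).map_target hy1, (ch x).right_inv hy1⟩
  have hwz : w ∈ (ch z).source := by
    have : (ch x).symm (ch x w) ∈ (ch z).source := hy2
    rwa [(ch x).left_inv hwx] at this
  rw [trM_apply z hwx, ipL_mic g hy1, ipL_mic g ((ch z).map_source hwz)]
  have e1 : (ch x).symm (ch x w) = w := (ch x).left_inv hwx
  have e2 : (ch z).symm (ch z w) = w := (ch z).left_inv hwz
  have key : ∀ a b : M, a = w → b = w →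
      g.inner a (fderiv ℝ (trM x a) (ch x w) u) (fderiv ℝ (trM x a) (ch x w) v) =
      g.inner b (fderiv ℝ (trM z b) (ch z w) (fderiv ℝ (trM x z) (ch x w) u))
        (fderiv ℝ (trM z b) (ch z w) (fderiv ℝ (trM x z) (ch x w) v)) := by
    rintro a b rfl rfl
    rw [fd_comp hwx hwz (mem_chart_source E3 _), fd_comp hwx hwz (mem_chart_source E3 _)]
  exact key _ _ e1 e2

theorem smooth_at (g : RM M) (x : M) :
    ∃ F : E3 → (E3 →L[ℝ] E3 →L[ℝ] ℝ), ContDiffAt ℝ ∞ F (ch x x) ∧
      ∀ y ∈ (ch x).target, ∀ u v, F y u v = ipL (mic g x) y u v := by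
  let f : M → (E3 →L[ℝ] E3 →L[ℝ] ℝ) := fun w => (trivializationAt (E3 →L[ℝ] E3 →L[ℝ] ℝ)
      (fun x : M => TangentSpace I3 x →L[ℝ] TangentSpace I3 x →L[ℝ] ℝ) x ⟨w, g.inner w⟩).2
  have hf : ContMDiffAt I3 𝓘(ℝ, E3 →L[ℝ] E3 →L[ℝ] ℝ) ∞ f x :=
    (contMDiffAt_section (IB := I3) (n := ∞) x).1 (g.contMDiff x)
  have hs : ContMDiffAt I3 I3 ∞ (ch x).symm (ch x x) :=
    (contMDiffOn_chart_symm (I := I3) (n := ∞) (x := x)).contMDiffAt
      ((ch x).open_target.mem_nhds (mem_chart_target E3 x))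
  have h2 : ContMDiffAt I3 𝓘(ℝ, E3 →L[ℝ] E3 →L[ℝ] ℝ) ∞ (f ∘ (ch x).symm) (ch x x) :=
    hf.comp_of_eq hs ((ch x).left_inv (mem_chart_source E3 x))
  refine ⟨f ∘ (ch x).symm, contMDiffAt_iff_contDiffAt.1 h2, fun y hy u v => ?_⟩
  have hx : (ch x).symm y ∈ (ch x).source := (ch x).map_target hy
  rw [ipL_mic g hy]
  have := triv_apply g.inner hx u v
  rw [(ch x).right_inv hy] at this
  exact this

theorem smooth_entry (g : RM M) (z : M) (i j : Fin 3) :
    ContDiffOn ℝ ∞ (fun y => mic g z y i j) (ch z).target := by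
  intro y hy
  obtain ⟨x, hx, rfl⟩ : ∃ w ∈ (ch z).source, ch z w = y :=
    ⟨(ch z).symm y, (ch z).map_target hy, (ch z).right_inv hy⟩
  obtain ⟨F, hF, hF'⟩ := smooth_at g x
  have hd : ch z x ∈ dom z x := mem_dom hx (mem_chart_source E3 x)
  have hn : dom z x ∈ 𝓝 (ch z x) := (isOpen_dom z x).mem_nhds hd
  have ht : ContDiffAt ℝ ∞ (trM z x) (ch z x) := (trM_smooth z x).contDiffAt hn
  have hD : ContDiffAt ℝ ∞ (fderiv ℝ (trM z x)) (ch z x) := ht.fderiv_right (by simp)
  have hF2 : ContDiffAt ℝ ∞ (fun y => F (trM z x y)) (ch z x) := by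
    refine ContDiffAt.comp (ch z x) (g := F) ?_ ht
    rw [trM_apply x hx]; exact hF
  have h4 : ContDiffAt ℝ ∞ (fun y => F (trM z x y) (fderiv ℝ (trM z x) y (bas i))
      (fderiv ℝ (trM z x) y (bas j))) (ch z x) :=
    (hF2.clm_apply (hD.clm_apply contDiffAt_const)).clm_apply (hD.clm_apply contDiffAt_const)
  refine (h4.congr_of_eventuallyEq ?_).contDiffWithinAt
  filter_upwards [hn] with y hy
  rw [← ipL_bas (mic g z) y i j, pull g z x hy]
  exact (hF' _ ((ch x).map_source hy.2) _ _).symm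

theorem riem0 (g : RM M) (z : M) : IsRiemannianOn (mic g z) (ch z).target := by
  refine ⟨(ch z).open_target, smooth_entry g z, fun y hy => ?_⟩
  rw [Matrix.posDef_iff_dotProduct_mulVec]
  constructor
  · ext i j
    simp only [Matrix.conjTranspose_apply, star_trivial]
    rw [← ipL_bas (mic g z) y i j, ← ipL_bas (mic g z) y j i, ipL_mic g hy, ipL_mic g hy]
    exact g.symm _ _ _
  · intro x hx
    have hu : (WithLp.toLp 2 x : E3) ≠ 0 := fun h => hx (by simpa using h)
    have h : 0 < ipL (mic g z) y (WithLp.toLp 2 x : E3) (WithLp.toLp 2 x : E3) := by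
      rw [ipL_mic g hy]
      exact g.pos ((ch z).symm y) _ (fd_ne hy hu)
    rw [ipL_apply] at h
    refine h.trans_eq ?_
    simp only [dotProduct, Matrix.mulVec, Fin.sum_univ_three, star_trivial]
    ring

end ChartFacts

open TanAux in
theorem chartFacts : ChartFactsS := by
  intro M _ _ _ g
  refine ⟨ChartFacts.riem0 g, fun x z => ⟨?_, ChartFacts.riem0 g z, trM_smooth x z, ?_, ?_⟩,
    fun z x hx v => ?_, fun x v => ?_, fun x z z' hz hz' v => ?_, fun z x hx w => ?_,
    fun z x hx u v => ?_⟩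
  · have h := ChartFacts.riem0 g x
    exact ⟨isOpen_dom x z, fun i j => (h.contDiffOn i j).mono inter_subset_left,
      fun y hy => h.posDef y hy.1⟩
  · intro y hy
    exact (ch z).map_source hy.2
  · intro y hy u v
    exact ChartFacts.pull g x z hy u v
  · rw [mfd hx]; rfl
  · exact fd_self (mem_chart_source E3 x) v
  · exact fd_comp (mem_chart_source E3 x) hz hz' v
  · show fderiv ℝ (trM x z) (ch x x) _ = w
    rw [fd_comp hx (mem_chart_source E3 x) hx, fd_self hx]
  · have h := ChartFacts.pull g x z (mem_dom (mem_chart_source E3 x) hx) u v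
    rw [trM_apply z (mem_chart_source E3 x)] at h
    exact h.symm

end Crest.Agent.R244
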