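import Crest.Agent.R244.Defs2
/-!
Row 244, task Compare: lifts of geodesics under an expanding map are short.
-/
set_option autoImplicit false
open scoped Topology ContDiff Manifold
open Set Filter

noncomputable section
namespace Crest.Agent.R244

theorem compare (_hG : GamBasicS) (hC : ChartFactsS) : CompareS := by
  intro M _ _ _ g Fl hF B e he y u σ hσ hl
  have hc := hC M g
  have hnn : ∀ w, 0 ≤ B w w := fun w => by
    rcases eq_or_ne w 0 with rfl | hw
    · simp
    · exact (he.pos w hw).le
  have key : ∀ t, ∃ σ' : E3, HasDerivAt σ σ' t ∧ B σ' σ' ≤ ipM g y u u := by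
    intro t
    have hz : e (σ t) ∈ (ch (e (σ t))).source := mem_chart_source E3 _
    generalize hzz : e (σ t) = z at hz
    have hz' : e (σ t) ∈ (ch z).source := hzz ▸ hz
    obtain ⟨A, hA, hB⟩ := he.der (σ t) z hz'
    have hinj : Function.Injective (A : E3 →ₗ[ℝ] E3) := by
      refine (injective_iff_map_eq_zero _).2 fun w hw => ?_
      by_contra hne
      have h1 := hB w
      have h2 := he.pos w hne
      rw [show A w = 0 from hw] at h1
      simp at h1
      linarith
    let A' : E3 ≃L[ℝ] E3 := (LinearEquiv.ofInjectiveEndo _ hinj).toContinuousLinearEquiv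
    have hA' : HasStrictFDerivAt (fun w => ch z (e w)) (A' : E3 →L[ℝ] E3) (σ t) := hA
    have hzt : (Fl t (y, u)).1 ∈ (ch z).source := hl t ▸ hz'
    have hd : HasDerivAt (fun s => ch z (e (σ s))) (TT z (Fl t (y, u)).1 (Fl t (y, u)).2) t := by
      simp only [hl]
      exact (ContinuousLinearMap.fst ℝ E3 E3).hasFDerivAt.comp_hasDerivAt t
        ((hF.sol (y, u) t).2 z hzt)
    have h1 := hA'.to_localInverse.hasFDerivAt.comp_hasDerivAt t hd
    refine ⟨_, h1.congr_of_eventuallyEq
      ((hσ.continuousAt.eventually hA'.eventually_left_inverse).mono fun s hs => hs.symm), ?_⟩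
    refine (hB _).trans (le_of_eq ?_)
    have h2 : ∀ w, A (A'.symm w) = w := fun w => A'.apply_symm_apply w
    simp only [ContinuousLinearEquiv.coe_coe, h2]
    rw [hl, hc.tt_ip z _ hzt, hF.speed]
  choose σ' hd hb using key
  obtain ⟨t, -, ht⟩ := exists_hasDerivAt_eq_slope (fun s => B (σ 1 - σ 0) (σ s))
    (fun s => B (σ 1 - σ 0) (σ' s)) zero_lt_one
    ((B (σ 1 - σ 0)).continuous.comp hσ).continuousOn
    fun s _ => (B (σ 1 - σ 0)).hasFDerivAt.comp_hasDerivAt s (hd s)
  simp only [sub_zero, div_one, ← map_sub] at ht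
  have h1 := hnn ((σ 1 - σ 0) - σ' t)
  generalize σ 1 - σ 0 = W at ht h1 ⊢
  simp only [map_sub, ContinuousLinearMap.sub_apply] at h1
  have h2 := he.symm (σ' t) W
  have h3 := hb t
  linarith

end Crest.Agent.R244
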