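import Crest.Agent.R244.Defs2
/-!
Row 244, task CoverCrit: a locally expanding local homeomorphism is a covering map.
-/
set_option autoImplicit false
open scoped Topology
open Set Filter

noncomputable section
namespace Crest.Agent.R244

namespace CoverCrit

variable {M : Type} [TopologicalSpace M]

theorem lift1 [T2Space M] {e : E3 → M} (he : IsLocalHomeomorph e) {γ : ℝ → M} (hγ : Continuous γ)
    {L : ℝ} (hL0 : 0 ≤ L)
    (hL : ∀ w t, e w = γ t → ∃ W ∈ 𝓝 w, ∀ w' ∈ W, ∀ s, e w' = γ s → dist w' w ≤ L * |s - t|)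
    {v : E3} (hv : e v = γ 0) :
    ∃ Γ : ℝ → E3, ContinuousOn Γ (Icc 0 1) ∧ Γ 0 = v ∧ ∀ t ∈ Icc (0 : ℝ) 1, e (Γ t) = γ t := by
  let P : Set (ℝ × E3) := {p | p.1 ∈ Icc (0 : ℝ) 1 ∧ ∃ Γ : ℝ → E3, ContinuousOn Γ (Icc 0 p.1) ∧
    Γ 0 = v ∧ Γ p.1 = p.2 ∧ ∀ t ∈ Icc (0 : ℝ) p.1, e (Γ t) = γ t}
  have hP : P ⊆ Icc (0 : ℝ) 1 ×ˢ Metric.closedBall v L := by
    rintro ⟨τ, w⟩ ⟨hτ, Γ, hc, h0, h1, hl⟩
    simp only at hτ hc h1 hl
    refine ⟨hτ, ?_⟩
    have : τ ∈ {t | dist (Γ t) v ≤ L * t} := by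
      refine IsClosed.mem_of_ge_of_forall_exists_gt (a := 0) ?_ (by simp [h0]) hτ.1 ?_
      · rw [inter_comm]
        exact isClosed_Icc.isClosed_le (f := fun t => dist (Γ t) v) (g := fun t => L * t)
          ((continuous_id.dist continuous_const).comp_continuousOn hc) (by fun_prop)
      · rintro x ⟨hx1, hx2⟩
        have hx : x ∈ Icc 0 τ := Ico_subset_Icc_self hx2
        obtain ⟨W, hW, hW'⟩ := hL _ x (hl x hx)
        have h2 : Γ ⁻¹' W ∈ 𝓝[Ioc x τ] x :=
          nhdsWithin_mono x (show Ioc x τ ⊆ Icc 0 τ from fun y hy => ⟨hx.1.trans hy.1.le, hy.2⟩)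
            (hc x hx hW)
        have := left_nhdsWithin_Ioc_neBot hx2.2
        obtain ⟨y, hy1, hy2⟩ := Filter.nonempty_of_mem (inter_mem h2 self_mem_nhdsWithin)
        refine ⟨y, ?_, hy2⟩
        have h3 := hW' _ hy1 y (hl y ⟨hx.1.trans hy2.1.le, hy2.2⟩)
        rw [abs_of_pos (sub_pos.2 hy2.1)] at h3
        have h4 := dist_triangle (Γ y) (Γ x) v
        simp only [mem_ofPred_eq] at hx1 ⊢
        linarith
    simp only [mem_ofPred_eq] at this
    rw [Metric.mem_closedBall, ← h1]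
    nlinarith [hτ.2]
  have hK : IsCompact (closure P) :=
    (isCompact_Icc.prod (isCompact_closedBall v L)).closure_of_subset hP
  have h0 : ((0 : ℝ), v) ∈ P :=
    ⟨⟨le_rfl, zero_le_one⟩, fun _ => v, continuousOn_const, rfl, rfl, fun t ht => by
      rw [le_antisymm ht.2 ht.1]; exact hv⟩
  obtain ⟨⟨τ, w⟩, hτ, hmax⟩ := hK.exists_isMaxOn ⟨_, subset_closure h0⟩ continuous_fst.continuousOn
  have hw : e w = γ τ := by
    have : closure P ⊆ {p | e p.2 = γ p.1} :=
      closure_minimal (fun p ⟨hp, Γ, _, _, h1, hl⟩ => by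
        rw [mem_ofPred_eq, ← h1]; exact hl _ ⟨hp.1, le_rfl⟩)
        (isClosed_eq (he.continuous.comp continuous_snd) (hγ.comp continuous_fst))
    exact this hτ
  obtain ⟨q, hq, rfl⟩ := he w
  obtain ⟨ε, hε, hball⟩ := Metric.mem_nhds_iff.1
    (hγ.continuousAt.preimage_mem_nhds (q.open_target.mem_nhds (hw ▸ q.map_source hq)))
  obtain ⟨⟨τ', w'⟩, ⟨h1, h2⟩, hτ', Γ, hc, hΓ0, hΓ1, hl⟩ := mem_closure_iff_nhds.1 hτ _
    (prod_mem_nhds (Metric.ball_mem_nhds τ hε) (q.open_source.mem_nhds hq))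
  simp only at h1 h2 hτ' hc hΓ1 hl
  have hle : τ' ≤ τ := hmax (subset_closure (show (τ', w') ∈ P from ⟨hτ', Γ, hc, hΓ0, hΓ1, hl⟩))
  set τ'' := min (τ + ε / 2) 1 with hτ''
  have hle' : τ' ≤ τ'' := le_min (by linarith) hτ'.2
  have hin : ∀ t ∈ Icc τ' τ'', γ t ∈ q.target := by
    intro t ht
    refine hball ?_
    rw [Metric.mem_ball, Real.dist_eq, abs_lt] at h1 ⊢
    have := ht.2.trans (min_le_left _ _)
    constructor <;> linarith [ht.1]
  let Γ' : ℝ → E3 := fun t => if t ≤ τ' then Γ t else q.symm (γ t)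
  have hc' : ContinuousOn Γ' (Icc 0 τ'') := by
    rw [← Icc_union_Icc_eq_Icc hτ'.1 hle']
    refine ContinuousOn.union_of_isClosed (hc.congr fun t ht => if_pos ht.2)
      ((q.continuousOn_symm.comp hγ.continuousOn hin).congr fun t ht => ?_)
      isClosed_Icc isClosed_Icc
    by_cases h : t ≤ τ'
    · obtain rfl := le_antisymm h ht.1
      simp only [Γ', le_refl, if_true, Function.comp]
      rw [← hl t ⟨hτ'.1, le_rfl⟩, hΓ1, q.left_inv h2]
    · exact if_neg h
  have hl' : ∀ t ∈ Icc (0 : ℝ) τ'', q (Γ' t) = γ t := by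
    intro t ht
    by_cases h : t ≤ τ'
    · simp only [Γ', if_pos h]; exact hl t ⟨ht.1, h⟩
    · simp only [Γ', if_neg h]; exact q.right_inv (hin t ⟨(not_le.1 h).le, ht.2⟩)
  have h0' : Γ' 0 = v := by simp only [Γ', if_pos hτ'.1, hΓ0]
  have hmem : (τ'', Γ' τ'') ∈ P :=
    ⟨⟨hτ'.1.trans hle', min_le_right _ _⟩, Γ', hc', h0', rfl, hl'⟩
  have h3 : τ'' ≤ τ := hmax (subset_closure hmem)
  have h4 : τ'' = 1 := by
    rcases min_choice (τ + ε / 2) 1 with h | h
    · rw [← hτ''] at h; linarith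
    · exact h
  rw [h4] at hc' hl'
  exact ⟨Γ', hc', h0', hl'⟩

theorem seg_mem {c a b : E3} {r : ℝ} (ha : a ∈ Metric.closedBall c r)
    (hb : b ∈ Metric.closedBall c r) (t : unitInterval) :
    AffineMap.lineMap a b (t : ℝ) ∈ Metric.closedBall c r :=
  (convex_closedBall c r).lineMap_mem ha hb t.2

theorem liftSeg [T2Space M] {e : E3 → M} (he : IsLocalHomeomorph e)
    {φ : OpenPartialHomeomorph M E3} {c : E3} {r C : ℝ} (hC : 0 < C)
    (hr : Metric.closedBall c r ⊆ φ.target)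
    (hL : ∀ v, e v ∈ φ.source → φ (e v) ∈ Metric.closedBall c r →
      ∃ W ∈ 𝓝 v, ∀ v₁ ∈ W, ∀ v₂ ∈ W, dist v₁ v₂ ≤ C * dist (φ (e v₁)) (φ (e v₂)))
    {a b : E3} (ha : a ∈ Metric.closedBall c r) (hb : b ∈ Metric.closedBall c r)
    {v : E3} (hv : e v = φ.symm a) :
    ∃ Γ : unitInterval → E3, Continuous Γ ∧ Γ 0 = v ∧
      ∀ t, e (Γ t) = φ.symm (AffineMap.lineMap a b (t : ℝ)) := by
  let pr : ℝ → unitInterval := projIcc 0 1 zero_le_one
  have hm := fun t => hr (seg_mem ha hb (pr t))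
  obtain ⟨Γ, h1, h2, h3⟩ := lift1 he
    (γ := fun t => φ.symm (AffineMap.lineMap a b (pr t : ℝ)))
    (φ.continuousOn_symm.comp_continuous
      (AffineMap.lineMap_continuous.comp (continuous_subtype_val.comp continuous_projIcc)) hm)
    (L := C * dist a b) (by positivity) (fun w t hw => by
      obtain ⟨W, hW, hW'⟩ := hL w (hw ▸ φ.map_target (hm t))
        (by rw [hw, φ.right_inv (hm t)]; exact seg_mem ha hb _)
      refine ⟨W, hW, fun w' hw' s hs => (hW' w' hw' w (mem_of_mem_nhds hW)).trans ?_⟩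
      rw [hw, hs, φ.right_inv (hm t), φ.right_inv (hm s), dist_lineMap_lineMap, mul_assoc,
        mul_comm (dist a b)]
      refine mul_le_mul_of_nonneg_left (mul_le_mul_of_nonneg_right ?_ dist_nonneg) hC.le
      exact abs_projIcc_sub_projIcc zero_le_one)
    (v := v) (by simp [pr, hv])
  refine ⟨fun t => Γ t, h1.comp_continuous continuous_subtype_val fun t => t.2, h2, fun t => ?_⟩
  rw [h3 t t.2]
  simp [pr]

end CoverCrit

open CoverCrit in
theorem coverCrit : CoverCritS := by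
  intro M _ _ e ⟨he, H⟩ y₀
  obtain ⟨φ, r, C, hr0, hC, hy₀, hr, hL⟩ := H y₀
  set c := φ y₀ with hc
  have hcm : c ∈ Metric.closedBall c r := Metric.mem_closedBall_self hr0.le
  let V : Set M := φ.source ∩ φ ⁻¹' Metric.ball c r
  have hV : IsOpen V := φ.isOpen_inter_preimage Metric.isOpen_ball
  have hy₀V : y₀ ∈ V := ⟨hy₀, Metric.mem_ball_self hr0⟩
  have hVm : ∀ y : V, φ y ∈ Metric.closedBall c r := fun y => Metric.ball_subset_closedBall y.2.2
  have : DiscreteTopology (e ⁻¹' {y₀}) := by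
    have : DiscreteTopology (e '' (e ⁻¹' {y₀})) := by
      have : Subsingleton (e '' (e ⁻¹' {y₀})) :=
        (subsingleton_singleton.anti (image_preimage_subset e {y₀})).coe_sort
      infer_instance
    exact (he.isLocalHomeomorphOn (s := e ⁻¹' {y₀})).discreteTopology_of_image
  have sep : IsSeparatedMap e := T2Space.isSeparatedMap e
  have hex : ∀ (v : e ⁻¹' {y₀}) (y : V), ∃ Γ : unitInterval → E3, Continuous Γ ∧ Γ 0 = v ∧
      ∀ t, e (Γ t) = φ.symm (AffineMap.lineMap c (φ y) (t : ℝ)) := fun v y =>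
    liftSeg he hC hr hL hcm (hVm y) (by rw [φ.left_inv hy₀]; exact v.2)
  choose Γ hΓc hΓ0 hΓl using hex
  have hend : ∀ v y, e (Γ v y 1) = y := fun v y => by
    rw [hΓl]; simp [φ.left_inv y.2.1]
  have hcont : ∀ v, Continuous fun y => Γ v y 1 := by
    intro v
    have hφ : Continuous fun y : V => φ y :=
      φ.continuousOn.comp_continuous continuous_subtype_val fun y => y.2.1
    have := he.continuous_lift sep
      ⟨fun p : unitInterval × V => φ.symm (AffineMap.lineMap c (φ p.2) (p.1 : ℝ)),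
        φ.continuousOn_symm.comp_continuous (by
          simp only [AffineMap.lineMap_apply, vsub_eq_sub, vadd_eq_add]
          exact ((continuous_subtype_val.comp continuous_fst).smul
            ((hφ.comp continuous_snd).sub continuous_const)).add continuous_const) fun p => hr (seg_mem hcm (hVm p.2) p.1)⟩
      (g := fun p => Γ v p.2 p.1) (funext fun p => hΓl v p.2 p.1)
      (by simp only [hΓ0]; exact continuous_const) (fun y => hΓc v y)
    exact this.comp (Continuous.prodMk_right 1)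
  have hback : ∀ w (hw : e w ∈ V), ∃ v, Γ v ⟨e w, hw⟩ 1 = w := by
    intro w hw
    obtain ⟨Δ, h1, h2, h3⟩ := liftSeg he hC hr hL (hVm ⟨_, hw⟩) hcm (v := w)
      (φ.left_inv hw.1).symm
    have h4 : e (Δ 1) = y₀ := by rw [h3]; simp [hc, φ.left_inv hy₀]
    refine ⟨⟨Δ 1, h4⟩, ?_⟩
    have := sep.eq_of_comp_eq he.isLocallyInjective (hΓc ⟨Δ 1, h4⟩ ⟨e w, hw⟩)
      (h1.comp unitInterval.continuous_symm) (funext fun t => by
        simp only [Function.comp, hΓl, h3, unitInterval.coe_symm_eq,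
          AffineMap.lineMap_apply_one_sub]) 0 (by simp [hΓ0])
    rw [this]
    simp [h2]
  rcases isEmpty_or_nonempty (e ⁻¹' {y₀}) with hemp | hne
  · refine IsEvenlyCovered.of_preimage_eq_empty _ (hV.mem_nhds hy₀V) ?_
    refine eq_empty_of_forall_notMem fun w hw => ?_
    obtain ⟨v, -⟩ := hback w hw
    exact hemp.elim v
  · have hopen : ∀ v, IsOpen (range fun y => Γ v y 1) := fun v =>
      (he.isOpenEmbedding_of_comp (f := fun y => Γ v y 1)
        ((funext (hend v) : e ∘ (fun y => Γ v y 1) = Subtype.val) ▸ hV.isOpenEmbedding_subtypeVal)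
        (hcont v)).isOpen_range
    have hsurj : ∀ v, (range fun y => Γ v y 1).SurjOn e V := fun v y hy =>
      ⟨_, ⟨⟨y, hy⟩, rfl⟩, hend v _⟩
    refine IsEvenlyCovered.of_trivialization (t := hV.trivializationDiscrete
      (fun v : e ⁻¹' {y₀} => range fun y => Γ v y 1) V (fun v W hW => ⟨fun h => ?_, fun h => ?_⟩)
      (fun v => ?_) hsurj ?_ ?_) hy₀V
    · exact (h.preimage he.continuous).inter (hopen v)
    · convert he.isOpenMap _ h using 1
      refine Subset.antisymm (fun y hy => ?_) ?_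
      · obtain ⟨w, hw, rfl⟩ := hsurj v (hW hy)
        exact ⟨w, ⟨hy, hw⟩, rfl⟩
      · rintro _ ⟨w, hw, rfl⟩
        exact hw.1
    · rintro _ ⟨y, rfl⟩ _ ⟨y', rfl⟩ h
      rw [hend, hend] at h
      rw [Subtype.ext h]
    · intro v v' hne
      refine disjoint_left.2 ?_
      rintro _ ⟨y, rfl⟩ ⟨y', h⟩
      have h1 : y' = y := Subtype.ext (by rw [← hend v y, ← hend v' y']; exact congrArg e h)
      subst h1
      have := sep.eq_of_comp_eq he.isLocallyInjective (hΓc v' y') (hΓc v y')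
        (funext fun t => by simp only [Function.comp, hΓl]) 1 h
      exact hne (Subtype.ext (by rw [← hΓ0 v y', ← hΓ0 v' y', this]))
    · intro w hw
      obtain ⟨v, hv⟩ := hback w hw
      exact mem_iUnion.2 ⟨v, _, hv⟩

end Crest.Agent.R244
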