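import Crest.Agent.R244.Defs2
/-!
Row 244, task CoverFacts: deck group facts of a covering `E3 → M`.
-/
set_option autoImplicit false
open scoped Topology
open Set Filter

noncomputable section
namespace Crest.Agent.R244

namespace CoverFactsAux

variable {M : Type} [TopologicalSpace M] {pr : E3 → M}

theorem uniq (cov : IsCoveringMap pr) {f g : E3 → E3} (hf : Continuous f) (hg : Continuous g)
    (he : ∀ a, pr (f a) = pr (g a)) {a : E3} (ha : f a = g a) : f = g :=
  (T2Space.isSeparatedMap pr).eq_of_comp_eq cov.isLocalHomeomorph.isLocallyInjective hf hg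
    (funext he) a ha

theorem exl (cov : IsCoveringMap pr) {a b : E3} (h : pr a = pr b) :
    ∃ f : E3 → E3, Continuous f ∧ f a = b ∧ ∀ x, pr (f x) = pr x := by
  obtain ⟨F, ⟨h1, h2⟩, -⟩ := cov.existsUnique_continuousMap_lifts
    (⟨pr, cov.continuous⟩ : C(E3, M)) a b h.symm
  exact ⟨F, F.continuous, h1, fun x => congrFun h2 x⟩

theorem trans (cov : IsCoveringMap pr) {a b : E3} (h : pr a = pr b) :
    ∃ g : Deck pr, dact g a = b := by
  obtain ⟨f, hf, hfa, hfp⟩ := exl cov h
  obtain ⟨g, hg, hgb, hgp⟩ := exl cov h.symm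
  have h1 : g ∘ f = id := uniq cov (hg.comp hf) continuous_id
    (fun x => by simp [hgp, hfp]) (a := a) (by simp [hfa, hgb])
  have h2 : f ∘ g = id := uniq cov (hf.comp hg) continuous_id
    (fun x => by simp [hgp, hfp]) (a := b) (by simp [hfa, hgb])
  let e : E3 ≃ₜ E3 :=
    { toFun := f, invFun := g, left_inv := fun x => congrFun h1 x,
      right_inv := fun x => congrFun h2 x, continuous_toFun := hf, continuous_invFun := hg }
  exact ⟨⟨e, hfp⟩, hfa⟩

theorem free (cov : IsCoveringMap pr) (g : Deck pr) (a : E3) (h : dact g a = a) : g = 1 := by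
  have h1 : dact g = id := uniq cov (dact_cont g) continuous_id (fun x => dact_proj g x) h
  apply Subtype.ext
  ext1 x
  exact congrFun h1 x

theorem lift (cov : IsCoveringMap pr) (C : Set E3) (q : E3 → M) (y₀ a : E3) (hC : Convex ℝ C)
    (hq : ContinuousOn q C) (hy : y₀ ∈ C) (ha : pr a = q y₀) :
    ∃ l : E3 → E3, ContinuousOn l C ∧ (∀ y ∈ C, pr (l y) = q y) ∧ l y₀ = a := by
  classical
  haveI : ContractibleSpace C := hC.contractibleSpace ⟨y₀, hy⟩
  haveI := Convex.locallyPathConnectedSpace E3 hC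
  obtain ⟨F, ⟨h1, h2⟩, -⟩ := cov.existsUnique_continuousMap_lifts
    (⟨C.domRestrict q, hq.restrict⟩ : C(C, M)) ⟨y₀, hy⟩ a ha
  refine ⟨fun y => if h : y ∈ C then F ⟨y, h⟩ else a, ?_, ?_, ?_⟩
  · rw [continuousOn_iff_continuous_restrict]
    have : C.domRestrict (fun y => if h : y ∈ C then F ⟨y, h⟩ else a) = F := by
      funext y
      simp [y.2]
    rw [this]
    exact F.continuous
  · intro y hy'
    simp only [hy', dif_pos]
    exact congrFun h2 ⟨y, hy'⟩
  · simp only [hy, dif_pos]
    exact h1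

theorem shift (cov : IsCoveringMap pr) (C : Set E3) (l : E3 → E3) (k : E3)
    (hC : IsPreconnected C) (hne : C.Nonempty) (hl : ContinuousOn l C)
    (hk : ∀ y ∈ C, y + k ∈ C) (hp : ∀ y ∈ C, pr (l (y + k)) = pr (l y)) :
    ∃ g : Deck pr, ∀ y ∈ C, l (y + k) = dact g (l y) := by
  obtain ⟨y₀, hy₀⟩ := hne
  obtain ⟨g, hg⟩ := trans cov (hp y₀ hy₀).symm
  refine ⟨g, ?_⟩
  have h1 : ContinuousOn (fun y => l (y + k)) C :=
    hl.comp (continuous_id.add continuous_const).continuousOn hk
  have h2 : ContinuousOn (fun y => dact g (l y)) C := (dact_cont g).comp_continuousOn hl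
  exact (T2Space.isSeparatedMap pr).eqOn_of_comp_eqOn cov.isLocalHomeomorph.isLocallyInjective
    hC h1 h2 (fun y hy => by simp [hp y hy, dact_proj]) hy₀ hg.symm

end CoverFactsAux

theorem coverFacts : CoverFactsS := fun _ _ _ cov =>
  ⟨fun _ _ h => CoverFactsAux.trans cov h, CoverFactsAux.free cov, CoverFactsAux.lift cov,
    CoverFactsAux.shift cov⟩

end Crest.Agent.R244
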