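import Crest.Agent.R244.Defs2
/-! Row 244, CptConn: the glued manifold is compact and connected. -/
set_option autoImplicit false
open scoped ContDiff Topology
open Set Filter

noncomputable section
namespace Crest.Agent.R244

namespace CptConn

theorem box_compact (a b : Fin 3 → ℝ) : IsCompact {y : E3 | ∀ i, y i ∈ Icc (a i) (b i)} := by
  have h := (isCompact_univ_pi fun i => isCompact_Icc (a := a i) (b := b i)).image
    (PiLp.continuous_toLp 2 (fun _ : Fin 3 => ℝ))
  convert h using 1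
  ext y
  constructor
  · intro hy
    exact ⟨y.ofLp, fun i _ => hy i, rfl⟩
  · rintro ⟨z, hz, rfl⟩ i
    exact hz i (mem_univ i)

/-- reduction mod the lattice -/
def fr (y : E3) : E3 := WithLp.toLp 2 fun i => Int.fract (y i)

theorem fr_apply (y : E3) (i : Fin 3) : fr y i = Int.fract (y i) := rfl

theorem zeq_fr (y : E3) : ZEq y (fr y) := fun i =>
  ⟨-⌊y i⌋, by rw [fr_apply, Int.fract]; push_cast; ring⟩

theorem dz_zeq {P : Prof} (F : PFacts P) {y y' : E3} (h : ZEq y y') (i : Fin 3) :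
    dz (y' i) = dz (y i) := by
  obtain ⟨k, hk⟩ := h i
  rw [hk, F.dz_int]

theorem dz_strip {x : ℝ} (h1 : 1 / 8 < x) (h2 : x < 7 / 8) : 1 / 8 < dz x := by
  unfold dz
  rcases le_or_gt (round x) 0 with h | h
  · have : ((round x : ℤ) : ℝ) ≤ 0 := by exact_mod_cast h
    rw [lt_abs]; left; linarith
  · have : (1 : ℝ) ≤ ((round x : ℤ) : ℝ) := by exact_mod_cast h
    rw [lt_abs]; right; linarith

theorem fract_strip {P : Prof} (F : PFacts P) {x : ℝ} (h : 1 / 8 < dz x) :
    1 / 8 < Int.fract x ∧ Int.fract x < 7 / 8 := by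
  have a1 := F.dz_le x ⌊x⌋
  have a2 := F.dz_le x (⌊x⌋ + 1)
  have b1 := Int.fract_nonneg x
  have b2 := Int.fract_lt_one x
  have e : Int.fract x = x - ⌊x⌋ := rfl
  rw [abs_of_nonneg (by linarith)] at a1
  push_cast at a2
  rw [abs_of_nonpos (by linarith)] at a2
  constructor <;> linarith

end CptConn

open CptConn in
theorem cptConn (hPF : PFactsS) : CptConnS := by
  intro P hP M _ _ p ty G
  have F := hPF P hP
  have hT := hP.T_pos
  have hpi := Real.pi_pos
  have hR1 := hP.phi.R_pos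
  have hR2 := hP.R₂_pos
  have Y0 : P.glue.Y 0 = Yp := rfl
  have Y1 : P.glue.Y 1 = P.YN := rfl
  have Y2 : P.glue.Y 2 = Yp := rfl
  -- pieces
  have hY : ∀ i : Fin 3, i ≠ 1 → P.glue.Y i = Yp ∧ P.glue.P i = PP i := by
    intro i hi
    fin_cases i
    · exact ⟨rfl, rfl⟩
    · exact absurd rfl hi
    · exact ⟨rfl, rfl⟩
  have hYz : ∀ y ∈ Yp, ∀ y', ZEq y y' → y' ∈ Yp := by
    intro y hy y' h
    show (1 : ℝ) / 64 < dz (y' 0) ^ 2 + dz (y' 1) ^ 2
    rw [dz_zeq F h, dz_zeq F h]; exact hy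
  have hz : ∀ i : Fin 3, i ≠ 1 → ∀ y ∈ Yp, ∀ y', ZEq y y' → p i y = p i y' := by
    intro i hi y hy y' h
    obtain ⟨e1, e2⟩ := hY i hi
    refine (G.eq_iff i i y (e1 ▸ hy) y' (e1 ▸ hYz y hy y' h)).2 ?_
    rw [e2]; exact (F.pp i y y').2 h
  have hsurj : ∀ i : Fin 3, i ≠ 1 → ∀ y ∈ Yp, dz (y 0) ^ 2 + dz (y 1) ^ 2 < 1 / 16 →
      p i y ∈ p 1 '' P.YN := by
    intro i hi y hy h
    fin_cases i
    · obtain ⟨u, hu, h1, h2⟩ := F.surj₁ y hy h
      exact ⟨u, hu, (G.eq_iff 1 0 u hu y hy).2 ((F.n1 u y).2 ⟨h1, h2⟩)⟩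
    · exact absurd rfl hi
    · obtain ⟨u, hu, h1, h2⟩ := F.surj₂ y hy h
      exact ⟨u, hu, (G.eq_iff 1 2 u hu y hy).2 ((F.n2 u y).2 ⟨h1, h2⟩)⟩
  have zrefl : ∀ y : E3, ZEq y y := fun y i => ⟨0, by simp⟩
  constructor
  · set Kp : Set E3 := {y : E3 | ∀ i, y i ∈ Icc (0 : ℝ) 1} ∩
      {y | (3 / 16 : ℝ) ^ 2 ≤ dz (y 0) ^ 2 + dz (y 1) ^ 2} with hKp
    set lo : ℝ := -1 - (P.R₁ + 1) / 2 with hlo
    set hi : ℝ := 3 / 2 + (P.R₂ + 3 / 2) / 2 with hhi
    set KN : Set E3 := {y : E3 | ∀ i, y i ∈ Icc (![lo, 0, 0] i)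
      (![hi, 2 * Real.pi, 2 * Real.pi * P.T] i)} with hKN
    have cKp : IsCompact Kp := by
      have := F.dz_cont
      exact (box_compact (fun _ => 0) (fun _ => 1)).inter_right
        (isClosed_le continuous_const (by fun_prop))
    have cKN : IsCompact KN := box_compact _ _
    have sKp : Kp ⊆ Yp := fun y hy => by
      have := hy.2
      show (1 : ℝ) / 64 < dz (y 0) ^ 2 + dz (y 1) ^ 2
      simp only [mem_setOf_eq] at this
      linarith
    have sKN : KN ⊆ P.YN := fun y hy => by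
      have h0 : y 0 ∈ Icc lo hi := hy 0
      exact ⟨by linarith [h0.1], by linarith [h0.2]⟩
    have c0 : IsCompact (p 0 '' Kp) := cKp.image_of_continuousOn ((G.cont 0).mono sKp)
    have c2 : IsCompact (p 2 '' Kp) := cKp.image_of_continuousOn ((G.cont 2).mono sKp)
    have c1 : IsCompact (p 1 '' KN) := cKN.image_of_continuousOn ((G.cont 1).mono sKN)
    have hA : ∀ i : Fin 3, i ≠ 1 → ∀ y ∈ Yp, (3 / 16 : ℝ) ^ 2 ≤ dz (y 0) ^ 2 + dz (y 1) ^ 2 →
        p i y ∈ p i '' Kp := by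
      intro i hi y hy h
      refine ⟨fr y, ⟨fun j => ⟨Int.fract_nonneg _, (Int.fract_lt_one _).le⟩, ?_⟩,
        (hz i hi y hy _ (zeq_fr y)).symm⟩
      show (3 / 16 : ℝ) ^ 2 ≤ dz (fr y 0) ^ 2 + dz (fr y 1) ^ 2
      rw [dz_zeq F (zeq_fr y), dz_zeq F (zeq_fr y)]; exact h
    have hC : ∀ y ∈ P.YN, p 1 y ∈ p 0 '' Kp ∪ p 1 '' KN ∪ p 2 '' Kp := by
      intro y hy
      rcases lt_or_ge (y 0) lo with h | h
      · have h1 : y 0 < -1 := by linarith
        obtain ⟨-, -, a3, a4⟩ := F.rad₁ y hy h1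
        have e : p 1 y = p 0 (P.pol₁ y) :=
          (G.eq_iff 1 0 y hy _ a3).2 ((F.n1 y _).2 ⟨h1, zrefl _⟩)
        refine Or.inl (Or.inl ?_)
        rw [e]
        refine hA 0 (by decide) _ a3 ?_
        rw [a4]
        refine pow_le_pow_left₀ (by norm_num) ?_ 2
        unfold Prof.r₁ Prof.L₁
        rw [le_div_iff₀ (by positivity)]; linarith
      · rcases lt_or_ge hi (y 0) with h' | h'
        · have h1 : 3 / 2 < y 0 := by linarith
          obtain ⟨-, -, a3, a4⟩ := F.rad₂ y hy h1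
          have e : p 1 y = p 2 (P.pol₂ y) :=
            (G.eq_iff 1 2 y hy _ a3).2 ((F.n2 y _).2 ⟨h1, zrefl _⟩)
          refine Or.inr ?_
          rw [e]
          refine hA 2 (by decide) _ a3 ?_
          rw [a4]
          refine pow_le_pow_left₀ (by norm_num) ?_ 2
          unfold Prof.r₂ Prof.L₂
          rw [le_div_iff₀ (by positivity)]; linarith
        · refine Or.inl (Or.inr ?_)
          have h2 : 0 < 2 * Real.pi := by positivity
          have h3 : 0 < 2 * Real.pi * P.T := by positivity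
          set u : E3 := !₂[y 0, toIcoMod h2 0 (y 1), toIcoMod h3 0 (y 2)] with hu
          have m1 := toIcoMod_mem_Ico h2 0 (y 1)
          have m2 := toIcoMod_mem_Ico h3 0 (y 2)
          rw [zero_add] at m1 m2
          have hK : u ∈ KN := by
            intro j
            fin_cases j
            · exact ⟨h, h'⟩
            · exact ⟨m1.1, m1.2.le⟩
            · exact ⟨m2.1, m2.2.le⟩
          refine ⟨u, hK, (G.eq_iff 1 1 u (sKN hK) y hy).2 ((F.nn u (sKN hK) y hy).2
            ⟨rfl, ⟨toIcoDiv h2 0 (y 1), ?_⟩, ⟨toIcoDiv h3 0 (y 2), ?_⟩⟩)⟩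
          · have := toIcoMod_add_toIcoDiv_zsmul h2 0 (y 1)
            rw [zsmul_eq_mul] at this
            show y 1 = toIcoMod h2 0 (y 1) + _
            linarith
          · have := toIcoMod_add_toIcoDiv_zsmul h3 0 (y 2)
            rw [zsmul_eq_mul] at this
            show y 2 = toIcoMod h3 0 (y 2) + _
            linarith
    refine ⟨((c0.union c1).union c2).of_isClosed_subset isClosed_univ fun m _ => ?_⟩
    obtain ⟨i, y, hy, rfl⟩ := G.surj m
    by_cases hi1 : i = 1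
    · subst hi1; exact hC y hy
    · have hy' : y ∈ Yp := (hY i hi1).1 ▸ hy
      rcases le_or_gt ((3 / 16 : ℝ) ^ 2) (dz (y 0) ^ 2 + dz (y 1) ^ 2) with h | h
      · have := hA i hi1 y hy' h
        fin_cases i
        · exact Or.inl (Or.inl this)
        · exact absurd rfl hi1
        · exact Or.inr this
      · obtain ⟨u, hu, e⟩ := hsurj i hi1 y hy' (by linarith)
        rw [← e]; exact hC u hu
  · have h0 : (0 : E3) ∈ P.YN := by
      constructor
      · show _ < (0 : ℝ); linarith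
      · show (0 : ℝ) < _; linarith
    have cN : IsPreconnected (p 1 '' P.YN) := F.convex_N.isPreconnected.image _ (G.cont 1)
    have dz0 : dz 0 = 0 := by rw [F.dz_small 0 (by norm_num), abs_zero]
    have dz3 : dz (3 / 16) = 3 / 16 := by
      rw [F.dz_small _ (by rw [abs_of_pos] <;> norm_num), abs_of_pos (by norm_num)]
    have strip : ∀ i : Fin 3, i ≠ 1 → ∀ j : Fin 3, (j = 0 ∨ j = 1) → ∀ y ∈ Yp, 1 / 8 < dz (y j) →
        ∃ t ⊆ (univ : Set M), p 1 0 ∈ t ∧ p i y ∈ t ∧ IsPreconnected t := by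
      intro i hi j hj y hy h
      set S : Set E3 := {u | u j ∈ Ioo (1 / 8 : ℝ) (7 / 8)} with hS
      have cS : Convex ℝ S := (convex_Ioo (1 / 8 : ℝ) (7 / 8)).is_linear_preimage
        (prj j).toLinearMap.isLinear
      have sS : S ⊆ Yp := by
        intro u hu
        have a := dz_strip hu.1 hu.2
        show (1 : ℝ) / 64 < dz (u 0) ^ 2 + dz (u 1) ^ 2
        rcases hj with rfl | rfl
        · nlinarith [sq_nonneg (dz (u 1))]
        · nlinarith [sq_nonneg (dz (u 0))]
      have pS : IsPreconnected (p i '' S) :=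
        cS.isPreconnected.image _ ((G.cont i).mono ((hY i hi).1 ▸ sS))
      have hw : (3 / 16 : ℝ) • bas j ∈ S := by
        show ((3 / 16 : ℝ) • bas j) j ∈ Ioo (1 / 8 : ℝ) (7 / 8)
        rw [PiLp.smul_apply, bas_apply, if_pos rfl]
        constructor <;> norm_num
      have hw' : p i ((3 / 16 : ℝ) • bas j) ∈ p 1 '' P.YN := by
        refine hsurj i hi _ (sS hw) ?_
        rcases hj with rfl | rfl
        · simp only [PiLp.smul_apply, bas_apply]
          norm_num [dz0, dz3]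
        · simp only [PiLp.smul_apply, bas_apply]
          norm_num [dz0, dz3]
      refine ⟨p 1 '' P.YN ∪ p i '' S, subset_univ _, Or.inl ⟨0, h0, rfl⟩,
        Or.inr ⟨fr y, fract_strip F h, (hz i hi y hy _ (zeq_fr y)).symm⟩,
        IsPreconnected.union _ hw' ⟨_, hw, rfl⟩ cN pS⟩
    have : PreconnectedSpace M := by
      refine ⟨isPreconnected_of_forall (p 1 0) fun m _ => ?_⟩
      obtain ⟨i, y, hy, rfl⟩ := G.surj m
      by_cases hi1 : i = 1
      · subst hi1
        exact ⟨p 1 '' P.YN, subset_univ _, ⟨0, h0, rfl⟩, ⟨y, hy, rfl⟩, cN⟩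
      · have hy' : y ∈ Yp := (hY i hi1).1 ▸ hy
        rcases lt_or_ge (1 / 8) (dz (y 0)) with a | a
        · exact strip i hi1 0 (Or.inl rfl) y hy' a
        · rcases lt_or_ge (1 / 8) (dz (y 1)) with b | b
          · exact strip i hi1 1 (Or.inr rfl) y hy' b
          · have a0 : 0 ≤ dz (y 0) := abs_nonneg _
            have b0 : 0 ≤ dz (y 1) := abs_nonneg _
            exact ⟨p 1 '' P.YN, subset_univ _, ⟨0, h0, rfl⟩,
              hsurj i hi1 y hy' (by nlinarith), cN⟩
    exact { toNonempty := ⟨p 1 0⟩ }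

end Crest.Agent.R244
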