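import Crest.Agent.R244.Defs2
set_option autoImplicit false
open scoped ContDiff Manifold Topology
open Bundle Set Filter
open Crest.GeometryTopology.Geodesic Crest.GeometryTopology.CoordMetric
  Crest.GeometryTopology.ChartCurvature

noncomputable section
namespace Crest.Agent.R244

namespace CurveCov

theorem hd_comp {F : Type} [NormedAddCommGroup F] [NormedSpace ℝ F] {f : E3 → F} {c : ℝ → E3}
    {t : ℝ} (hf : DifferentiableAt ℝ f (c t)) (hc : DifferentiableAt ℝ c t) :
    HasDerivAt (fun s => f (c s)) (fderiv ℝ f (c t) (deriv c t)) t :=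
  hf.hasFDerivAt.comp_hasDerivAt t hc.hasDerivAt

variable {g g' : MF} {τ : E3 → E3} {U U' : Set E3}

theorem deriv_comp (h : LocIso g g' τ U U') {c : ℝ → E3} {s : ℝ} (hs : c s ∈ U)
    (hc : DifferentiableAt ℝ c s) :
    deriv (fun r => τ (c r)) s = fderiv ℝ τ (c s) (deriv c s) :=
  (hd_comp ((h.smooth.contDiffAt (h.riem.isOpen.mem_nhds hs)).differentiableAt (by simp)) hc).deriv

theorem cov_comp (hC : GamCovS) (h : LocIso g g' τ U U') {c V : ℝ → E3} {s : ℝ} (hs : c s ∈ U)
    (hc : DifferentiableAt ℝ c s) (hV : DifferentiableAt ℝ V s) :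
    cov g' (fun r => τ (c r)) (fun r => fderiv ℝ τ (c r) (V r)) s =
      fderiv ℝ τ (c s) (cov g c V s) := by
  have h1 : DifferentiableAt ℝ (fderiv ℝ τ) (c s) :=
    ((h.smooth.contDiffAt (h.riem.isOpen.mem_nhds hs)).fderiv_right (m := ∞)
      (by simp)).differentiableAt (by simp)
  have h2 := (hd_comp (F := E3 →L[ℝ] E3) h1 hc).clm_apply hV.hasDerivAt
  unfold cov
  rw [h2.deriv, deriv_comp h hs hc, map_add, hC g g' τ U U' h _ hs]
  abel

theorem cov_congr {g : MF} {c V W : ℝ → E3} {s : ℝ} (h : V =ᶠ[𝓝 s] W) :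
    cov g c V s = cov g c W s := by
  unfold cov
  rw [h.deriv_eq, h.eq_of_nhds]

end CurveCov

/-- Row 244, task CurveCov: covariance of the geodesic and Jacobi equations. -/
theorem curveCov (_hG : GamBasicS) (hC : GamCovS) (hR : RmCovS) (hRho : RhoDerivS) :
    CurveCovS := by
  intro g g' τ U U' h c J t ht hc hJ
  have hc0 : DifferentiableAt ℝ c t := hc.differentiableAt (by norm_num)
  have hc' : DifferentiableAt ℝ (deriv c) t :=
    (hc.derivWithin (m := 1) (by norm_num)).differentiableAt (by norm_num)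
  have hev : ∀ᶠ s in 𝓝 t, c s ∈ U ∧ DifferentiableAt ℝ c s ∧ DifferentiableAt ℝ J s := by
    filter_upwards [hc.continuousAt.eventually (h.riem.isOpen.mem_nhds ht),
      hc.eventually (by simp), hJ.eventually (by simp)] with s h1 h2 h3
    exact ⟨h1, h2.differentiableAt (by norm_num), h3.differentiableAt (by norm_num)⟩
  constructor
  · intro hg
    have e1 : deriv (fun s => τ (c s)) =ᶠ[𝓝 t] fun s => fderiv ℝ τ (c s) (deriv c s) := by
      filter_upwards [hev] with s hs using CurveCov.deriv_comp h hs.1 hs.2.1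
    have e2 : cov g' (fun s => τ (c s)) (deriv (fun s => τ (c s))) t = 0 := by
      rw [CurveCov.cov_congr e1, CurveCov.cov_comp hC h ht hc0 hc']
      have : cov g c (deriv c) t = 0 := hg
      rw [this, map_zero]
    exact e2
  · intro hj
    have e1 : cov g' (fun s => τ (c s)) (fun s => fderiv ℝ τ (c s) (J s)) =ᶠ[𝓝 t]
        fun s => fderiv ℝ τ (c s) (cov g c J s) := by
      filter_upwards [hev] with s hs using CurveCov.cov_comp hC h hs.1 hs.2.1 hs.2.2
    have hcv : DifferentiableAt ℝ (cov g c J) t :=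
      ((hRho g U h.riem).2 c J t ht hc hJ).differentiableAt (by norm_num)
    unfold JacAt at hj ⊢
    rw [CurveCov.cov_congr e1, CurveCov.cov_comp hC h ht hc0 hcv, CurveCov.deriv_comp h ht hc0,
      ← hR g g' τ U U' h _ ht, ← map_add, hj, map_zero]

end Crest.Agent.R244
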