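import Crest.Prelude.Def_Geodesic
/-!
Row 244 (S0377): definitions and task statements.  Every `def XxxS : Prop` is a task; a task file
proves `theorem xxx (deps) : XxxS`.  Part 1: coordinate calculus and general manifolds.
-/
set_option autoImplicit false
open scoped ContDiff Manifold Topology
open Bundle Set Filter
open Crest.GeometryTopology.Geodesic Crest.GeometryTopology.CoordMetric
  Crest.GeometryTopology.ChartCurvature

noncomputable section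
namespace Crest.Agent.R244

abbrev E3 : Type := EuclideanSpace ℝ (Fin 3)
abbrev MF : Type := MetricField 3

/-! ## Coordinate calculus -/

def prj (i : Fin 3) : E3 →L[ℝ] ℝ := EuclideanSpace.proj i
def bas (i : Fin 3) : E3 := EuclideanSpace.single i 1

@[simp] lemma prj_apply (i : Fin 3) (u : E3) : prj i u = u i := rfl
lemma bas_apply (i j : Fin 3) : bas i j = if j = i then 1 else 0 := by
  simp [bas, Pi.single_apply]

/-- The metric as a continuous bilinear form. -/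
def ipL (g : MF) (x : E3) : E3 →L[ℝ] E3 →L[ℝ] ℝ :=
  ∑ i, ∑ j, g x i j • (prj i).smulRight (prj j)

/-- The Christoffel symbols as a continuous bilinear map. -/
def Gam (g : MF) (x : E3) : E3 →L[ℝ] E3 →L[ℝ] E3 :=
  ∑ k, ∑ i, ∑ j, christoffel g x k i j • (prj i).smulRight ((prj j).smulRight (bas k))

/-- The curvature operator `R(u,v)w`. -/
def Rm (g : MF) (x u v w : E3) : E3 :=
  fderiv ℝ (Gam g) x u v w - fderiv ℝ (Gam g) x v u w + Gam g x u (Gam g x v w)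
    - Gam g x v (Gam g x u w)

lemma ipL_apply (g : MF) (x u v : E3) : ipL g x u v = ∑ i, ∑ j, g x i j * u i * v j := by
  simp only [ipL, ContinuousLinearMap.sum_apply, ContinuousLinearMap.smul_apply,
    ContinuousLinearMap.smulRight_apply, prj_apply, smul_eq_mul, mul_assoc]

lemma Gam_apply (g : MF) (x u v : E3) (k : Fin 3) :
    Gam g x u v k = ∑ i, ∑ j, christoffel g x k i j * u i * v j := by
  simp only [Gam, Fin.sum_univ_three]
  fin_cases k <;> simp [bas_apply] <;> ring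

def GeoAt (g : MF) (c : ℝ → E3) (t : ℝ) : Prop :=
  deriv (deriv c) t + Gam g (c t) (deriv c t) (deriv c t) = 0

def cov (g : MF) (c V : ℝ → E3) : ℝ → E3 := fun t => deriv V t + Gam g (c t) (deriv c t) (V t)

def JacAt (g : MF) (c J : ℝ → E3) (t : ℝ) : Prop :=
  cov g c (cov g c J) t + Rm g (c t) (J t) (deriv c t) (deriv c t) = 0

/-- Basic facts on a Riemannian metric field. -/
structure GamBasic (g : MF) (U : Set E3) : Prop where
  ip_smooth : ContDiffOn ℝ ∞ (ipL g) U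
  gam_smooth : ContDiffOn ℝ ∞ (Gam g) U
  ip_symm : ∀ x ∈ U, ∀ u v, ipL g x u v = ipL g x v u
  ip_pos : ∀ x ∈ U, ∀ u, u ≠ 0 → 0 < ipL g x u u
  gam_symm : ∀ x ∈ U, ∀ u v, Gam g x u v = Gam g x v u
  koszul : ∀ x ∈ U, ∀ u v w, 2 * ipL g x (Gam g x u v) w =
    fderiv ℝ (ipL g) x u v w + fderiv ℝ (ipL g) x v u w - fderiv ℝ (ipL g) x w u v
  compat : ∀ x ∈ U, ∀ u v w, fderiv ℝ (ipL g) x u v w =
    ipL g x (Gam g x u v) w + ipL g x v (Gam g x u w)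

/-- C1 -/
def GamBasicS : Prop := ∀ (g : MF) (U : Set E3), IsRiemannianOn g U → GamBasic g U

/-- C2: the Prelude's coordinate equations in terms of `Gam`, `Rm`. -/
def TranslS : Prop :=
  (∀ (g : MF) (c : ℝ → E3) (t : ℝ), GeodesicEqAt g c t ↔ GeoAt g c t) ∧
  (∀ (g : MF) (U : Set E3), IsRiemannianOn g U → ∀ (c J : ℝ → E3) (t : ℝ), c t ∈ U →
    (JacobiEqAt g c J t ↔ JacAt g c J t)) ∧
  (∀ (g : MF) (U : Set E3), IsRiemannianOn g U → ∀ x ∈ U, ∀ u v : E3,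
    secNumer g x u v = ipL g x (Rm g x u v v) u)

/-- `τ` is a smooth local isometry from `(U, g)` into `(U', g')`. -/
structure LocIso (g g' : MF) (τ : E3 → E3) (U U' : Set E3) : Prop where
  riem : IsRiemannianOn g U
  riem' : IsRiemannianOn g' U'
  smooth : ContDiffOn ℝ ∞ τ U
  maps : MapsTo τ U U'
  pull : ∀ y ∈ U, ∀ u v, ipL g y u v = ipL g' (τ y) (fderiv ℝ τ y u) (fderiv ℝ τ y v)

/-- C3: transformation law of the Christoffel symbols. -/
def GamCovS : Prop := ∀ (g g' : MF) (τ : E3 → E3) (U U' : Set E3), LocIso g g' τ U U' →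
  ∀ y ∈ U, ∀ u v, fderiv ℝ τ y (Gam g y u v) =
    fderiv ℝ (fderiv ℝ τ) y u v + Gam g' (τ y) (fderiv ℝ τ y u) (fderiv ℝ τ y v)

/-- C4: covariance of the curvature operator. -/
def RmCovS : Prop := ∀ (g g' : MF) (τ : E3 → E3) (U U' : Set E3), LocIso g g' τ U U' →
  ∀ y ∈ U, ∀ u v w, fderiv ℝ τ y (Rm g y u v w) =
    Rm g' (τ y) (fderiv ℝ τ y u) (fderiv ℝ τ y v) (fderiv ℝ τ y w)

/-- C5: covariance of the geodesic and Jacobi equations. -/
def CurveCovS : Prop := ∀ (g g' : MF) (τ : E3 → E3) (U U' : Set E3), LocIso g g' τ U U' →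
  ∀ (c J : ℝ → E3) (t : ℝ), c t ∈ U → ContDiffAt ℝ 2 c t → ContDiffAt ℝ 2 J t →
    (GeoAt g c t → GeoAt g' (fun s => τ (c s)) t) ∧
    (JacAt g c J t → JacAt g' (fun s => τ (c s)) (fun s => fderiv ℝ τ (c s) (J s)) t)

/-- C6: along a geodesic the Jacobi equation is the linearised geodesic equation. -/
def LinGeoS : Prop := ∀ (g : MF) (U : Set E3), IsRiemannianOn g U →
  ∀ (c J : ℝ → E3) (t : ℝ), c t ∈ U → ContDiffAt ℝ 2 c t → ContDiffAt ℝ 2 J t → GeoAt g c t →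
    (JacAt g c J t ↔ deriv (deriv J) t + fderiv ℝ (Gam g) (c t) (J t) (deriv c t) (deriv c t)
      + (2 : ℝ) • Gam g (c t) (deriv c t) (deriv J t) = 0)

/-- C7: metric compatibility along curves. -/
def RhoDerivS : Prop := ∀ (g : MF) (U : Set E3), IsRiemannianOn g U →
  (∀ (c V W : ℝ → E3) (t : ℝ), c t ∈ U → DifferentiableAt ℝ c t → DifferentiableAt ℝ V t →
    DifferentiableAt ℝ W t →
    HasDerivAt (fun s => ipL g (c s) (V s) (W s))
      (ipL g (c t) (cov g c V t) (W t) + ipL g (c t) (V t) (cov g c W t)) t) ∧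
  (∀ (c J : ℝ → E3) (t : ℝ), c t ∈ U → ContDiffAt ℝ 2 c t → ContDiffAt ℝ 2 J t →
    ContDiffAt ℝ 1 (cov g c J) t)

/-- C8: the equations only depend on the germ of the metric. -/
def CongrS : Prop := ∀ (g g' : MF) (x : E3), g =ᶠ[𝓝 x] g' →
  Gam g =ᶠ[𝓝 x] Gam g' ∧ (∀ u v w, Rm g x u v w = Rm g' x u v w) ∧
  ∀ (c J : ℝ → E3) (t : ℝ), c t = x → ContinuousAt c t →
    (GeoAt g c t ↔ GeoAt g' c t) ∧ (JacAt g c J t ↔ JacAt g' c J t)

/-! ## General manifolds -/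

abbrev I3 : ModelWithCorners ℝ E3 E3 := 𝓘(ℝ, E3)

abbrev RM (M : Type) [TopologicalSpace M] [ChartedSpace E3 M] [IsManifold I3 ∞ M] : Type :=
  ContMDiffRiemannianMetric I3 ∞ E3 (fun x : M => TangentSpace I3 x)

section Mfd
variable {M : Type} [TopologicalSpace M] [ChartedSpace E3 M]

abbrev ch (z : M) : OpenPartialHomeomorph M E3 := chartAt E3 z
/-- transition from the chart at `x` to the chart at `z` -/
def trM (x z : M) : E3 → E3 := fun y => ch z ((ch x).symm y)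
def dom (x z : M) : Set E3 := (ch x).target ∩ (ch x).symm ⁻¹' (ch z).source
/-- coordinates in the chart at `z` of a tangent vector at `x` -/
def TT (z x : M) : E3 →L[ℝ] E3 := fderiv ℝ (trM x z) (ch x x)
/-- state `(point, vector)` read in the chart at `z` -/
def st (z : M) (p : M × E3) : E3 × E3 := (ch z p.1, TT z p.1 p.2)

variable [IsManifold I3 ∞ M]

abbrev mic (g : RM M) (z : M) : MF := metricInChart g z
/-- the inner product at `x` -/
def ipM (g : RM M) (x : M) : E3 →L[ℝ] E3 →L[ℝ] ℝ := ipL (mic g x) (ch x x)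

structure ChartFacts (g : RM M) : Prop where
  riem : ∀ z : M, IsRiemannianOn (mic g z) (ch z).target
  iso : ∀ x z : M, LocIso (mic g x) (mic g z) (trM x z) (dom x z) (ch z).target
  mfd : ∀ z x : M, x ∈ (ch z).source → ∀ v : E3, mfderiv I3 I3 (ch z) x v = TT z x v
  tt_self : ∀ x : M, ∀ v, TT x x v = v
  tt_comp : ∀ x z z' : M, x ∈ (ch z).source → x ∈ (ch z').source → ∀ v,
    fderiv ℝ (trM z z') (ch z x) (TT z x v) = TT z' x v
  tt_inv : ∀ z x : M, x ∈ (ch z).source → ∀ w, TT z x (fderiv ℝ (trM z x) (ch z x) w) = w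
  tt_ip : ∀ z x : M, x ∈ (ch z).source → ∀ u v,
    ipL (mic g z) (ch z x) (TT z x u) (TT z x v) = ipM g x u v

/-- geodesic and Jacobi field, read in every chart -/
structure GJ (g : RM M) (γ : ℝ → M) (J : ℝ → E3) : Prop where
  cont : Continuous γ
  smooth_c : ∀ z t, γ t ∈ (ch z).source → ContDiffAt ℝ 2 (fun s => ch z (γ s)) t
  smooth_J : ∀ z t, γ t ∈ (ch z).source → ContDiffAt ℝ 2 (fun s => TT z (γ s) (J s)) t
  geo : ∀ z t, γ t ∈ (ch z).source → GeoAt (mic g z) (fun s => ch z (γ s)) t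
  jac : ∀ z t, γ t ∈ (ch z).source →
    JacAt (mic g z) (fun s => ch z (γ s)) (fun s => TT z (γ s) (J s)) t

/-- the geodesic vector field in coordinates -/
def Fv (g : MF) (q : E3 × E3) : E3 × E3 := (q.2, -Gam g q.1 q.2 q.2)

/-- `σ` solves the geodesic equation (first order form) at time `t` -/
def SolAt (g : RM M) (σ : ℝ → M × E3) (t : ℝ) : Prop :=
  ContinuousAt (fun s => (σ s).1) t ∧
    ∀ z : M, (σ t).1 ∈ (ch z).source →
      HasDerivAt (fun s => st z (σ s)) (Fv (mic g z) (st z (σ t))) t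

structure IsFlow (g : RM M) (Fl : ℝ → M × E3 → M × E3) : Prop where
  zero : ∀ p, Fl 0 p = p
  sol : ∀ p t, SolAt g (fun s => Fl s p) t
  add : ∀ s t p, Fl (s + t) p = Fl s (Fl t p)
  smul : ∀ (a t : ℝ) (x : M) (v : E3),
    Fl t (x, a • v) = ((Fl (a * t) (x, v)).1, a • (Fl (a * t) (x, v)).2)
  speed : ∀ t p, ipM g (Fl t p).1 (Fl t p).2 (Fl t p).2 = ipM g p.1 p.2 p.2

/-- the state at time `t` in the chart at `z`, as a function of the initial velocity -/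
def stv (Fl : ℝ → M × E3 → M × E3) (x z : M) (t : ℝ) : E3 → E3 × E3 := fun v => st z (Fl t (x, v))

/-- C¹ dependence of the flow on the initial velocity, with the variational equation -/
structure FlowDep (g : RM M) (Fl : ℝ → M × E3 → M × E3) : Prop where
  cont : ∀ x v t, ContinuousAt (fun w => (Fl t (x, w)).1) v
  strict : ∀ x v t z, (Fl t (x, v)).1 ∈ (ch z).source →
    HasStrictFDerivAt (stv Fl x z t) (fderiv ℝ (stv Fl x z t) v) v
  ode : ∀ x v t₀, ∀ᶠ t in 𝓝 t₀,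
    HasDerivAt (fun s => fderiv ℝ (stv Fl x (Fl t₀ (x, v)).1 s) v)
      ((fderiv ℝ (Fv (mic g (Fl t₀ (x, v)).1)) (stv Fl x (Fl t₀ (x, v)).1 t v)).comp
        (fderiv ℝ (stv Fl x (Fl t₀ (x, v)).1 t) v)) t

/-- `e : E3 → M` is differentiable and expands the form `B` -/
structure Expanding (g : RM M) (B : E3 →L[ℝ] E3 →L[ℝ] ℝ) (e : E3 → M) : Prop where
  symm : ∀ u v, B u v = B v u
  pos : ∀ u, u ≠ 0 → 0 < B u u
  cont : Continuous e
  der : ∀ v z, e v ∈ (ch z).source → ∃ A : E3 →L[ℝ] E3,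
    HasStrictFDerivAt (fun w => ch z (e w)) A v ∧
      ∀ w, B w w ≤ ipL (mic g z) (ch z (e v)) (A w) (A w)

end Mfd

/-- M1 -/
def ChartFactsS : Prop := ∀ (M : Type) [TopologicalSpace M] [ChartedSpace E3 M]
  [IsManifold I3 ∞ M] (g : RM M), ChartFacts g

/-- M2 -/
def GJS : Prop := ∀ (M : Type) [TopologicalSpace M] [ChartedSpace E3 M]
  [IsManifold I3 ∞ M] (g : RM M) (γ : ℝ → M) (J : ℝ → E3),
  IsGeodesic g γ → IsJacobiField g γ J → GJ g γ J

/-- M3 -/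
def JacUniqueS : Prop := ∀ (M : Type) [TopologicalSpace M] [ChartedSpace E3 M]
  [IsManifold I3 ∞ M] (g : RM M) (γ : ℝ → M) (J : ℝ → E3), GJ g γ J → ∀ a : ℝ, J a = 0 →
  deriv (fun s => TT (γ a) (γ s) (J s)) a = 0 → ∀ t, J t = 0

/-- B1a: one chart suffices -/
def SolOneS : Prop := ∀ (M : Type) [TopologicalSpace M] [ChartedSpace E3 M]
  [IsManifold I3 ∞ M] (g : RM M) (σ : ℝ → M × E3) (t : ℝ) (z : M),
  ContinuousAt (fun s => (σ s).1) t → (σ t).1 ∈ (ch z).source →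
  HasDerivAt (fun s => st z (σ s)) (Fv (mic g z) (st z (σ t))) t → SolAt g σ t

/-- B1b: uniqueness -/
def SolUniqueS : Prop := ∀ (M : Type) [TopologicalSpace M] [ChartedSpace E3 M]
  [IsManifold I3 ∞ M] [T2Space M] (g : RM M) (σ₁ σ₂ : ℝ → M × E3) (a b t₀ : ℝ), t₀ ∈ Ioo a b →
  (∀ t ∈ Ioo a b, SolAt g σ₁ t) → (∀ t ∈ Ioo a b, SolAt g σ₂ t) → σ₁ t₀ = σ₂ t₀ →
  EqOn σ₁ σ₂ (Ioo a b)

/-- B1c: uniform local existence -/
def SolLocalS : Prop := ∀ (M : Type) [TopologicalSpace M] [ChartedSpace E3 M]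
  [IsManifold I3 ∞ M] [CompactSpace M] (g : RM M), ∃ ε > 0, ∀ p : M × E3, ipM g p.1 p.2 p.2 ≤ 1 →
  ∃ σ : ℝ → M × E3, σ 0 = p ∧ ∀ t ∈ Ioo (-ε) ε, SolAt g σ t

/-- B1d: constant speed -/
def SolSpeedS : Prop := ∀ (M : Type) [TopologicalSpace M] [ChartedSpace E3 M]
  [IsManifold I3 ∞ M] (g : RM M) (σ : ℝ → M × E3) (t : ℝ), SolAt g σ t →
  HasDerivAt (fun s => ipM g (σ s).1 (σ s).2 (σ s).2) 0 t

/-- B1e: the geodesic flow -/
def FlowExistsS : Prop := ∀ (M : Type) [TopologicalSpace M] [ChartedSpace E3 M]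
  [IsManifold I3 ∞ M] [T2Space M] [CompactSpace M] (g : RM M), ∃ Fl, IsFlow g Fl

/-- O1: short-time flow and variational equation of a compactly supported field -/
def OdeExS : Prop := ∀ F : E3 × E3 → E3 × E3, ContDiff ℝ 1 F → HasCompactSupport F →
  ∃ δ > 0, ∃ (Φ : ℝ → E3 × E3 → E3 × E3) (D : ℝ → E3 × E3 → (E3 × E3 →L[ℝ] E3 × E3)),
    (∀ y, Φ 0 y = y) ∧ (∀ y, D 0 y = ContinuousLinearMap.id ℝ _) ∧
    ∀ t ∈ Ioo (-δ) δ, ∀ y, HasDerivAt (fun s => Φ s y) (F (Φ t y)) t ∧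
      HasDerivAt (fun s => D s y) ((fderiv ℝ F (Φ t y)).comp (D t y)) t

/-- O2: the solution of the variational equation is the strict derivative of the flow -/
def OdeDepS : Prop := ∀ F : E3 × E3 → E3 × E3, ContDiff ℝ 1 F → HasCompactSupport F →
  ∀ δ : ℝ, ∀ (Φ : ℝ → E3 × E3 → E3 × E3) (D : ℝ → E3 × E3 → (E3 × E3 →L[ℝ] E3 × E3)),
    (∀ y, Φ 0 y = y) → (∀ y, D 0 y = ContinuousLinearMap.id ℝ _) →
    (∀ t ∈ Ioo (-δ) δ, ∀ y, HasDerivAt (fun s => Φ s y) (F (Φ t y)) t ∧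
      HasDerivAt (fun s => D s y) ((fderiv ℝ F (Φ t y)).comp (D t y)) t) →
    ∀ t ∈ Ioo (-δ) δ, ∀ y, HasStrictFDerivAt (Φ t) (D t y) y

/-- B2a: the local step of C¹ dependence, in the chart `z` at the base point at time `t₀` -/
def DepStepS : Prop := ∀ (M : Type) [TopologicalSpace M] [ChartedSpace E3 M]
  [IsManifold I3 ∞ M] [T2Space M] (g : RM M) (Fl : ℝ → M × E3 → M × E3), IsFlow g Fl →
  ∀ (x : M) (v : E3) (t₀ : ℝ) (z : M), z = (Fl t₀ (x, v)).1 → ∃ δ > 0,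
    (∀ t ∈ Metric.ball t₀ δ, (Fl t (x, v)).1 ∈ (ch z).source) ∧
    ∀ s ∈ Metric.ball t₀ δ, ContinuousAt (fun w => (Fl s (x, w)).1) v →
      HasStrictFDerivAt (stv Fl x z s) (fderiv ℝ (stv Fl x z s) v) v →
      ∀ t ∈ Metric.ball t₀ δ, ContinuousAt (fun w => (Fl t (x, w)).1) v ∧
        HasStrictFDerivAt (stv Fl x z t) (fderiv ℝ (stv Fl x z t) v) v ∧
        HasDerivAt (fun r => fderiv ℝ (stv Fl x z r) v)
          ((fderiv ℝ (Fv (mic g z)) (stv Fl x z t v)).comp (fderiv ℝ (stv Fl x z t) v)) t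

/-- B2b -/
def FlowDepS : Prop := ∀ (M : Type) [TopologicalSpace M] [ChartedSpace E3 M]
  [IsManifold I3 ∞ M] [T2Space M] (g : RM M) (Fl : ℝ → M × E3 → M × E3), IsFlow g Fl →
  FlowDep g Fl

/-- B2c: a real-variable lemma (convexity of the square root) -/
def SqrtConvexS : Prop := ∀ (ρ ρ₁ : ℝ → ℝ) (c : ℝ), (∀ t, 0 ≤ ρ t) → (∀ t, HasDerivAt ρ (ρ₁ t) t) →
  (∀ t, ∃ ρ₂, HasDerivAt ρ₁ ρ₂ t ∧ 0 ≤ ρ₂ ∧ ρ₁ t ^ 2 ≤ 2 * ρ t * ρ₂) → ρ 0 = 0 →
  Tendsto (fun s => ρ s / s ^ 2) (𝓝[>] 0) (𝓝 c) → c ≤ ρ 1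

/-- B2d: with curvature at most zero the exponential map is expanding -/
def ExpandS : Prop := ∀ (M : Type) [TopologicalSpace M] [ChartedSpace E3 M]
  [IsManifold I3 ∞ M] (g : RM M) (Fl : ℝ → M × E3 → M × E3), IsFlow g Fl → FlowDep g Fl →
  HasNonposSectionalCurvature g → ∀ x : M, Expanding g (ipM g x) (fun v => (Fl 1 (x, v)).1)

/-- hypothesis of the covering criterion -/
def CoverHyp {M : Type} [TopologicalSpace M] (e : E3 → M) : Prop :=
  IsLocalHomeomorph e ∧ ∀ y₀ : M, ∃ (φ : OpenPartialHomeomorph M E3) (r C : ℝ), 0 < r ∧ 0 < C ∧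
    y₀ ∈ φ.source ∧ Metric.closedBall (φ y₀) r ⊆ φ.target ∧
    ∀ v, e v ∈ φ.source → φ (e v) ∈ Metric.closedBall (φ y₀) r →
      ∃ W ∈ 𝓝 v, ∀ v₁ ∈ W, ∀ v₂ ∈ W, dist v₁ v₂ ≤ C * dist (φ (e v₁)) (φ (e v₂))

/-- B3a: covering criterion -/
def CoverCritS : Prop := ∀ (M : Type) [TopologicalSpace M] [T2Space M] (e : E3 → M),
  CoverHyp e → IsCoveringMap e

/-- B3b -/
def ExpCoverHypS : Prop := ∀ (M : Type) [TopologicalSpace M] [ChartedSpace E3 M]
  [IsManifold I3 ∞ M] (g : RM M) (B : E3 →L[ℝ] E3 →L[ℝ] ℝ) (e : E3 → M), Expanding g B e →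
  CoverHyp e

/-- B3c: comparison -/
def CompareS : Prop := ∀ (M : Type) [TopologicalSpace M] [ChartedSpace E3 M]
  [IsManifold I3 ∞ M] (g : RM M) (Fl : ℝ → M × E3 → M × E3), IsFlow g Fl →
  ∀ (B : E3 →L[ℝ] E3 →L[ℝ] ℝ) (e : E3 → M), Expanding g B e →
  ∀ (y : M) (u : E3) (σ : ℝ → E3), Continuous σ → (∀ t, e (σ t) = (Fl t (y, u)).1) →
    B (σ 1 - σ 0) (σ 1 - σ 0) ≤ ipM g y u u

/-- B3d: short geodesics stay in a chart ball -/
def SmallLoopS : Prop := ∀ (M : Type) [TopologicalSpace M] [ChartedSpace E3 M]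
  [IsManifold I3 ∞ M] [T2Space M] [CompactSpace M] (g : RM M) (Fl : ℝ → M × E3 → M × E3),
  IsFlow g Fl → ∃ ε > 0, ∀ (x : M) (v : E3), ipM g x v v < ε ^ 2 → ∃ (z : M) (C : Set E3), Convex ℝ C ∧
    C ⊆ (ch z).target ∧ ∀ t ∈ Icc (0 : ℝ) 1,
      (Fl t (x, v)).1 ∈ (ch z).source ∧ ch z (Fl t (x, v)).1 ∈ C

/-! ## Coverings, deck groups, CAT(0)-like actions -/

/-- abstract exponential maps -/
structure ExpData {M : Type} [TopologicalSpace M] (ex : M → E3 → M)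
    (B : M → E3 →L[ℝ] E3 →L[ℝ] ℝ) : Prop where
  symm : ∀ x u v, B x u v = B x v u
  pos : ∀ x u, u ≠ 0 → 0 < B x u u
  cover : ∀ x, IsCoveringMap (ex x)
  zero : ∀ x, ex x 0 = x
  compare : ∀ (x y : M) (u : E3) (σ : ℝ → E3), Continuous σ → (∀ t, ex x (σ t) = ex y (t • u)) →
    B x (σ 1 - σ 0) (σ 1 - σ 0) ≤ B y u u
  mid : ∀ (x : M) (v : E3), ∃ u : E3, B (ex x ((1 / 2 : ℝ) • v)) u u = B x v v / 4 ∧
    ∀ t : ℝ, ex (ex x ((1 / 2 : ℝ) • v)) (t • u) = ex x (((1 + t) / 2) • v)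
  small : ∃ ε > 0, ∀ (x : M) (v : E3), B x v v < ε ^ 2 → ex x v = x →
    ∃ (C : Set E3) (q : E3 → M) (c : ℝ → E3), Convex ℝ C ∧ ContinuousOn q C ∧
      ContinuousOn c (Icc 0 1) ∧ MapsTo c (Icc 0 1) C ∧ c 1 = c 0 ∧
      ∀ t ∈ Icc (0 : ℝ) 1, q (c t) = ex x (t • v)

/-- deck group -/
def Deck {M : Type} (pr : E3 → M) : Subgroup (E3 ≃ₜ E3) where
  carrier := {g | ∀ a, pr (g a) = pr a}
  mul_mem' := fun {g h} hg hh a => by
    have : (g * h) a = g (h a) := rfl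
    rw [this, hg, hh]
  one_mem' := fun _ => rfl
  inv_mem' := fun {g} hg a => by
    have h := hg (g⁻¹ a)
    have h2 : g (g⁻¹ a) = a := g.apply_symm_apply a
    rw [h2] at h; exact h.symm

/-- action of the deck group -/
def dact {M : Type} {pr : E3 → M} (g : Deck pr) (a : E3) : E3 := (g : E3 ≃ₜ E3) a

lemma dact_mul {M : Type} {pr : E3 → M} (g h : Deck pr) (a : E3) :
    dact (g * h) a = dact g (dact h a) := rfl
lemma dact_one {M : Type} {pr : E3 → M} (a : E3) : dact (1 : Deck pr) a = a := rfl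
lemma dact_proj {M : Type} {pr : E3 → M} (g : Deck pr) (a : E3) : pr (dact g a) = pr a := g.2 a
lemma dact_cont {M : Type} {pr : E3 → M} (g : Deck pr) : Continuous (dact g) :=
  (g : E3 ≃ₜ E3).continuous

structure CoverFacts {M : Type} [TopologicalSpace M] (pr : E3 → M) : Prop where
  trans : ∀ a b, pr a = pr b → ∃ g : Deck pr, dact g a = b
  free : ∀ (g : Deck pr) (a : E3), dact g a = a → g = 1
  lift : ∀ (C : Set E3) (q : E3 → M) (y₀ a : E3), Convex ℝ C → ContinuousOn q C → y₀ ∈ C →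
    pr a = q y₀ → ∃ l : E3 → E3, ContinuousOn l C ∧ (∀ y ∈ C, pr (l y) = q y) ∧ l y₀ = a
  shift : ∀ (C : Set E3) (l : E3 → E3) (k : E3), IsPreconnected C → C.Nonempty →
    ContinuousOn l C → (∀ y ∈ C, y + k ∈ C) → (∀ y ∈ C, pr (l (y + k)) = pr (l y)) →
    ∃ g : Deck pr, ∀ y ∈ C, l (y + k) = dact g (l y)

/-- T1a -/
def CoverFactsS : Prop := ∀ (M : Type) [TopologicalSpace M] (pr : E3 → M), IsCoveringMap pr →
  CoverFacts pr

structure CatAct (G X : Type) [Group G] (act : G → X → X) (d : X → X → ℝ) : Prop where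
  act_one : ∀ x, act 1 x = x
  act_mul : ∀ g h x, act (g * h) x = act g (act h x)
  nonneg : ∀ x y, 0 ≤ d x y
  self : ∀ x, d x x = 0
  comm : ∀ x y, d x y = d y x
  tri : ∀ x y z, d x z ≤ d x y + d y z
  iso : ∀ g x y, d (act g x) (act g y) = d x y
  cn : ∀ x y, ∃ m, ∀ w, d w m ^ 2 ≤ d w x ^ 2 / 2 + d w y ^ 2 / 2 - d x y ^ 2 / 4
  disp : ∃ ε > 0, ∀ g : G, g ≠ 1 → ∀ x, ε ≤ d x (act g x)

/-- B3e -/
def CatOfExpS : Prop := ∀ (M : Type) [TopologicalSpace M] (ex : M → E3 → M)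
  (B : M → E3 →L[ℝ] E3 →L[ℝ] ℝ), ExpData ex B → ∀ x₀ : M,
  ∃ d : E3 → E3 → ℝ, CatAct (Deck (ex x₀)) E3 dact d

structure LenFn (G : Type) [Group G] (len : G → ℝ) : Prop where
  nonneg : ∀ g, 0 ≤ len g
  one : len 1 = 0
  inv : ∀ g, len g⁻¹ = len g
  mul : ∀ g h, len (g * h) ≤ len g + len h
  quad : ∀ u a b : G, Commute u a → Commute u b →
    len (u * a * b) ^ 2 + len u ^ 2 ≤ len (u * a) ^ 2 + len (u * b) ^ 2 + len a ^ 2 + len b ^ 2
  grow : ∀ g : G, g ≠ 1 → ∃ ε > 0, ∀ k : ℕ, 2 ^ k * ε ≤ len (g ^ (2 ^ k))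

/-- B4a -/
def LenOfCatS : Prop := ∀ (G X : Type) [Group G] (act : G → X → X) (d : X → X → ℝ) (o : X),
  CatAct G X act d → LenFn G (fun g => d o (act g o))

/-- the relations of the graph-manifold group -/
def GraphRel (G : Type) [Group G] : Prop := ∃ e₁ e₂ a₁ b₁ a₂ b₂ : G,
  Commute e₁ e₂ ∧ Commute e₂ a₁ ∧ Commute e₂ b₁ ∧ e₁ = b₁⁻¹ * a₁⁻¹ * b₁ * a₁ ∧
  Commute e₁ a₂ ∧ Commute e₁ b₂ ∧ e₂ * e₁⁻¹ = b₂⁻¹ * a₂⁻¹ * b₂ * a₂ ∧ e₁ ≠ 1

/-- stable length -/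
structure StableLen (G : Type) [Group G] (len l : G → ℝ) : Prop where
  lim : ∀ g : G, Tendsto (fun n : ℕ => len (g ^ n) / n) atTop (𝓝 (l g))
  pos : ∀ g : G, g ≠ 1 → 0 < l g
  para : ∀ u a : G, Commute u a → l (u * a) ^ 2 + l (u * a⁻¹) ^ 2 = 2 * l u ^ 2 + 2 * l a ^ 2

/-- B4b -/
def StableLenS : Prop := ∀ (G : Type) [Group G] (len : G → ℝ), LenFn G len →
  ∃ l, StableLen G len l

/-- B4c: a commutator in the centraliser of `f` is orthogonal to `f` -/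
def OrthS : Prop := ∀ (G : Type) [Group G] (len l : G → ℝ), LenFn G len → StableLen G len l →
  ∀ f a b : G, Commute f a → Commute f b →
    l (f * (b⁻¹ * a⁻¹ * b * a)) ^ 2 = l f ^ 2 + l (b⁻¹ * a⁻¹ * b * a) ^ 2

end Crest.Agent.R244
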