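import Crest.Agent.R244.Defs
/-!
Row 244 (S0377): definitions and task statements, part 2: gluing, the neck metric, the concrete
graph manifold.
-/
set_option autoImplicit false
open scoped ContDiff Manifold Topology
open Bundle Set Filter
open Crest.GeometryTopology.Geodesic Crest.GeometryTopology.CoordMetric
  Crest.GeometryTopology.ChartCurvature

noncomputable section
namespace Crest.Agent.R244

/-! ## Generic gluing of open subsets of `E3` -/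

/-- `Y i` open pieces, `P i` normal-form maps (two points are glued when their normal forms
agree), `G i` metrics; index `1` is preferred. -/
structure Glue (A : Type) where
  Y : Fin 3 → Set E3
  P : Fin 3 → E3 → A
  G : Fin 3 → MF

/-- a local transition map from piece `i` near `y` to piece `j` near `y'` -/
def Glue.Tr {A : Type} (D : Glue A) (i j : Fin 3) (y y' : E3) : Prop :=
  ∃ (τ : E3 → E3) (V : Set E3), IsOpen V ∧ y ∈ V ∧ V ⊆ D.Y i ∧ ContDiffOn ℝ ∞ τ V ∧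
    MapsTo τ V (D.Y j) ∧ τ y = y' ∧ ∀ u ∈ V, D.P j (τ u) = D.P i u ∧
      0 < LinearMap.det (fderiv ℝ τ u : E3 →ₗ[ℝ] E3) ∧
      ∀ a b, ipL (D.G i) u a b = ipL (D.G j) (τ u) (fderiv ℝ τ u a) (fderiv ℝ τ u b)

structure Glue.Good {A : Type} (D : Glue A) : Prop where
  ne : (D.Y 1).Nonempty
  riem : ∀ i, IsRiemannianOn (D.G i) (D.Y i)
  locinj : ∀ i, ∀ y ∈ D.Y i, ∃ V ∈ 𝓝 y, InjOn (D.P i) (V ∩ D.Y i)
  tr : ∀ i j, ∀ y ∈ D.Y i, ∀ y' ∈ D.Y j, D.P i y = D.P j y' → D.Tr i j y y'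

/-- G0: transitions can be inverted -/
def TrSymmS : Prop := ∀ (A : Type) (D : Glue A) (i j : Fin 3) (y y' : E3), IsOpen (D.Y j) →
  D.Tr i j y y' → D.Tr j i y' y

structure Glued {A : Type} (D : Glue A) (M : Type) [TopologicalSpace M] [ChartedSpace E3 M]
    (p : Fin 3 → E3 → M) (ty : M → Fin 3) : Prop where
  surj : ∀ m, ∃ i, ∃ y ∈ D.Y i, p i y = m
  eq_iff : ∀ i j, ∀ y ∈ D.Y i, ∀ y' ∈ D.Y j, (p i y = p j y' ↔ D.P i y = D.P j y')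
  cont : ∀ i, ContinuousOn (p i) (D.Y i)
  isOpen_of : ∀ U : Set M, (∀ i, IsOpen (D.Y i ∩ p i ⁻¹' U)) → IsOpen U
  open_map : ∀ i (V : Set E3), IsOpen V → V ⊆ D.Y i → IsOpen (p i '' V)
  target_sub : ∀ m : M, (ch m).target ⊆ D.Y (ty m)
  symm_eq : ∀ m : M, ∀ y ∈ (ch m).target, (ch m).symm y = p (ty m) y
  pref : ∀ y ∈ D.Y 1, ty (p 1 y) = 1
  atlas : ∀ e ∈ atlas E3 M, ∃ m : M, e = ch m

/-- G1 -/
def GlueExS : Prop := ∀ (A : Type) (D : Glue A), D.Good →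
  ∃ (M : Type) (_ : TopologicalSpace M) (_ : ChartedSpace E3 M) (p : Fin 3 → E3 → M)
    (ty : M → Fin 3), Glued D M p ty

/-- G2: chart transitions agree locally with any continuous map respecting the normal forms;
continuous functions descend. -/
def GlueTrS : Prop := ∀ (A : Type) (D : Glue A), D.Good → ∀ (M : Type) [TopologicalSpace M]
  [ChartedSpace E3 M] (p : Fin 3 → E3 → M) (ty : M → Fin 3), Glued D M p ty →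
  (∀ (m m' : M), ∀ y ∈ dom m m', ∀ τ : E3 → E3, ContinuousAt τ y → τ y = trM m m' y →
    (∀ᶠ u in 𝓝 y, τ u ∈ D.Y (ty m') ∧ D.P (ty m') (τ u) = D.P (ty m) u) →
    trM m m' =ᶠ[𝓝 y] τ) ∧
  (∀ (m m' : M), ∀ y ∈ dom m m', ∃ (τ : E3 → E3) (V : Set E3), IsOpen V ∧ y ∈ V ∧
    V ⊆ dom m m' ∧ ContDiffOn ℝ ∞ τ V ∧ EqOn (trM m m') τ V ∧ ∀ u ∈ V,
      0 < LinearMap.det (fderiv ℝ τ u : E3 →ₗ[ℝ] E3) ∧
      ∀ a b, ipL (D.G (ty m)) u a b = ipL (D.G (ty m')) (τ u) (fderiv ℝ τ u a) (fderiv ℝ τ u b)) ∧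
  (∀ (Z : Type) [TopologicalSpace Z] (f : Fin 3 → E3 → Z), (∀ i, ContinuousOn (f i) (D.Y i)) →
    (∀ i j, ∀ y ∈ D.Y i, ∀ y' ∈ D.Y j, D.P i y = D.P j y' → f i y = f j y') →
    ∃ F : M → Z, Continuous F ∧ ∀ i, ∀ y ∈ D.Y i, F (p i y) = f i y)

/-- G3: smooth structure and orientation -/
def GlueMfdS : Prop := ∀ (A : Type) (D : Glue A), D.Good → ∀ (M : Type) [TopologicalSpace M]
  [ChartedSpace E3 M] (p : Fin 3 → E3 → M) (ty : M → Fin 3), Glued D M p ty →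
  ∃ _ : IsManifold I3 ∞ M, IsOrientable 3 M

/-- G4: the glued metric -/
def GlueMetS : Prop := ∀ (A : Type) (D : Glue A), D.Good → ∀ (M : Type) [TopologicalSpace M]
  [ChartedSpace E3 M] [IsManifold I3 ∞ M] (p : Fin 3 → E3 → M) (ty : M → Fin 3), Glued D M p ty →
  ∃ g : RM M, ∀ m : M, ∀ y ∈ (ch m).target, mic g m y = D.G (ty m) y

/-! ## The neck profile -/

/-- `φ = 1/F`, `ψ = 1/H`, `lam` the twist; `a = φ'/2`, `b = -ψ'/2`. -/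
structure Prof where
  φ : ℝ → ℝ
  ψ : ℝ → ℝ
  lam : ℝ → ℝ
  T : ℝ
  R₁ : ℝ
  R₂ : ℝ
  fi : ℝ

def Prof.a (P : Prof) (t : ℝ) : ℝ := deriv P.φ t / 2
def Prof.b (P : Prof) (t : ℝ) : ℝ := -deriv P.ψ t / 2

/-- the part of the hypotheses about `φ` -/
structure PhiOK (φ : ℝ → ℝ) (R₁ fi : ℝ) : Prop where
  smooth : ContDiff ℝ ∞ φ
  pos : ∀ t, 0 < φ t
  R_pos : 0 < R₁ + 1
  fi_pos : 0 < fi
  left : ∀ t ≤ -1, φ t = 1 / (R₁ - t) ^ 2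
  right : ∀ t ≥ 1 / 2, φ t = 1 / fi ^ 2
  mono : ∀ t, 0 ≤ deriv φ t
  conv : ∀ t, deriv (deriv φ) t / 2 * φ t ≤ 3 * (deriv φ t / 2) ^ 2
  bd : ∀ t ∈ Icc (0 : ℝ) (1 / 2), 1 ≤ φ t ∧ φ t ≤ 2 ∧ deriv φ t / 2 ≤ 1 / 200 ∧
    deriv φ t / 2 ≤ -(deriv (deriv φ) t / 2)
  spos : ∀ t ∈ Ico (0 : ℝ) (1 / 2), 0 < deriv φ t

structure Prof.OK (P : Prof) : Prop where
  phi : PhiOK P.φ P.R₁ P.fi
  ψ_smooth : ContDiff ℝ ∞ P.ψ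
  lam_smooth : ContDiff ℝ ∞ P.lam
  ψ_pos : ∀ t, 0 < P.ψ t
  T_pos : 0 < P.T
  R₂_pos : 0 < P.R₂ + 3 / 2
  ψ_left : ∀ t ≤ 0, P.ψ t = 1
  ψ_right : ∀ t ≥ 3 / 2, P.ψ t = P.T ^ 2 / (P.R₂ + t) ^ 2
  lam_left : ∀ t ≤ 1 / 6, P.lam t = 0
  lam_right : ∀ t ≥ 1 / 3, P.lam t = 1 / P.T
  b_nonneg : ∀ t, 0 ≤ P.b t
  ψ_conv : ∀ t, 0 ≤ deriv P.b t * P.ψ t + 3 * P.b t ^ 2
  bd : ∀ t ∈ Icc (0 : ℝ) (1 / 2), P.ψ t ≤ 2 ∧ P.b t ≤ 1 / 200 ∧ P.b t ≤ deriv P.b t ∧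
    |P.lam t| ≤ 1 / 200 ∧ deriv P.lam t ^ 2 ≤ (1 / 200) ^ 2 * (P.a t * P.b t) ∧
    deriv (deriv P.lam) t ^ 2 ≤ (1 / 200) ^ 2 * (P.a t * P.b t) ∧
    P.lam t ^ 2 * P.a t ≤ (1 / 200) ^ 2 * P.b t
  b_pos : ∀ t ∈ Ioc (0 : ℝ) (1 / 2), 0 < P.b t

/-- N6a -/
def PhiExS : Prop := ∃ (φ : ℝ → ℝ) (R₁ fi : ℝ), PhiOK φ R₁ fi
/-- N6b -/
def ProfExS : Prop := ∀ (φ : ℝ → ℝ) (R₁ fi : ℝ), PhiOK φ R₁ fi →
  ∃ P : Prof, P.φ = φ ∧ P.R₁ = R₁ ∧ P.fi = fi ∧ P.OK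

/-- the neck metric `dt² + (dx₁ + λ dx₂)²/φ + dx₂²/ψ` -/
def Prof.GN (P : Prof) : MF := fun y =>
  !![1, 0, 0;
     0, 1 / P.φ (y 0), P.lam (y 0) / P.φ (y 0);
     0, P.lam (y 0) / P.φ (y 0), P.lam (y 0) ^ 2 / P.φ (y 0) + 1 / P.ψ (y 0)]

/-- the fibre block of the neck metric -/
def Prof.Bq (P : Prof) (t : ℝ) (u v : E3) : ℝ :=
  (u 1 + P.lam t * u 2) * (v 1 + P.lam t * v 2) / P.φ t + u 2 * v 2 / P.ψ t

/-- the inverse of the fibre block, on covectors -/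
def Prof.Aq (P : Prof) (t : ℝ) (p q : ℝ × ℝ) : ℝ :=
  P.φ t * p.1 * q.1 + P.ψ t * (p.2 - P.lam t * p.1) * (q.2 - P.lam t * q.1)
def Prof.A1 (P : Prof) (t : ℝ) (p q : ℝ × ℝ) : ℝ := deriv (fun s => P.Aq s p q) t
def Prof.A2 (P : Prof) (t : ℝ) (p q : ℝ × ℝ) : ℝ := deriv (fun s => P.A1 s p q) t
def Prof.B1 (P : Prof) (t : ℝ) (u v : E3) : ℝ := deriv (fun s => P.Bq s u v) t

/-- N0: the neck metric and its Christoffel symbols -/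
structure NeckMet (P : Prof) : Prop where
  riem : IsRiemannianOn P.GN univ
  ip : ∀ y u v : E3, ipL P.GN y u v = u 0 * v 0 + P.Bq (y 0) u v
  gam0 : ∀ y u v : E3, Gam P.GN y u v 0 = -P.B1 (y 0) u v / 2
  gam1 : ∀ y u v w : E3,
    P.Bq (y 0) (Gam P.GN y u v) w = (u 0 * P.B1 (y 0) v w + v 0 * P.B1 (y 0) u w) / 2

def NeckMetS : Prop := ∀ P : Prof, P.OK → NeckMet P

/-- scalar state of a geodesic with a Jacobi field in the neck (momenta apart) -/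
structure St where
  θ : ℝ
  τ : ℝ
  η : ℝ
  η₁ : ℝ
  ξ₁ : ℝ
  ξ₂ : ℝ

/-- the scalar system with frozen momenta `p`, `dp` -/
structure SysC (P : Prof) (p dp : ℝ × ℝ) (z : ℝ → St) (s : ℝ) : Prop where
  θ : HasDerivAt (fun r => (z r).θ) (z s).τ s
  τ : HasDerivAt (fun r => (z r).τ) (-P.A1 (z s).θ p p / 2) s
  η : HasDerivAt (fun r => (z r).η) (z s).η₁ s
  η₁ : HasDerivAt (fun r => (z r).η₁) (-P.A2 (z s).θ p p / 2 * (z s).η - P.A1 (z s).θ p dp) s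
  ξ₁ : HasDerivAt (fun r => (z r).ξ₁) (P.Aq (z s).θ dp (1, 0) + (z s).η * P.A1 (z s).θ p (1, 0)) s
  ξ₂ : HasDerivAt (fun r => (z r).ξ₂) (P.Aq (z s).θ dp (0, 1) + (z s).η * P.A1 (z s).θ p (0, 1)) s

def jet (c J : ℝ → E3) (s : ℝ) : St :=
  ⟨c s 0, deriv c s 0, J s 0, deriv J s 0, J s 1, J s 2⟩
/-- conserved momenta of the geodesic -/
def Prof.mom (P : Prof) (c : ℝ → E3) (s : ℝ) : ℝ × ℝ :=
  (P.Bq (c s 0) (deriv c s) (bas 1), P.Bq (c s 0) (deriv c s) (bas 2))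
/-- their linearisations -/
def Prof.dmom (P : Prof) (c J : ℝ → E3) (s : ℝ) : ℝ × ℝ :=
  (P.Bq (c s 0) (deriv J s) (bas 1) + J s 0 * P.B1 (c s 0) (deriv c s) (bas 1),
   P.Bq (c s 0) (deriv J s) (bas 2) + J s 0 * P.B1 (c s 0) (deriv c s) (bas 2))

/-- N1a: geodesic part -/
def NeckGeoS : Prop := ∀ P : Prof, P.OK → ∀ (c : ℝ → E3) (s : ℝ), ContDiffAt ℝ 2 c s →
  GeoAt P.GN c s → HasDerivAt (P.mom c) 0 s ∧
    HasDerivAt (fun r => deriv c r 0) (-P.A1 (c s 0) (P.mom c s) (P.mom c s) / 2) s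

/-- N1b: Jacobi part -/
def NeckJacS : Prop := ∀ P : Prof, P.OK → ∀ (c J : ℝ → E3) (s : ℝ), ContDiffAt ℝ 2 c s →
  ContDiffAt ℝ 2 J s → GeoAt P.GN c s → JacAt P.GN c J s → HasDerivAt (P.dmom c J) 0 s ∧
    SysC P (P.mom c s) (P.dmom c J s) (jet c J) s

def Qf (dp : ℝ × ℝ) (w : St) : ℝ := w.η * w.η₁ + dp.1 * w.ξ₁ + dp.2 * w.ξ₂
def Xf (q : ℝ × ℝ) (w : St) : ℝ := q.1 * w.ξ₁ + q.2 * w.ξ₂
def Prof.Gf (P : Prof) (p q : ℝ × ℝ) (w : St) : ℝ :=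
  w.τ * Xf q w ^ 2 - 2 * P.Aq w.θ p q * w.η * Xf q w
def Prof.yf (P : Prof) (p q : ℝ × ℝ) (w : St) : ℝ := w.τ * Xf q w - P.Aq w.θ p q * w.η
/-- `V'` -/
def Prof.V1 (P : Prof) (p : ℝ × ℝ) (t : ℝ) : ℝ := P.A1 t p p / 2
def Prof.kap (P : Prof) (p q : ℝ × ℝ) (t : ℝ) : ℝ := P.V1 p t / P.Aq t p q ^ 2

/-- the Lyapunov certificate in the neck -/
def Prof.cert (P : Prof) (p dp : ℝ × ℝ) (w : St) : ℝ :=
  if w.θ ≤ 0 then Qf dp w - P.a w.θ / P.φ w.θ ^ 2 * P.Gf p (1, 0) w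
  else if 1 / 2 ≤ w.θ then Qf dp w + P.b w.θ / P.ψ w.θ ^ 2 * P.Gf p (0, 1) w
  else if 0 < P.V1 p w.θ then Qf dp w - P.kap p (1, 0) w.θ * P.Gf p (1, 0) w
  else if P.V1 p w.θ < 0 then Qf dp w - P.kap p (0, 1) w.θ * P.Gf p (0, 1) w
  else Qf dp w

/-- N2: the derivative identity -/
def QkS : Prop := ∀ P : Prof, P.OK → ∀ (p dp q : ℝ × ℝ) (z : ℝ → St) (s : ℝ), SysC P p dp z s →
  ∀ (κ : ℝ → ℝ) (κ' : ℝ), HasDerivAt κ κ' (z s).θ →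
  HasDerivAt (fun r => Qf dp (z r) - κ (z r).θ * P.Gf p q (z r))
    (((z s).η₁ + κ (z s).θ * P.Aq (z s).θ p q * Xf q (z s)) ^ 2
      + P.Aq (z s).θ (dp - (κ (z s).θ * P.yf p q (z s)) • q) (dp - (κ (z s).θ * P.yf p q (z s)) • q)
      + κ (z s).θ * (P.V1 p (z s).θ - κ (z s).θ * P.Aq (z s).θ p q ^ 2) * Xf q (z s) ^ 2
      + (-κ' - κ (z s).θ ^ 2 * P.Aq (z s).θ q q) * P.yf p q (z s) ^ 2
      + (κ' * P.Aq (z s).θ p q ^ 2 + 2 * κ (z s).θ * P.Aq (z s).θ p q * P.A1 (z s).θ p q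
          - P.A2 (z s).θ p p / 2) * (z s).η ^ 2) s

/-- N3a -/
def Star1S : Prop := ∀ P : Prof, P.OK → ∀ (p : ℝ × ℝ), ∀ t ∈ Icc (0 : ℝ) (1 / 2), p.1 ≠ 0 →
  0 ≤ P.V1 p t → P.Aq t p (1, 0) ≠ 0 ∧
    P.kap p (1, 0) t ^ 2 * P.Aq t (1, 0) (1, 0) ≤ -deriv (P.kap p (1, 0)) t

/-- N3b -/
def Star2S : Prop := ∀ P : Prof, P.OK → ∀ (p : ℝ × ℝ), ∀ t ∈ Icc (0 : ℝ) (1 / 2),
  p.2 - P.lam t * p.1 ≠ 0 → P.V1 p t ≤ 0 → P.Aq t p (0, 1) ≠ 0 ∧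
    P.kap p (0, 1) t ^ 2 * P.Aq t (0, 1) (0, 1) ≤ -deriv (P.kap p (0, 1)) t

/-- lower derivative of `f` at `s` at least `c` (jumps upwards allowed) -/
def LowDer (f : ℝ → ℝ) (s c : ℝ) : Prop := ∀ ε > 0,
  (∀ᶠ r in 𝓝[>] s, f s + (c - ε) * (r - s) ≤ f r) ∧
  (∀ᶠ r in 𝓝[<] s, f r ≤ f s - (c - ε) * (s - r))

/-- N5: monotonicity, and the branch lemma -/
def MonoS : Prop := (∀ f : ℝ → ℝ, (∀ s, LowDer f s 0) → Monotone f) ∧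
  (∀ (n : ℕ) (f : ℝ → ℝ) (g : Fin n → ℝ → ℝ) (D : Fin n → ℝ) (s c : ℝ),
    (∀ j, HasDerivAt (g j) (D j) s) → (∀ j, c ≤ D j) →
    (∀ᶠ r in 𝓝[>] s, ∃ j, g j r ≤ f r ∧ f s ≤ g j s) →
    (∀ᶠ r in 𝓝[<] s, ∃ j, f r ≤ g j r ∧ g j s ≤ f s) → LowDer f s c)

open Classical in
/-- the lower bound for the derivative of the certificate -/
def Prof.low (P : Prof) (dp : ℝ × ℝ) (w : St) : ℝ :=
  if w.η = 0 ∧ w.ξ₁ = 0 ∧ w.ξ₂ = 0 then w.η₁ ^ 2 + P.Aq w.θ dp dp else 0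

def CertAt (S : Set ℝ) : Prop := ∀ P : Prof, P.OK → ∀ (p dp : ℝ × ℝ) (z : ℝ → St) (s : ℝ),
  SysC P p dp z s → (z s).θ ∈ S → LowDer (fun r => P.cert p dp (z r)) s (P.low dp (z s))

/-- N4a -/
def CertOutS : Prop := CertAt (Iio 0 ∪ Ioi (1 / 2))
/-- N4b -/
def CertMidS : Prop := CertAt (Ioo 0 (1 / 2))
/-- N4c -/
def CertZeroS : Prop := CertAt {0}
/-- N4d -/
def CertHalfS : Prop := CertAt {1 / 2}

def Prof.rho (P : Prof) (w : St) : ℝ :=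
  w.η ^ 2 + (w.ξ₁ + P.lam w.θ * w.ξ₂) ^ 2 / P.φ w.θ + w.ξ₂ ^ 2 / P.ψ w.θ

/-- N7: in the pure zones the certificate is half the derivative of `|J|²` -/
def PureRhoS : Prop := ∀ P : Prof, P.OK → ∀ (p dp : ℝ × ℝ) (z : ℝ → St) (s : ℝ),
  SysC P p dp z s → ((z s).θ ≤ 0 ∨ 1 / 2 ≤ (z s).θ) →
  HasDerivAt (fun r => P.rho (z r)) (2 * P.cert p dp (z s)) s

/-! ## Part A on a manifold with a neck -/

section
variable {M : Type} [TopologicalSpace M] [ChartedSpace E3 M] [IsManifold I3 ∞ M]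

structure NeckIface (P : Prof) (g : RM M) (N : Set M) : Prop where
  neck : ∀ m ∈ N, ∀ᶠ m' in 𝓝 m, m' ∈ N ∧ ∃ k : E3, k 0 = 0 ∧
    (fun x => ch m' x) =ᶠ[𝓝 m'] fun x => ch m x + k
  away : ∀ m ∉ N, ∀ᶠ m' in 𝓝 m, ¬ (m' ∈ N ∧ 0 < ch m' m' 0 ∧ ch m' m' 0 < 1 / 2)
  metN : ∀ m ∈ N, ∀ y ∈ (ch m).target, mic g m y = P.GN y
  metP : ∀ m ∉ N, ∃ G₀ : Matrix (Fin 3) (Fin 3) ℝ, ∀ y ∈ (ch m).target, mic g m y = G₀

open Classical in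
/-- the global certificate along a geodesic with a Jacobi field -/
def certM (P : Prof) (g : RM M) (N : Set M) (γ : ℝ → M) (J : ℝ → E3) (s : ℝ) : ℝ :=
  if γ s ∈ N ∧ 0 < ch (γ s) (γ s) 0 ∧ ch (γ s) (γ s) 0 < 1 / 2 then
    P.cert (P.mom (fun r => ch (γ s) (γ r)) s)
      (P.dmom (fun r => ch (γ s) (γ r)) (fun r => TT (γ s) (γ r) (J r)) s)
      (jet (fun r => ch (γ s) (γ r)) (fun r => TT (γ s) (γ r) (J r)) s)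
  else deriv (fun r => ipM g (γ r) (J r) (J r)) s / 2

/-- local conclusion at a parameter `s` -/
def CertLoc (P : Prof) (g : RM M) (N : Set M) (γ : ℝ → M) (J : ℝ → E3) (s : ℝ) : Prop :=
  ∃ c, 0 ≤ c ∧ LowDer (certM P g N γ J) s c ∧
    (J s = 0 → certM P g N γ J s = 0 ∧ (deriv (fun r => TT (γ s) (γ r) (J r)) s ≠ 0 → 0 < c))
end

/-- A1 -/
def CertNeckS : Prop := ∀ (M : Type) [TopologicalSpace M] [ChartedSpace E3 M] [IsManifold I3 ∞ M]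
  (P : Prof) (g : RM M) (N : Set M), P.OK → NeckIface P g N → ∀ (γ : ℝ → M) (J : ℝ → E3),
  GJ g γ J → ∀ s, γ s ∈ N → CertLoc P g N γ J s

/-- A2 -/
def CertPieceS : Prop := ∀ (M : Type) [TopologicalSpace M] [ChartedSpace E3 M] [IsManifold I3 ∞ M]
  (P : Prof) (g : RM M) (N : Set M), P.OK → NeckIface P g N → ∀ (γ : ℝ → M) (J : ℝ → E3),
  GJ g γ J → ∀ s, γ s ∉ N → CertLoc P g N γ J s

/-! ## The concrete graph manifold -/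

/-- distance to the nearest integer -/
def dz (x : ℝ) : ℝ := |x - round x|

/-- the plane minus closed discs of radius `1/8` round the integer points, times a line -/
def Yp : Set E3 := {y | 1 / 64 < dz (y 0) ^ 2 + dz (y 1) ^ 2}

def Prof.L₁ (P : Prof) : ℝ := 8 * (P.R₁ + 1)
def Prof.L₂ (P : Prof) : ℝ := 8 * (P.R₂ + 3 / 2)
def Prof.r₁ (P : Prof) (t : ℝ) : ℝ := (P.R₁ - t) / P.L₁
def Prof.r₂ (P : Prof) (t : ℝ) : ℝ := (P.R₂ + t) / P.L₂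
def Prof.YN (P : Prof) : Set E3 := {y | -1 - (P.R₁ + 1) < y 0 ∧ y 0 < 3 / 2 + (P.R₂ + 3 / 2)}

def Prof.pol₁ (P : Prof) (y : E3) : E3 :=
  !₂[P.r₁ (y 0) * Real.cos (y 1), -(P.r₁ (y 0) * Real.sin (y 1)), y 2 / (2 * Real.pi * P.T)]
def Prof.pol₂ (P : Prof) (y : E3) : E3 :=
  !₂[P.r₂ (y 0) * Real.cos (y 2 / P.T), -(P.r₂ (y 0) * Real.sin (y 2 / P.T)),
    y 1 / (2 * Real.pi) + y 2 / (2 * Real.pi * P.T)]

abbrev NF : Type := Fin 3 × (Fin 3 → ℝ)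
def PP (i : Fin 3) (y : E3) : NF := (i, fun j => Int.fract (y j))
def Prof.PN (P : Prof) (y : E3) : NF :=
  if y 0 < -1 then PP 0 (P.pol₁ y) else if 3 / 2 < y 0 then PP 2 (P.pol₂ y)
  else (1, ![y 0, Int.fract (y 1 / (2 * Real.pi)), Int.fract (y 2 / (2 * Real.pi * P.T))])

def Prof.glue (P : Prof) : Glue NF where
  Y := ![Yp, P.YN, Yp]
  P := ![PP 0, P.PN, PP 2]
  G := ![fun _ => Matrix.diagonal ![P.L₁ ^ 2, P.L₁ ^ 2, (2 * Real.pi * P.T) ^ 2], P.GN,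
    fun _ => Matrix.diagonal ![P.L₂ ^ 2, P.L₂ ^ 2, (2 * Real.pi * P.fi) ^ 2]]

/-- congruence modulo the integer lattice -/
def ZEq (y y' : E3) : Prop := ∀ i, ∃ k : ℤ, y' i = y i + k

structure PFacts (P : Prof) : Prop where
  dz_cont : Continuous dz
  dz_int : ∀ (x : ℝ) (k : ℤ), dz (x + k) = dz x
  dz_small : ∀ x : ℝ, |x| ≤ 1 / 2 → dz x = |x|
  dz_le : ∀ (x : ℝ) (k : ℤ), dz x ≤ |x - k|
  open_p : IsOpen Yp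
  open_N : IsOpen P.YN
  convex_N : Convex ℝ P.YN
  pp : ∀ i y y', PP i y = PP i y' ↔ ZEq y y'
  nn : ∀ y ∈ P.YN, ∀ y' ∈ P.YN, (P.PN y = P.PN y' ↔ y' 0 = y 0 ∧
    (∃ k : ℤ, y' 1 = y 1 + 2 * Real.pi * k) ∧ ∃ k : ℤ, y' 2 = y 2 + 2 * Real.pi * P.T * k)
  n1 : ∀ y y', P.PN y = PP 0 y' ↔ y 0 < -1 ∧ ZEq (P.pol₁ y) y'
  n2 : ∀ y y', P.PN y = PP 2 y' ↔ 3 / 2 < y 0 ∧ ZEq (P.pol₂ y) y'
  rad₁ : ∀ y ∈ P.YN, y 0 < -1 → 1 / 8 < P.r₁ (y 0) ∧ P.r₁ (y 0) < 1 / 4 ∧ P.pol₁ y ∈ Yp ∧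
    dz (P.pol₁ y 0) ^ 2 + dz (P.pol₁ y 1) ^ 2 = P.r₁ (y 0) ^ 2
  rad₂ : ∀ y ∈ P.YN, 3 / 2 < y 0 → 1 / 8 < P.r₂ (y 0) ∧ P.r₂ (y 0) < 1 / 4 ∧ P.pol₂ y ∈ Yp ∧
    dz (P.pol₂ y 0) ^ 2 + dz (P.pol₂ y 1) ^ 2 = P.r₂ (y 0) ^ 2
  surj₁ : ∀ y' ∈ Yp, dz (y' 0) ^ 2 + dz (y' 1) ^ 2 < 1 / 16 →
    ∃ y ∈ P.YN, y 0 < -1 ∧ ZEq (P.pol₁ y) y'
  surj₂ : ∀ y' ∈ Yp, dz (y' 0) ^ 2 + dz (y' 1) ^ 2 < 1 / 16 →
    ∃ y ∈ P.YN, 3 / 2 < y 0 ∧ ZEq (P.pol₂ y) y'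

/-- T0a -/
def PFactsS : Prop := ∀ P : Prof, P.OK → PFacts P
/-- T0b: the two polar transitions -/
def PolTrS : Prop := ∀ P : Prof, P.OK →
  (∀ y ∈ P.YN, ∀ y' ∈ Yp, P.PN y = PP 0 y' → P.glue.Tr 1 0 y y') ∧
  (∀ y ∈ P.YN, ∀ y' ∈ Yp, P.PN y = PP 2 y' → P.glue.Tr 1 2 y y')
/-- T0c -/
def GoodS : Prop := ∀ P : Prof, P.OK → P.glue.Good
/-- T0d -/
def HausS : Prop := ∀ P : Prof, P.OK → ∀ (M : Type) [TopologicalSpace M] [ChartedSpace E3 M]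
  (p : Fin 3 → E3 → M) (ty : M → Fin 3), Glued P.glue M p ty → T2Space M
/-- T0e -/
def CptConnS : Prop := ∀ P : Prof, P.OK → ∀ (M : Type) [TopologicalSpace M] [ChartedSpace E3 M]
  (p : Fin 3 → E3 → M) (ty : M → Fin 3), Glued P.glue M p ty → CompactSpace M ∧ ConnectedSpace M
/-- T0f -/
def IfaceS : Prop := ∀ P : Prof, P.OK → ∀ (M : Type) [TopologicalSpace M] [ChartedSpace E3 M]
  [IsManifold I3 ∞ M] [T2Space M] (p : Fin 3 → E3 → M) (ty : M → Fin 3), Glued P.glue M p ty →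
  ∀ g : RM M, (∀ m : M, ∀ y ∈ (ch m).target, mic g m y = P.glue.G (ty m) y) →
  NeckIface P g {m | ty m = 1}

/-- T1b: the relation of one piece -/
def PieceRelS : Prop := ∀ (M : Type) [TopologicalSpace M] (pr : E3 → M), IsCoveringMap pr →
  ∀ (q : E3 → M), ContinuousOn q Yp → (∀ y ∈ Yp, ∀ y', ZEq y y' → q y' = q y) →
  ∀ (ν : ℝ × ℝ → E3), Continuous ν →
  (∀ θ z : ℝ, pr (ν (θ, z)) = q !₂[1 / 5 * Real.cos θ, -(1 / 5 * Real.sin θ), z]) →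
  ∀ c f : Deck pr, (∀ θ z : ℝ, ν (θ + 2 * Real.pi, z) = dact c (ν (θ, z))) →
  (∀ θ z : ℝ, ν (θ, z + 1) = dact f (ν (θ, z))) →
  ∃ a b : Deck pr, Commute f a ∧ Commute f b ∧ c = b⁻¹ * a⁻¹ * b * a

def W0 (X : ℂ) (η : ℝ) : ℂ := (X.im : ℂ) + Complex.I * ((η + max 0 (-X.re) : ℝ) : ℂ)

/-- functions on `M` detecting the boundary loop `ℓ` -/
structure ThetaData {M : Type} [TopologicalSpace M] (Xh Yh A B : M → ℂ) (ℓ : ℝ → M) : Prop where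
  cX : Continuous Xh
  cY : Continuous Yh
  cA : Continuous A
  cB : Continuous B
  nX : ∀ m, ‖Xh m‖ = 1
  nY : ∀ m, ‖Yh m‖ = 1
  supp : ∀ m, B m ≠ 0 → 0 ≤ (Yh m).re
  ne : ∀ m, ∀ η ∈ Icc (-1 / 2 : ℝ) (1 / 2), Complex.exp (2 * Real.pi * η * Complex.I) = Yh m →
    A m * (starRingEnd ℂ) (W0 (Xh m) η) + B m ≠ 0
  loop : ∀ s : ℝ, A (ℓ s) = 0 ∧ B (ℓ s) = Complex.exp (s * Complex.I) ∧ Xh (ℓ s) = 1 ∧ Yh (ℓ s) = 1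

/-- T2a -/
def ThetaExS : Prop := ∀ P : Prof, P.OK → ∀ (M : Type) [TopologicalSpace M] [ChartedSpace E3 M]
  (p : Fin 3 → E3 → M) (ty : M → Fin 3), Glued P.glue M p ty →
  ∃ Xh Yh A B : M → ℂ, ThetaData Xh Yh A B (fun s => p 1 !₂[0, s, 0])

/-- T2b -/
def ThetaNeS : Prop := ∀ (M : Type) [TopologicalSpace M] (Xh Yh A B : M → ℂ) (ℓ : ℝ → M),
  ThetaData Xh Yh A B ℓ → ∀ (pr : E3 → M) (ν : ℝ → E3), Continuous pr → Continuous ν →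
  (∀ s, pr (ν s) = ℓ s) → ν (2 * Real.pi) ≠ ν 0

/-- T1c -/
def NeckRelS : Prop := ∀ P : Prof, P.OK → ∀ (M : Type) [TopologicalSpace M] [ChartedSpace E3 M]
  (p : Fin 3 → E3 → M) (ty : M → Fin 3), Glued P.glue M p ty → ∀ pr : E3 → M, IsCoveringMap pr →
  pr 0 = p 1 0 → GraphRel (Deck pr)

end Crest.Agent.R244
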