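import Crest.Agent.R244.Defs2
/-! Row 244, task DepStep: the local step of C¹ dependence on the initial velocity. -/
set_option autoImplicit false
open scoped ContDiff Manifold Topology
open Bundle Set Filter
open Crest.GeometryTopology.Geodesic Crest.GeometryTopology.CoordMetric
  Crest.GeometryTopology.ChartCurvature

noncomputable section
namespace Crest.Agent.R244

namespace DepStep

theorem cutoff (f : E3 × E3 → E3 × E3) (U : Set (E3 × E3)) (hU : IsOpen U)
    (hf : ContDiffOn ℝ 1 f U) (q₀ : E3 × E3) (hq : q₀ ∈ U) :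
    ∃ R > 0, ∃ F : E3 × E3 → E3 × E3, ContDiff ℝ 1 F ∧ HasCompactSupport F ∧
      Metric.ball q₀ R ⊆ U ∧ ∀ q ∈ Metric.ball q₀ R, F q = f q := by
  obtain ⟨ε, hε, hball⟩ := Metric.isOpen_iff.1 hU q₀ hq
  let b : ContDiffBump q₀ := ⟨ε / 3, 2 * ε / 3, by positivity, by linarith⟩
  have hsupp : tsupport b ⊆ U := by
    rw [b.tsupport_eq]
    exact (Metric.closedBall_subset_ball (show 2 * ε / 3 < ε by linarith)).trans hball
  refine ⟨ε / 3, by positivity, fun q => b q • f q, ?_, ?_, ?_, ?_⟩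
  · rw [contDiff_iff_contDiffAt]
    intro q
    by_cases h : q ∈ U
    · exact (b.contDiff (n := 1)).contDiffAt.smul (hf.contDiffAt (hU.mem_nhds h))
    · have h' : q ∉ tsupport b := fun h2 => h (hsupp h2)
      have : (fun q => b q • f q) =ᶠ[𝓝 q] fun _ => 0 := by
        filter_upwards [notMem_tsupport_iff_eventuallyEq.1 h'] with y hy
        rw [hy]; simp
      exact contDiffAt_const.congr_of_eventuallyEq this
  · exact b.hasCompactSupport.smul_right
  · exact (Metric.ball_subset_ball (by linarith)).trans hball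
  · intro q hq
    show b q • f q = f q
    rw [b.one_of_mem_closedBall (Metric.ball_subset_closedBall hq), one_smul]

theorem fv_smooth (hG : GamBasicS) (g : MF) (U : Set E3) (h : IsRiemannianOn g U) :
    ContDiffOn ℝ 1 (Fv g) (U ×ˢ univ) := by
  have h1 : ContDiffOn ℝ 1 (Gam g) U := (hG g U h).gam_smooth.of_le (by exact_mod_cast le_top)
  have h2 : ContDiffOn ℝ 1 (fun q : E3 × E3 => Gam g q.1) (U ×ˢ univ) :=
    h1.comp contDiffOn_fst (fun q hq => hq.1)
  exact contDiffOn_snd.prodMk ((h2.clm_apply contDiffOn_snd).clm_apply contDiffOn_snd).neg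

theorem drift (F : E3 × E3 → E3 × E3) (L δ : ℝ) (hL : ∀ q, ‖F q‖ ≤ L) (φ : ℝ → E3 × E3)
    (hφ : ∀ t ∈ Ioo (-δ) δ, HasDerivAt φ (F (φ t)) t) (t : ℝ) (ht : t ∈ Ioo (-δ) δ) :
    ‖φ t - φ 0‖ ≤ L * |t| := by
  have h0 : (0 : ℝ) ∈ Ioo (-δ) δ := ⟨by linarith [ht.1, ht.2], by linarith [ht.1, ht.2]⟩
  have := (convex_Ioo (-δ) δ).norm_image_sub_le_of_norm_hasDerivWithin_le
    (f := φ) (f' := fun t => F (φ t)) (fun t ht => (hφ t ht).hasDerivWithinAt)
    (fun t _ => hL _) h0 ht
  simpa using this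

end DepStep

theorem depStep (hG : GamBasicS) (hCF : ChartFactsS) (hOne : SolOneS) (hUn : SolUniqueS)
    (hEx : OdeExS) (hDep : OdeDepS) : DepStepS := by
  intro M _ _ _ _ g Fl hFl x v t₀ z hz
  have cf := hCF M g
  have hzs : (Fl t₀ (x, v)).1 ∈ (ch z).source := by rw [← hz]; exact mem_chart_source E3 z
  set q₀ : E3 × E3 := st z (Fl t₀ (x, v)) with hq₀
  have hq₀U : q₀ ∈ (ch z).target ×ˢ (univ : Set E3) := ⟨(ch z).map_source hzs, mem_univ _⟩
  obtain ⟨R, hR, F, hF, hFc, hRU, hFe⟩ := DepStep.cutoff (Fv (mic g z)) _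
    ((ch z).open_target.prod isOpen_univ) (DepStep.fv_smooth hG _ _ (cf.riem z)) q₀ hq₀U
  obtain ⟨δ₀, hδ₀, Φ, D, hΦ0, hD0, hode⟩ := hEx F hF hFc
  have hstrict := hDep F hF hFc δ₀ Φ D hΦ0 hD0 hode
  obtain ⟨L₀, hL₀⟩ := hF.continuous.bounded_above_of_compact_support hFc
  set L : ℝ := |L₀| + 1 with hLdef
  have hLpos : 0 < L := by positivity
  have hL : ∀ q, ‖F q‖ ≤ L := fun q => (hL₀ q).trans (by linarith [le_abs_self L₀])
  have hev : ∀ᶠ t in 𝓝 t₀, (Fl t (x, v)).1 ∈ (ch z).source ∧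
      st z (Fl t (x, v)) ∈ Metric.ball q₀ (R / 2) := by
    have h1 := (hFl.sol (x, v) t₀).1
    have h2 := ((hFl.sol (x, v) t₀).2 z hzs).continuousAt
    exact (h1.eventually ((ch z).open_source.mem_nhds hzs)).and
      (h2.eventually (Metric.ball_mem_nhds q₀ (by positivity)))
  obtain ⟨δ₁, hδ₁, hδ₁'⟩ := Metric.eventually_nhds_iff_ball.1 hev
  set δ : ℝ := min δ₁ (min (δ₀ / 2) (R / (4 * L))) with hδdef
  have hδ : 0 < δ := by positivity
  have hδa : δ ≤ δ₁ := min_le_left _ _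
  have hδb : δ ≤ δ₀ / 2 := (min_le_right _ _).trans (min_le_left _ _)
  have hδc : δ ≤ R / (4 * L) := (min_le_right _ _).trans (min_le_right _ _)
  have hin : ∀ t ∈ Metric.ball t₀ δ, (Fl t (x, v)).1 ∈ (ch z).source ∧
      st z (Fl t (x, v)) ∈ Metric.ball q₀ (R / 2) :=
    fun t ht => hδ₁' t (Metric.ball_subset_ball hδa ht)
  refine ⟨δ, hδ, fun t ht => (hin t ht).1, fun s hs hcont hder => ?_⟩
  have hdiff : ∀ r ∈ Metric.ball t₀ δ, |r - s| < 2 * δ := by
    intro r hr
    rw [Metric.mem_ball, Real.dist_eq] at hr hs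
    rw [abs_lt] at hr hs ⊢
    constructor <;> linarith [hr.1, hr.2, hs.1, hs.2]
  have hIoo : ∀ r ∈ Metric.ball t₀ δ, r - s ∈ Ioo (-δ₀) δ₀ := by
    intro r hr
    have := abs_lt.1 (hdiff r hr)
    constructor <;> linarith [this.1, this.2]
  have hstay : ∀ y ∈ Metric.ball q₀ (R / 2), ∀ r ∈ Metric.ball t₀ δ,
      Φ (r - s) y ∈ Metric.ball q₀ R := by
    intro y hy r hr
    have h1 := DepStep.drift F L δ₀ hL (fun t => Φ t y) (fun t ht => (hode t ht y).1) _ (hIoo r hr)
    simp only [hΦ0] at h1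
    have h2 : L * |r - s| ≤ R / 2 := by
      have h3 : L * |r - s| ≤ L * (2 * (R / (4 * L))) :=
        mul_le_mul_of_nonneg_left (by linarith [hdiff r hr]) hLpos.le
      have h4 : L * (2 * (R / (4 * L))) = R / 2 := by field_simp; ring
      linarith
    rw [Metric.mem_ball] at hy ⊢
    have := dist_triangle (Φ (r - s) y) y q₀
    rw [dist_eq_norm (Φ (r - s) y) y] at this
    linarith
  -- the key identity
  have key : ∀ w : E3, (Fl s (x, w)).1 ∈ (ch z).source →
      stv Fl x z s w ∈ Metric.ball q₀ (R / 2) → ∀ r ∈ Metric.ball t₀ δ,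
      (Fl r (x, w)).1 = (ch z).symm (Φ (r - s) (stv Fl x z s w)).1 ∧
        stv Fl x z r w = Φ (r - s) (stv Fl x z s w) := by
    intro w hw1 hw2
    set y := stv Fl x z s w with hy
    let σ : ℝ → M × E3 := fun r => ((ch z).symm (Φ (r - s) y).1,
      fderiv ℝ (trM z ((ch z).symm (Φ (r - s) y).1)) (Φ (r - s) y).1 (Φ (r - s) y).2)
    have htar : ∀ r ∈ Metric.ball t₀ δ, (Φ (r - s) y).1 ∈ (ch z).target :=
      fun r hr => (hRU (hstay y hw2 r hr)).1
    have hst : ∀ r ∈ Metric.ball t₀ δ, st z (σ r) = Φ (r - s) y := by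
      intro r hr
      have h1 := (ch z).right_inv (htar r hr)
      have h2 := cf.tt_inv z _ ((ch z).map_target (htar r hr)) (Φ (r - s) y).2
      rw [h1] at h2
      exact Prod.ext h1 h2
    have hder' : ∀ r ∈ Metric.ball t₀ δ,
        HasDerivAt (fun r => Φ (r - s) y) (F (Φ (r - s) y)) r := by
      intro r hr
      exact ((hode _ (hIoo r hr) y).1).comp_sub_const r s
    have hsol : ∀ r ∈ Metric.ball t₀ δ, SolAt g σ r := by
      intro r hr
      refine hOne M g σ r z ?_ ((ch z).map_target (htar r hr)) ?_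
      · exact ContinuousAt.comp (f := fun r => (Φ (r - s) y).1)
          ((ch z).continuousAt_symm (htar r hr)) (hder' r hr).continuousAt.fst
      · rw [hst r hr, ← hFe _ (hstay y hw2 r hr)]
        refine (hder' r hr).congr_of_eventuallyEq ?_
        filter_upwards [Metric.isOpen_ball.mem_nhds hr] with r' hr' using hst r' hr'
    have hσs : Fl s (x, w) = σ s := by
      have e1 : Φ (s - s) y = y := by rw [sub_self, hΦ0]
      have e2 : (ch z).symm y.1 = (Fl s (x, w)).1 := (ch z).left_inv hw1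
      have e3 := cf.tt_comp _ z (Fl s (x, w)).1 hw1 (mem_chart_source E3 _) (Fl s (x, w)).2
      rw [cf.tt_self] at e3
      show _ = (_, _)
      rw [e1, e2]
      exact Prod.ext rfl e3.symm
    have hb : Metric.ball t₀ δ = Ioo (t₀ - δ) (t₀ + δ) := Real.ball_eq_Ioo _ _
    have heq := hUn M g (fun r => Fl r (x, w)) σ (t₀ - δ) (t₀ + δ) s (hb ▸ hs)
      (fun r _ => hFl.sol (x, w) r) (fun r hr => hsol r (hb ▸ hr)) hσs
    intro r hr
    have h1 : Fl r (x, w) = σ r := heq (hb ▸ hr)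
    refine ⟨by rw [h1], ?_⟩
    show st z (Fl r (x, w)) = _
    rw [h1, hst r hr]
  have hw : ∀ᶠ w in 𝓝 v, (Fl s (x, w)).1 ∈ (ch z).source ∧
      stv Fl x z s w ∈ Metric.ball q₀ (R / 2) :=
    (hcont.eventually ((ch z).open_source.mem_nhds (hin s hs).1)).and
      (hder.continuousAt.eventually (Metric.isOpen_ball.mem_nhds (hin s hs).2))
  set y₀ := stv Fl x z s v with hy₀
  set A := fderiv ℝ (stv Fl x z s) v with hA
  have hy₀b : y₀ ∈ Metric.ball q₀ (R / 2) := (hin s hs).2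
  have hS : ∀ r ∈ Metric.ball t₀ δ,
      HasStrictFDerivAt (stv Fl x z r) ((D (r - s) y₀).comp A) v := by
    intro r hr
    have h1 := (hstrict _ (hIoo r hr) y₀).comp v hder
    refine h1.congr_of_eventuallyEq ?_
    filter_upwards [hw] with w hw' using ((key w hw'.1 hw'.2 r hr).2).symm
  have hfd : ∀ r ∈ Metric.ball t₀ δ, fderiv ℝ (stv Fl x z r) v = (D (r - s) y₀).comp A :=
    fun r hr => (hS r hr).hasFDerivAt.fderiv
  intro t ht
  refine ⟨?_, by rw [hfd t ht]; exact hS t ht, ?_⟩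
  · have h1 : ContinuousAt (fun w => (Φ (t - s) (stv Fl x z s w)).1) v :=
      ((hstrict _ (hIoo t ht) y₀).comp v hder).continuousAt.fst
    have h2 : ContinuousAt (fun w => (ch z).symm (Φ (t - s) (stv Fl x z s w)).1) v :=
      ContinuousAt.comp (f := fun w => (Φ (t - s) (stv Fl x z s w)).1)
        ((ch z).continuousAt_symm (hRU (hstay y₀ hy₀b t ht)).1) h1
    refine h2.congr ?_
    filter_upwards [hw] with w hw' using ((key w hw'.1 hw'.2 t ht).1).symm
  · have e1 : stv Fl x z t v = Φ (t - s) y₀ := (key v (hin s hs).1 hy₀b t ht).2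
    have e2 : fderiv ℝ (Fv (mic g z)) (Φ (t - s) y₀) = fderiv ℝ F (Φ (t - s) y₀) := by
      refine Filter.EventuallyEq.fderiv_eq ?_
      filter_upwards [Metric.isOpen_ball.mem_nhds (hstay y₀ hy₀b t ht)] with q hq using
        (hFe q hq).symm
    rw [e1, e2, hfd t ht]
    have h1 : HasDerivAt (fun r => D (r - s) y₀)
        ((fderiv ℝ F (Φ (t - s) y₀)).comp (D (t - s) y₀)) t :=
      ((hode _ (hIoo t ht) y₀).2).comp_sub_const t s
    have h2 := h1.clm_comp (hasDerivAt_const t A)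
    rw [ContinuousLinearMap.comp_zero, add_zero, ContinuousLinearMap.comp_assoc] at h2
    refine h2.congr_of_eventuallyEq ?_
    filter_upwards [Metric.isOpen_ball.mem_nhds ht] with r hr using hfd r hr

end Crest.Agent.R244
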