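import Crest.Agent.R244.Defs2
/-! Row 244, task ExpCoverHyp: an expanding map satisfies the hypothesis of the covering
criterion. -/
set_option autoImplicit false
open scoped ContDiff Manifold Topology
open Bundle Set Filter
open Crest.GeometryTopology.Geodesic Crest.GeometryTopology.CoordMetric
  Crest.GeometryTopology.ChartCurvature

noncomputable section
namespace Crest.Agent.R244
namespace ExpCoverHyp

lemma coer (B : E3 →L[ℝ] E3 →L[ℝ] ℝ) (hB : ∀ u, u ≠ 0 → 0 < B u u) :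
    ∃ c > 0, ∀ u, c * ‖u‖ ^ 2 ≤ B u u := by
  have hc : Continuous fun u : E3 => B u u := by fun_prop
  obtain ⟨c, hc0, hc'⟩ := (isCompact_sphere (0 : E3) 1).exists_forall_le' hc.continuousOn (a := 0)
    fun p hp => hB _ (by
      intro h0
      rw [h0] at hp
      simp at hp)
  refine ⟨c, hc0, fun u => ?_⟩
  rcases eq_or_ne u 0 with rfl | hu
  · simp
  · have hn : 0 < ‖u‖ := norm_pos_iff.2 hu
    have := hc' (‖u‖⁻¹ • u) (by simp [norm_smul, hn.ne'])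
    simp only [map_smul, smul_apply, smul_eq_mul] at this
    have h2 := mul_le_mul_of_nonneg_right this (sq_nonneg ‖u‖)
    calc c * ‖u‖ ^ 2 ≤ _ := h2
      _ = _ := by field_simp

variable {M : Type} [TopologicalSpace M] [ChartedSpace E3 M] [IsManifold I3 ∞ M]

lemma locHomeo {g : RM M} {B : E3 →L[ℝ] E3 →L[ℝ] ℝ} {e : E3 → M} (h : Expanding g B e) :
    IsLocalHomeomorph e := by
  refine IsLocalHomeomorph.mk e fun v => ?_
  have hz : e v ∈ (ch (e v)).source := mem_chart_source E3 (e v)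
  obtain ⟨A, hA, hB⟩ := h.der v (e v) hz
  have hinj : Function.Injective (A : E3 →ₗ[ℝ] E3) := by
    rw [injective_iff_map_eq_zero]
    intro w hw
    by_contra h0
    have h1 := h.pos w h0
    have h2 := hB w
    have hw' : A w = 0 := hw
    rw [hw'] at h2
    simp at h2
    linarith
  let A' : E3 ≃L[ℝ] E3 := (LinearEquiv.ofInjectiveEndo (A : E3 →ₗ[ℝ] E3) hinj).toContinuousLinearEquiv
  have hA' : HasStrictFDerivAt (fun w => ch (e v) (e w)) (A' : E3 →L[ℝ] E3) v := by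
    have : (A' : E3 →L[ℝ] E3) = A := by ext w; rfl
    rw [this]; exact hA
  let ψ := hA'.toOpenPartialHomeomorph _
  have ho : IsOpen (e ⁻¹' (ch (e v)).source) := (ch (e v)).open_source.preimage h.cont
  refine ⟨(ψ.restrOpen _ ho).trans (ch (e v)).symm, ⟨⟨hA'.mem_toOpenPartialHomeomorph_source, hz⟩,
    (ch (e v)).map_source hz⟩, fun w hw => ?_⟩
  exact ((ch (e v)).left_inv hw.1.2).symm

end ExpCoverHyp

open ExpCoverHyp in
theorem expCoverHyp (hG : GamBasicS) (hC : ChartFactsS) : ExpCoverHypS := by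
  intro M _ _ _ g B e h
  refine ⟨locHomeo h, fun y₀ => ?_⟩
  have hy : y₀ ∈ (ch y₀).source := mem_chart_source E3 y₀
  obtain ⟨r, hr, hsub⟩ := Metric.nhds_basis_closedBall.mem_iff.1
    ((ch y₀).open_target.mem_nhds ((ch y₀).map_source hy))
  have gb := hG _ _ ((hC M g).riem y₀)
  obtain ⟨C', hC'⟩ : ∃ C', ∀ y ∈ Metric.closedBall (ch y₀ y₀) r, ‖ipL (mic g y₀) y‖ ≤ C' :=
    (isCompact_closedBall (ch y₀ y₀) r).exists_bound_of_continuousOn
      (E := E3 →L[ℝ] E3 →L[ℝ] ℝ) (f := ipL (mic g y₀)) (gb.ip_smooth.continuousOn.mono hsub)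
  have hC0 : 0 ≤ C' := (ContinuousLinearMap.opNorm_nonneg _).trans (hC' _ (Metric.mem_closedBall_self hr.le))
  obtain ⟨c, hc, hcB⟩ := coer B h.pos
  set κ := C' / c + 1 with hκ
  have hκ1 : 1 ≤ κ := by have := div_nonneg hC0 hc.le; linarith
  refine ⟨ch y₀, r, 2 * κ, hr, by linarith, hy, hsub, fun v hv hv' => ?_⟩
  obtain ⟨A, hA, hB⟩ := h.der v y₀ hv
  have hAw : ∀ w, ‖w‖ ≤ κ * ‖A w‖ := by
    intro w
    have h1 : ipL (mic g y₀) (ch y₀ (e v)) (A w) (A w) ≤ C' * ‖A w‖ * ‖A w‖ := by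
      have a1 := (ipL (mic g y₀) (ch y₀ (e v))).le_opNorm₂ (A w) (A w)
      have a2 := hC' _ hv'
      have a3 := le_abs_self (ipL (mic g y₀) (ch y₀ (e v)) (A w) (A w))
      rw [Real.norm_eq_abs] at a1
      refine a3.trans (a1.trans ?_)
      exact mul_le_mul_of_nonneg_right (mul_le_mul_of_nonneg_right a2 (norm_nonneg _))
        (norm_nonneg _)
    have h2 : c * ‖w‖ ^ 2 ≤ C' * ‖A w‖ * ‖A w‖ := (hcB w).trans ((hB w).trans h1)
    have h3 : ‖w‖ ^ 2 ≤ C' / c * ‖A w‖ ^ 2 := by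
      rw [div_mul_eq_mul_div, le_div_iff₀ hc]; nlinarith
    have h4 : C' / c ≤ κ ^ 2 := by nlinarith
    refine abs_le_of_sq_le_sq' ?_ (by positivity) |>.2
    rw [mul_pow]
    exact h3.trans (by gcongr)
  have hε : 0 < 1 / (2 * κ) := by positivity
  obtain ⟨W, hW, hap⟩ := hA.approximates_deriv_on_nhds (c := ⟨1 / (2 * κ), hε.le⟩) (Or.inr hε)
  refine ⟨W, hW, fun v₁ h₁ v₂ h₂ => ?_⟩
  have h5 : ‖ch y₀ (e v₁) - ch y₀ (e v₂) - A (v₁ - v₂)‖ ≤ 1 / (2 * κ) * ‖v₁ - v₂‖ :=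
    hap v₁ h₁ v₂ h₂
  have h6 : ‖A (v₁ - v₂)‖ ≤ ‖ch y₀ (e v₁) - ch y₀ (e v₂)‖ +
      ‖ch y₀ (e v₁) - ch y₀ (e v₂) - A (v₁ - v₂)‖ := by
    have := norm_sub_le (ch y₀ (e v₁) - ch y₀ (e v₂)) (ch y₀ (e v₁) - ch y₀ (e v₂) - A (v₁ - v₂))
    rwa [sub_sub_cancel] at this
  have h7 := hAw (v₁ - v₂)
  rw [dist_eq_norm, dist_eq_norm]
  have h8 : κ * (1 / (2 * κ) * ‖v₁ - v₂‖) = ‖v₁ - v₂‖ / 2 := by field_simp
  have h9 := mul_le_mul_of_nonneg_left (h6.trans (add_le_add_right h5 _)) (by linarith : 0 ≤ κ)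
  rw [mul_add, h8] at h9
  linarith

end Crest.Agent.R244
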