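import Crest.Agent.R244.Defs2
/-! Row 244, task Expand: with curvature at most zero the exponential map is expanding. -/
set_option autoImplicit false
open scoped ContDiff Manifold Topology
open Bundle Set Filter
open Crest.GeometryTopology.Geodesic Crest.GeometryTopology.CoordMetric
  Crest.GeometryTopology.ChartCurvature

noncomputable section
namespace Crest.Agent.R244
namespace Expand

lemma boot {F : Type} [NormedAddCommGroup F] [NormedSpace ℝ F] (y y' : ℝ → F) (s : Set ℝ)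
    (hs : IsOpen s) (h : ∀ t ∈ s, HasDerivAt y (y' t) t) (n : ℕ) (h' : ContDiffOn ℝ n y' s) :
    ContDiffOn ℝ ((n + 1 : ℕ) : WithTop ℕ∞) y s := by
  have : ((n + 1 : ℕ) : WithTop ℕ∞) = (n : WithTop ℕ∞) + 1 := by push_cast; rfl
  rw [this, contDiffOn_succ_iff_deriv_of_isOpen hs]
  refine ⟨fun t ht => (h t ht).differentiableAt.differentiableWithinAt, by simp, ?_⟩
  exact h'.congr fun t ht => (h t ht).deriv

lemma cs (B : E3 →L[ℝ] E3 →L[ℝ] ℝ) (hs : ∀ u v, B u v = B v u) (hp : ∀ u, 0 ≤ B u u)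
    (u v : E3) : B u v ^ 2 ≤ B u u * B v v := by
  have h := discrim_le_zero (a := B v v) (b := 2 * B u v) (c := B u u) fun t => by
    have := hp (u + t • v)
    simp only [map_add, map_smul, add_apply, smul_apply,
      smul_eq_mul] at this
    rw [hs v u] at this
    nlinarith
  unfold discrim at h
  nlinarith

lemma fv_smooth {g : MF} {U : Set E3} (hb : GamBasic g U) :
    ContDiffOn ℝ ∞ (Fv g) (U ×ˢ (univ : Set E3)) := by
  unfold Fv
  refine contDiffOn_snd.prodMk (ContDiffOn.neg ?_)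
  have h1 : ContDiffOn ℝ ∞ (fun q : E3 × E3 => Gam g q.1) (U ×ˢ (univ : Set E3)) :=
    hb.gam_smooth.comp contDiffOn_fst fun q hq => hq.1
  exact (h1.clm_apply contDiffOn_snd).clm_apply contDiffOn_snd

lemma fv_gen {E : Type} [NormedAddCommGroup E] [NormedSpace ℝ E] (G : E → E →L[ℝ] E →L[ℝ] E)
    (q : E × E) (hd : DifferentiableAt ℝ G q.1) (D : E × E) :
    fderiv ℝ (fun q : E × E => (q.2, -G q.1 q.2 q.2)) q D = (D.2, -(fderiv ℝ G q.1 D.1 q.2 q.2
      + (G q.1 D.2 q.2 + G q.1 q.2 D.2))) := by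
  have h1 : HasFDerivAt (fun q : E × E => G q.1)
      ((fderiv ℝ G q.1).comp (ContinuousLinearMap.fst ℝ E E)) q :=
    HasFDerivAt.comp (𝕜 := ℝ) (F := E) (G := E →L[ℝ] E →L[ℝ] E) (g := G) (f := Prod.fst) q
      hd.hasFDerivAt hasFDerivAt_fst
  have h2 := (h1.clm_apply (hasFDerivAt_snd (𝕜 := ℝ) (p := q))).clm_apply
    (hasFDerivAt_snd (𝕜 := ℝ) (p := q))
  have h3 := (hasFDerivAt_snd (𝕜 := ℝ) (p := q)).prodMk h2.neg
  have h4 : HasFDerivAt (fun q : E × E => (q.2, -G q.1 q.2 q.2)) _ q := h3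
  rw [h4.fderiv]
  simp
  abel

lemma fv_fderiv {g : MF} {U : Set E3} (hU : IsOpen U) (hb : GamBasic g U) (q : E3 × E3)
    (hq : q.1 ∈ U) (D : E3 × E3) :
    fderiv ℝ (Fv g) q D = (D.2, -(fderiv ℝ (Gam g) q.1 D.1 q.2 q.2
      + (2 : ℝ) • Gam g q.1 q.2 D.2)) := by
  have hd : DifferentiableAt ℝ (Gam g) q.1 :=
    (hb.gam_smooth.contDiffAt (hU.mem_nhds hq)).differentiableAt (by simp)
  have h := fv_gen (Gam g) q hd D
  rw [hb.gam_symm q.1 hq D.2 q.2, ← two_smul ℝ] at h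
  exact h

lemma hd_fst {f : ℝ → E3 × E3} {f' : E3 × E3} {t : ℝ} (h : HasDerivAt f f' t) :
    HasDerivAt (fun s => (f s).1) f'.1 t := h.fst

lemma tend_app {E F : Type} [NormedAddCommGroup E] [NormedSpace ℝ E] [NormedAddCommGroup F]
    [NormedSpace ℝ F] {l : Filter ℝ} {A : ℝ → E →L[ℝ] F} {u : ℝ → E} {A₀ : E →L[ℝ] F} {u₀ : E}
    (hA : Tendsto A l (𝓝 A₀)) (hu : Tendsto u l (𝓝 u₀)) :
    Tendsto (fun s => A s (u s)) l (𝓝 (A₀ u₀)) :=
  ((isBoundedBilinearMap_apply (𝕜 := ℝ) (E := E) (F := F)).continuous.tendsto (A₀, u₀)).comp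
    (hA.prodMk_nhds hu)

lemma loc (hG : GamBasicS) (hT : TranslS) (hL : LinGeoS) (hR : RhoDerivS)
    (g : MF) (U : Set E3) (hU : IsRiemannianOn g U) (q D : ℝ → E3 × E3) (t₀ : ℝ)
    (h : ∀ᶠ t in 𝓝 t₀, (q t).1 ∈ U ∧ HasDerivAt q (Fv g (q t)) t ∧
      HasDerivAt D (fderiv ℝ (Fv g) (q t) (D t)) t)
    (hK : ∀ u v, secNumer g (q t₀).1 u v ≤ 0) :
    ∃ r₁ : ℝ → ℝ, (∀ᶠ t in 𝓝 t₀,
      HasDerivAt (fun t => ipL g (q t).1 (D t).1 (D t).1) (r₁ t) t) ∧
      ∃ r₂, HasDerivAt r₁ r₂ t₀ ∧ 0 ≤ r₂ ∧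
        r₁ t₀ ^ 2 ≤ 2 * ipL g (q t₀).1 (D t₀).1 (D t₀).1 * r₂ := by
  have hb := hG g U hU
  have hUo : IsOpen U := hU.1
  obtain ⟨s, hs, hso, ht₀⟩ := eventually_nhds_iff.1 h
  set c : ℝ → E3 := fun t => (q t).1 with hc
  set J : ℝ → E3 := fun t => (D t).1 with hJ
  have hqc : ContinuousOn q s := fun t ht => (hs t ht).2.1.continuousAt.continuousWithinAt
  have hDc : ContinuousOn D s := fun t ht => (hs t ht).2.2.continuousAt.continuousWithinAt
  have hmaps : MapsTo q s (U ×ˢ (univ : Set E3)) := fun t ht => ⟨(hs t ht).1, trivial⟩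
  have hq1 : ContDiffOn ℝ ((0 + 1 : ℕ) : WithTop ℕ∞) q s :=
    boot q _ s hso (fun t ht => (hs t ht).2.1) 0
      (contDiffOn_zero.2 ((fv_smooth hb).continuousOn.comp hqc hmaps))
  have hD1 : ContDiffOn ℝ ((0 + 1 : ℕ) : WithTop ℕ∞) D s := by
    refine boot D _ s hso (fun t ht => (hs t ht).2.2) 0 (contDiffOn_zero.2 ?_)
    have h1 : ContinuousOn (fderiv ℝ (Fv g)) (U ×ˢ (univ : Set E3)) :=
      (fv_smooth hb).continuousOn_fderiv_of_isOpen (hUo.prod isOpen_univ) (by simp)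
    exact (h1.comp hqc hmaps).clm_apply hDc
  have hcd : ∀ t ∈ s, HasDerivAt c (q t).2 t := fun t ht => (hs t ht).2.1.fst
  have hud : ∀ t ∈ s, HasDerivAt (fun t => (q t).2) (-Gam g (q t).1 (q t).2 (q t).2) t :=
    fun t ht => (hs t ht).2.1.snd
  have hJd : ∀ t ∈ s, HasDerivAt J (D t).2 t := fun t ht => by
    have := (hs t ht).2.2.fst
    rwa [fv_fderiv hUo hb _ (hs t ht).1] at this
  have hKd : ∀ t ∈ s, HasDerivAt (fun t => (D t).2)
      (-(fderiv ℝ (Gam g) (q t).1 (D t).1 (q t).2 (q t).2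
      + (2 : ℝ) • Gam g (q t).1 (q t).2 (D t).2)) t := fun t ht => by
    have := (hs t ht).2.2.snd
    rwa [fv_fderiv hUo hb _ (hs t ht).1] at this
  have hc2 : ∀ t ∈ s, ContDiffAt ℝ 2 c t := fun t ht =>
    (boot c _ s hso hcd 1 hq1.snd).contDiffAt (hso.mem_nhds ht)
  have hJ2 : ∀ t ∈ s, ContDiffAt ℝ 2 J t := fun t ht =>
    (boot J _ s hso hJd 1 hD1.snd).contDiffAt (hso.mem_nhds ht)
  have hdc : deriv c =ᶠ[𝓝 t₀] fun t => (q t).2 := by
    filter_upwards [hso.mem_nhds ht₀] with t ht using (hcd t ht).deriv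
  have hdJ : deriv J =ᶠ[𝓝 t₀] fun t => (D t).2 := by
    filter_upwards [hso.mem_nhds ht₀] with t ht using (hJd t ht).deriv
  have hgeo : GeoAt g c t₀ := by
    unfold GeoAt
    rw [hdc.deriv_eq, (hud t₀ ht₀).deriv, (hcd t₀ ht₀).deriv]
    exact neg_add_cancel _
  have hjac : JacAt g c J t₀ := by
    rw [hL g U hU c J t₀ (hs t₀ ht₀).1 (hc2 t₀ ht₀) (hJ2 t₀ ht₀) hgeo, hdJ.deriv_eq,
      (hKd t₀ ht₀).deriv, (hcd t₀ ht₀).deriv, (hJd t₀ ht₀).deriv, add_assoc]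
    exact neg_add_cancel _
  obtain ⟨hR1, hR2⟩ := hR g U hU
  refine ⟨fun t => 2 * ipL g (c t) (cov g c J t) (J t), ?_, ?_⟩
  · filter_upwards [hso.mem_nhds ht₀] with t ht
    have := hR1 c J J t (hs t ht).1 (hcd t ht).differentiableAt (hJd t ht).differentiableAt
      (hJd t ht).differentiableAt
    rw [hb.ip_symm _ (hs t ht).1 (J t), ← two_mul] at this
    exact this
  · have hV : DifferentiableAt ℝ (cov g c J) t₀ :=
      (hR2 c J t₀ (hs t₀ ht₀).1 (hc2 t₀ ht₀) (hJ2 t₀ ht₀)).differentiableAt (by simp)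
    have h1 := (hR1 c (cov g c J) J t₀ (hs t₀ ht₀).1 (hcd t₀ ht₀).differentiableAt hV
      (hJd t₀ ht₀).differentiableAt).const_mul 2
    have hp : ∀ u, 0 ≤ ipL g (c t₀) u u := fun u => by
      by_cases hu : u = 0
      · simp [hu]
      · exact (hb.ip_pos _ (hs t₀ ht₀).1 u hu).le
    have hsec := hK (J t₀) (deriv c t₀)
    rw [hT.2.2 g U hU _ (hs t₀ ht₀).1] at hsec
    have hcc : cov g c (cov g c J) t₀ = -Rm g (c t₀) (J t₀) (deriv c t₀) (deriv c t₀) :=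
      eq_neg_of_add_eq_zero_left hjac
    rw [hcc, map_neg, neg_apply] at h1
    have hcs := cs (ipL g (c t₀)) (hb.ip_symm _ (hs t₀ ht₀).1) hp (cov g c J t₀) (J t₀)
    have hV0 := hp (cov g c J t₀)
    have hJ0 := hp (J t₀)
    refine ⟨_, h1, ?_, ?_⟩
    · change ipL g (c t₀) _ _ ≤ 0 at hsec
      linarith
    · change ipL g (c t₀) _ _ ≤ 0 at hsec
      change _ ≤ 2 * ipL g (c t₀) (J t₀) (J t₀) * _
      nlinarith [mul_nonneg hJ0 (neg_nonneg.2 hsec)]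

section
variable {M : Type} [TopologicalSpace M] [ChartedSpace E3 M] [IsManifold I3 ∞ M]

/-- squared length of the variation field in the chart at `z` -/
def rz (g : RM M) (Fl : ℝ → M × E3 → M × E3) (x : M) (v w : E3) (z : M) (t : ℝ) : ℝ :=
  ipL (mic g z) (stv Fl x z t v).1 (fderiv ℝ (stv Fl x z t) v w).1
    (fderiv ℝ (stv Fl x z t) v w).1

lemma indep {g : RM M} (hC : ChartFacts g) {Fl : ℝ → M × E3 → M × E3} (hD : FlowDep g Fl)
    (x : M) (v w : E3) (z z' : M) (t : ℝ) (hz : (Fl t (x, v)).1 ∈ (ch z).source)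
    (hz' : (Fl t (x, v)).1 ∈ (ch z').source) : rz g Fl x v w z t = rz g Fl x v w z' t := by
  have iso := hC.iso z z'
  have hy : (stv Fl x z t v).1 ∈ dom z z' := by
    refine ⟨(ch z).map_source hz, ?_⟩
    change (ch z).symm (ch z (Fl t (x, v)).1) ∈ (ch z').source
    rwa [(ch z).left_inv hz]
  have hτ : DifferentiableAt ℝ (trM z z') (stv Fl x z t v).1 :=
    (iso.smooth.contDiffAt (iso.riem.1.mem_nhds hy)).differentiableAt (by simp)
  have h1 := (hD.strict x v t z hz).hasFDerivAt.fst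
  have h2 := (hD.strict x v t z' hz').hasFDerivAt.fst
  have h3 := hτ.hasFDerivAt.comp v h1
  have hev : (fun a => (stv Fl x z' t a).1) =ᶠ[𝓝 v]
      (trM z z' ∘ fun a => (stv Fl x z t a).1) := by
    filter_upwards [(hD.cont x v t).preimage_mem_nhds ((ch z).open_source.mem_nhds hz)] with a ha
    change ch z' (Fl t (x, a)).1 = ch z' ((ch z).symm (ch z (Fl t (x, a)).1))
    rw [(ch z).left_inv ha]
  have h4 := h2.unique (h3.congr_of_eventuallyEq hev)
  have h5 : (fderiv ℝ (stv Fl x z' t) v w).1 =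
      fderiv ℝ (trM z z') (stv Fl x z t v).1 (fderiv ℝ (stv Fl x z t) v w).1 :=
    congrArg (fun A : E3 →L[ℝ] E3 => A w) h4
  have h6 : (stv Fl x z' t v).1 = trM z z' (stv Fl x z t v).1 := hev.self_of_nhds
  unfold rz
  rw [h5, h6]
  exact iso.pull _ hy _ _

end
end Expand

open Expand in
theorem expand (hG : GamBasicS) (hT : TranslS) (hL : LinGeoS) (hR : RhoDerivS)
    (hC : ChartFactsS) (hS : SqrtConvexS) : ExpandS := by
  intro M _ _ _ g Fl hF hD hK x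
  have cf := hC M g
  have hbx := hG _ _ (cf.riem x)
  have hxt : ch x x ∈ (ch x).target := mem_chart_target E3 x
  refine ⟨hbx.ip_symm _ hxt, hbx.ip_pos _ hxt,
    continuous_iff_continuousAt.2 fun v => hD.cont x v 1, fun v z hz => ?_⟩
  refine ⟨_, (hD.strict x v 1 z hz).fst, fun w => ?_⟩
  set γ : ℝ → M := fun t => (Fl t (x, v)).1 with hγ
  set ρ : ℝ → ℝ := fun t => rz g Fl x v w (γ t) t with hρ
  have hsrc : ∀ t₀, ∀ᶠ t in 𝓝 t₀, γ t ∈ (ch (γ t₀)).source := fun t₀ =>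
    (hF.sol (x, v) t₀).1.preimage_mem_nhds
      ((ch (γ t₀)).open_source.mem_nhds (mem_chart_source E3 (γ t₀)))
  have hev : ∀ t₀, ρ =ᶠ[𝓝 t₀] rz g Fl x v w (γ t₀) := fun t₀ => by
    filter_upwards [hsrc t₀] with t ht
    exact indep cf hD x v w _ _ t (mem_chart_source E3 (γ t)) ht
  have hode : ∀ t₀, ∀ᶠ t in 𝓝 t₀, (stv Fl x (γ t₀) t v).1 ∈ (ch (γ t₀)).target ∧
      HasDerivAt (fun s => stv Fl x (γ t₀) s v) (Fv (mic g (γ t₀)) (stv Fl x (γ t₀) t v)) t ∧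
      HasDerivAt (fun s => fderiv ℝ (stv Fl x (γ t₀) s) v w)
        (fderiv ℝ (Fv (mic g (γ t₀))) (stv Fl x (γ t₀) t v)
          (fderiv ℝ (stv Fl x (γ t₀) t) v w)) t := fun t₀ => by
    filter_upwards [hsrc t₀, hD.ode x v t₀] with t ht h2
    refine ⟨(ch (γ t₀)).map_source ht, (hF.sol (x, v) t).2 _ ht, ?_⟩
    have := h2.clm_apply (hasDerivAt_const t w)
    simpa using this
  have hloc : ∀ t₀, HasDerivAt ρ (deriv ρ t₀) t₀ ∧ ∃ r₂, HasDerivAt (deriv ρ) r₂ t₀ ∧ 0 ≤ r₂ ∧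
      deriv ρ t₀ ^ 2 ≤ 2 * ρ t₀ * r₂ := fun t₀ => by
    obtain ⟨r₁, h1, r₂, h2, h3, h4⟩ := loc hG hT hL hR _ _ (cf.riem (γ t₀)) _ _ t₀ (hode t₀)
      (hK (γ t₀))
    have h5 : ∀ᶠ t in 𝓝 t₀, HasDerivAt ρ (r₁ t) t := by
      filter_upwards [h1, (hev t₀).eventuallyEq_nhds] with t ht ht'
      exact ht.congr_of_eventuallyEq ht'
    have h6 : deriv ρ =ᶠ[𝓝 t₀] r₁ := h5.mono fun t ht => ht.deriv
    refine ⟨h5.self_of_nhds.differentiableAt.hasDerivAt, r₂, h2.congr_of_eventuallyEq h6, h3, ?_⟩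
    rw [h6.self_of_nhds]
    exact h4
  have h0 : γ 0 = x := by simp [hγ, hF.zero]
  have hst0 : stv Fl x x 0 = fun a => (ch x x, a) := by
    funext a
    simp [stv, st, hF.zero, cf.tt_self]
  have hD0 : fderiv ℝ (stv Fl x x 0) v w = (0, w) := by
    have h : HasFDerivAt (fun a : E3 => (ch x x, a)) _ v :=
      (hasFDerivAt_const (𝕜 := ℝ) (ch x x) v).prodMk (hasFDerivAt_id v)
    rw [hst0, h.fderiv]
    simp
  have hnn : ∀ t, 0 ≤ ρ t := fun t => by
    have hb := hG _ _ (cf.riem (γ t))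
    simp only [hρ, rz]
    by_cases hu : (fderiv ℝ (stv Fl x (γ t) t) v w).1 = 0
    · simp [hu]
    · exact (hb.ip_pos _ (mem_chart_target E3 (γ t)) _ hu).le
  have hρ0 : ρ 0 = 0 := by
    simp only [hρ, rz, h0, hD0]
    simp
  have hlim : Tendsto (fun s => ρ s / s ^ 2) (𝓝[>] 0) (𝓝 (ipM g x w w)) := by
    have ho := (hode 0).self_of_nhds
    have he := hev 0
    rw [h0] at ho he
    obtain ⟨hm, hq, hd⟩ := ho
    have hJ := hd_fst hd
    rw [fv_fderiv (cf.riem x).1 hbx _ hm, hD0] at hJ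
    have hJ' : Tendsto (fun s : ℝ => s⁻¹ • (fderiv ℝ (stv Fl x x s) v w).1) (𝓝[>] 0) (𝓝 w) := by
      have := hJ.tendsto_slope_zero_right
      simpa [hD0] using this
    have hip : Tendsto (fun s : ℝ => ipL (mic g x) (stv Fl x x s v).1) (𝓝[>] 0)
        (𝓝 (ipM g x)) := by
      have h1 : ContinuousAt (ipL (mic g x)) (stv Fl x x 0 v).1 :=
        hbx.ip_smooth.continuousOn.continuousAt ((cf.riem x).1.mem_nhds hm)
      have h2 := (h1.tendsto.comp (hd_fst hq).continuousAt.tendsto).mono_left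
        (nhdsWithin_le_nhds (s := Ioi 0))
      rw [hst0] at h2
      exact h2
    have h3 := tend_app (tend_app hip hJ') hJ'
    refine h3.congr' ?_
    filter_upwards [nhdsWithin_le_nhds he] with s hs
    rw [hs]
    simp only [rz, map_smul, smul_apply, smul_eq_mul]
    ring
  have := hS ρ (deriv ρ) _ hnn (fun t => (hloc t).1) (fun t => (hloc t).2) hρ0 hlim
  rw [show ρ 1 = rz g Fl x v w z 1 from indep cf hD x v w _ _ 1 (mem_chart_source E3 (γ 1)) hz]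
    at this
  exact this

end Crest.Agent.R244
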