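import Crest.Agent.R244.Defs2
set_option autoImplicit false
open scoped ContDiff Manifold Topology
open Bundle Set Filter
open Crest.GeometryTopology.Geodesic Crest.GeometryTopology.CoordMetric
  Crest.GeometryTopology.ChartCurvature

noncomputable section
namespace Crest.Agent.R244

namespace FlowDepP

variable {M : Type} [TopologicalSpace M] [ChartedSpace E3 M] [IsManifold I3 ∞ M]

theorem change {g : RM M} (cf : ChartFacts g) (Fl : ℝ → M × E3 → M × E3) (x : M) (v : E3) (t : ℝ)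
    (z z' : M) (hc : ContinuousAt (fun w => (Fl t (x, w)).1) v)
    (hz : (Fl t (x, v)).1 ∈ (ch z).source) (hz' : (Fl t (x, v)).1 ∈ (ch z').source)
    (h : HasStrictFDerivAt (stv Fl x z t) (fderiv ℝ (stv Fl x z t) v) v) :
    HasStrictFDerivAt (stv Fl x z' t) (fderiv ℝ (stv Fl x z' t) v) v := by
  have iso := cf.iso z z'
  have hd : (stv Fl x z t v).1 ∈ dom z z' := by
    refine ⟨(ch z).map_source hz, ?_⟩
    show (ch z).symm (ch z (Fl t (x, v)).1) ∈ (ch z').source
    rw [(ch z).left_inv hz]; exact hz'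
  have h1 : ContDiffAt ℝ ∞ (trM z z') (stv Fl x z t v).1 :=
    iso.smooth.contDiffAt (iso.riem.isOpen.mem_nhds hd)
  have h2 : ContDiffAt ℝ ∞ (fderiv ℝ (trM z z')) (stv Fl x z t v).1 :=
    h1.fderiv_right (m := ∞) (by simp)
  have h3 : ContDiffAt ℝ ∞ (fun q : E3 × E3 => (trM z z' q.1, fderiv ℝ (trM z z') q.1 q.2))
      (stv Fl x z t v) :=
    (h1.comp _ contDiffAt_fst).prodMk ((h2.comp _ contDiffAt_fst).clm_apply contDiffAt_snd)
  have h4 := (h3.hasStrictFDerivAt (by simp)).comp v h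
  have h5 : HasStrictFDerivAt (stv Fl x z' t) _ v := h4.congr_of_eventuallyEq (by
    filter_upwards [hc.eventually ((ch z).open_source.mem_nhds hz),
      hc.eventually ((ch z').open_source.mem_nhds hz')] with w h1 h2
    refine Prod.ext ?_ (cf.tt_comp _ z z' h1 h2 _)
    show ch z' ((ch z).symm (ch z (Fl t (x, w)).1)) = ch z' (Fl t (x, w)).1
    rw [(ch z).left_inv h1])
  rw [h5.hasFDerivAt.fderiv]
  exact h5

end FlowDepP

/-- Row 244, task FlowDep: C¹ dependence of the geodesic flow on the initial velocity. -/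
theorem flowDep (_hG : GamBasicS) (hCF : ChartFactsS) (hD : DepStepS) : FlowDepS := by
  intro M _ _ _ _ g Fl hFl
  have cf := hCF M g
  have main : ∀ (x : M) (v : E3) (t : ℝ), ContinuousAt (fun w => (Fl t (x, w)).1) v ∧
      ∀ z, (Fl t (x, v)).1 ∈ (ch z).source →
        HasStrictFDerivAt (stv Fl x z t) (fderiv ℝ (stv Fl x z t) v) v := by
    intro x v
    let S : Set ℝ := {t | ContinuousAt (fun w => (Fl t (x, w)).1) v ∧
      ∀ z, (Fl t (x, v)).1 ∈ (ch z).source →
        HasStrictFDerivAt (stv Fl x z t) (fderiv ℝ (stv Fl x z t) v) v}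
    have loc : ∀ t₀, ∃ δ > 0, ∀ s ∈ Metric.ball t₀ δ, ∀ t ∈ Metric.ball t₀ δ, s ∈ S → t ∈ S := by
      intro t₀
      obtain ⟨δ, hδ, h1, h2⟩ := hD M g Fl hFl x v t₀ _ rfl
      refine ⟨δ, hδ, fun s hs t ht hS => ?_⟩
      obtain ⟨k1, k2, -⟩ := h2 s hs hS.1 (hS.2 _ (h1 s hs)) t ht
      exact ⟨k1, fun z hz => FlowDepP.change cf Fl x v t _ z k1 (h1 t ht) hz k2⟩
    have h0 : (0 : ℝ) ∈ S := by
      constructor
      · simp only [hFl.zero]; exact continuousAt_const
      · intro z _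
        have e : stv Fl x z 0 = fun w => (ch z x, TT z x w) := by
          funext w; simp only [stv, hFl.zero, st]
        have h1 : HasStrictFDerivAt (stv Fl x z 0) ((0 : E3 →L[ℝ] E3).prod (TT z x)) v := by
          rw [e]
          exact (hasStrictFDerivAt_const (ch z x) v).prodMk (TT z x).hasStrictFDerivAt
        rw [h1.hasFDerivAt.fderiv]
        exact h1
    have hcl : IsClopen S := by
      constructor
      · rw [← isOpen_compl_iff, Metric.isOpen_iff]
        intro t₀ ht₀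
        obtain ⟨δ, hδ, h⟩ := loc t₀
        exact ⟨δ, hδ, fun s hs hS => ht₀ (h s hs t₀ (Metric.mem_ball_self hδ) hS)⟩
      · rw [Metric.isOpen_iff]
        intro t₀ ht₀
        obtain ⟨δ, hδ, h⟩ := loc t₀
        exact ⟨δ, hδ, fun s hs => h t₀ (Metric.mem_ball_self hδ) s hs ht₀⟩
    intro t
    have : t ∈ S := by rw [hcl.eq_univ ⟨0, h0⟩]; exact mem_univ _
    exact this
  refine ⟨fun x v t => (main x v t).1, fun x v t z hz => (main x v t).2 z hz, fun x v t₀ => ?_⟩
  obtain ⟨δ, hδ, h1, h2⟩ := hD M g Fl hFl x v t₀ _ rfl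
  have h0 := Metric.mem_ball_self (x := t₀) hδ
  filter_upwards [Metric.ball_mem_nhds t₀ hδ] with t ht
  exact (h2 t₀ h0 (main x v t₀).1 ((main x v t₀).2 _ (h1 t₀ h0)) t ht).2.2

end Crest.Agent.R244
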