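import Crest.Agent.R244.Defs2
/-! Row 244, task FlowExists: the geodesic flow of a compact manifold. -/
set_option autoImplicit false
open scoped ContDiff Manifold Topology
open Bundle Set Filter
open Crest.GeometryTopology.Geodesic Crest.GeometryTopology.CoordMetric
  Crest.GeometryTopology.ChartCurvature

noncomputable section
namespace Crest.Agent.R244
namespace FlowExists

variable {M : Type} [TopologicalSpace M] [ChartedSpace E3 M] [IsManifold I3 ∞ M]

lemma germ {g : RM M} {σ τ : ℝ → M × E3} {t : ℝ} (h : SolAt g σ t) (e : τ =ᶠ[𝓝 t] σ) :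
    SolAt g τ t := by
  have e0 : τ t = σ t := e.self_of_nhds
  refine ⟨h.1.congr (e.symm.mono fun s hs => congrArg Prod.fst hs), fun z hz => ?_⟩
  rw [e0] at hz ⊢
  exact (h.2 z hz).congr_of_eventuallyEq (e.mono fun s hs => congrArg (st z) hs)

lemma shift {g : RM M} {σ : ℝ → M × E3} {t c : ℝ} (h : SolAt g σ (t + c)) :
    SolAt g (fun s => σ (s + c)) t := by
  refine ⟨ContinuousAt.comp (f := fun s => s + c) h.1 (by fun_prop), fun z hz => ?_⟩
  exact (h.2 z hz).comp_add_const t c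

lemma scale {g : RM M} {σ : ℝ → M × E3} {t a : ℝ} (h : SolAt g σ (a * t)) :
    SolAt g (fun s => ((σ (a * s)).1, a • (σ (a * s)).2)) t := by
  refine ⟨ContinuousAt.comp (f := fun s => a * s) h.1 (by fun_prop), fun z hz => ?_⟩
  have h1 : HasDerivAt (fun s => st z (σ (a * s))) (a • Fv (mic g z) (st z (σ (a * t)))) t := by
    have := (h.2 z hz).scomp t ((hasDerivAt_id t).const_mul a)
    simpa [Function.comp_def] using this
  have h2 : HasDerivAt (fun s => (st z (σ (a * s))).1) (a • Fv (mic g z) (st z (σ (a * t)))).1 t :=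
    h1.fst
  have h3 : HasDerivAt (fun s => (st z (σ (a * s))).2) (a • Fv (mic g z) (st z (σ (a * t)))).2 t :=
    h1.snd
  have h4 := h2.prodMk (h3.const_smul a)
  convert h4 using 1
  · funext s
    simp [st]
  · simp [st, Fv]

lemma glue [T2Space M] (hU : SolUniqueS) {g : RM M} {σ τ : ℝ → M × E3} {a b c d t₀ : ℝ}
    (hσ : ∀ t ∈ Ioo a b, SolAt g σ t) (hτ : ∀ t ∈ Ioo c d, SolAt g τ t) (h1 : t₀ ∈ Ioo a b)
    (h2 : t₀ ∈ Ioo c d) (e : σ t₀ = τ t₀) :
    ∃ ρ : ℝ → M × E3, EqOn ρ σ (Ioo a b) ∧ ∀ t ∈ Ioo a b ∪ Ioo c d, SolAt g ρ t := by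
  classical
  have hE := hU M g σ τ (max a c) (min b d) t₀ ⟨max_lt h1.1 h2.1, lt_min h1.2 h2.2⟩
    (fun t ht => hσ t ⟨(le_max_left _ _).trans_lt ht.1, ht.2.trans_le (min_le_left _ _)⟩)
    (fun t ht => hτ t ⟨(le_max_right _ _).trans_lt ht.1, ht.2.trans_le (min_le_right _ _)⟩) e
  refine ⟨fun s => if s ∈ Ioo a b then σ s else τ s, fun s hs => if_pos hs, ?_⟩
  rintro t (ht | ht)
  · refine germ (hσ t ht) ?_
    filter_upwards [isOpen_Ioo.mem_nhds ht] with s hs using if_pos hs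
  · refine germ (hτ t ht) ?_
    filter_upwards [isOpen_Ioo.mem_nhds ht] with s hs
    split_ifs with h
    · exact hE ⟨max_lt h.1 hs.1, lt_min h.2 hs.2⟩
    · rfl

lemma speed_const (hS : SolSpeedS) {g : RM M} {σ : ℝ → M × E3} {a b : ℝ}
    (hσ : ∀ t ∈ Ioo a b, SolAt g σ t) {s t : ℝ} (hs : s ∈ Ioo a b) (ht : t ∈ Ioo a b) :
    ipM g (σ s).1 (σ s).2 (σ s).2 = ipM g (σ t).1 (σ t).2 (σ t).2 :=
  isOpen_Ioo.is_const_of_deriv_eq_zero (f := fun s => ipM g (σ s).1 (σ s).2 (σ s).2)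
    isPreconnected_Ioo
    (fun r hr => (hS M g σ r (hσ r hr)).differentiableAt.differentiableWithinAt)
    (fun r hr => (hS M g σ r (hσ r hr)).deriv) hs ht

lemma unit [T2Space M] [CompactSpace M] (hU : SolUniqueS) (hL : SolLocalS) (hS : SolSpeedS)
    (g : RM M) (p : M × E3) (hp : ipM g p.1 p.2 p.2 ≤ 1) (T : ℝ) :
    ∃ σ : ℝ → M × E3, σ 0 = p ∧ ∀ t ∈ Ioo (-T) T, SolAt g σ t := by
  obtain ⟨ε, hε, hl⟩ := hL M g
  have key : ∀ n : ℕ, ∃ σ : ℝ → M × E3, σ 0 = p ∧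
      ∀ t ∈ Ioo (-(ε + n * (ε / 2))) (ε + n * (ε / 2)), SolAt g σ t := by
    intro n
    induction n with
    | zero => simpa using hl p hp
    | succ n ih =>
      obtain ⟨σ, h0, hσ⟩ := ih
      set R : ℝ := ε + n * (ε / 2) with hR
      have hn : 0 ≤ (n : ℝ) * (ε / 2) := by positivity
      have hz : (0 : ℝ) ∈ Ioo (-R) R := ⟨by linarith, by linarith⟩
      have m1 : R - ε / 2 ∈ Ioo (-R) R := ⟨by linarith, by linarith⟩
      obtain ⟨τ, hτ0, hτ⟩ := hl (σ (R - ε / 2)) (by rw [speed_const hS hσ m1 hz, h0]; exact hp)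
      obtain ⟨ρ, hρ1, hρ⟩ := glue hU (τ := fun s => τ (s + -(R - ε / 2)))
        (c := R - ε / 2 - ε) (d := R + ε / 2) hσ
        (fun t ht => shift (hτ _ ⟨by linarith [ht.1], by linarith [ht.2]⟩)) m1
        ⟨by linarith, by linarith⟩ (by simp [hτ0])
      have hρ' : ∀ t ∈ Ioo (-R) (R + ε / 2), SolAt g ρ t := fun t ht => by
        refine hρ t ?_
        by_cases h : t < R
        · exact Or.inl ⟨ht.1, h⟩
        · exact Or.inr ⟨by linarith, ht.2⟩
      have m2 : -R + ε / 2 ∈ Ioo (-R) (R + ε / 2) := ⟨by linarith, by linarith⟩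
      have hz' : (0 : ℝ) ∈ Ioo (-R) (R + ε / 2) := ⟨by linarith, by linarith⟩
      have hρ0 : ρ 0 = p := (hρ1 hz).trans h0
      obtain ⟨τ', hτ0', hτ'⟩ := hl (ρ (-R + ε / 2))
        (by rw [speed_const hS hρ' m2 hz', hρ0]; exact hp)
      obtain ⟨ρ', hρ1', hρ''⟩ := glue hU (τ := fun s => τ' (s + -(-R + ε / 2)))
        (c := -R - ε / 2) (d := -R + ε / 2 + ε) hρ'
        (fun t ht => shift (hτ' _ ⟨by linarith [ht.1], by linarith [ht.2]⟩)) m2
        ⟨by linarith, by linarith⟩ (by simp [hτ0'])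
      refine ⟨ρ', (hρ1' hz').trans hρ0, fun t ht => hρ'' t ?_⟩
      push_cast at ht
      by_cases h : -R < t
      · exact Or.inl ⟨h, by linarith [ht.2]⟩
      · exact Or.inr ⟨by linarith [ht.1], by linarith⟩
  obtain ⟨n, hn⟩ := exists_nat_gt (T / (ε / 2))
  obtain ⟨σ, h0, hσ⟩ := key n
  have : T < n * (ε / 2) := (div_lt_iff₀ (by positivity)).1 hn
  exact ⟨σ, h0, fun t ht => hσ t ⟨by linarith [ht.1], by linarith [ht.2]⟩⟩

lemma globalize [T2Space M] (hU : SolUniqueS) (g : RM M) (p : M × E3)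
    (h : ∀ T : ℝ, ∃ σ : ℝ → M × E3, σ 0 = p ∧ ∀ t ∈ Ioo (-T) T, SolAt g σ t) :
    ∃ σ : ℝ → M × E3, σ 0 = p ∧ ∀ t, SolAt g σ t := by
  choose σ h0 hσ using h
  refine ⟨fun t => σ (|t| + 1) t, h0 _, fun t => ?_⟩
  have ht : t ∈ Ioo (-(|t| + 1)) (|t| + 1) :=
    ⟨by linarith [neg_abs_le t], by linarith [le_abs_self t]⟩
  refine germ (hσ _ t ht) ?_
  filter_upwards [isOpen_Ioo.mem_nhds ht] with s hs
  have hs' : s ∈ Ioo (-(|s| + 1)) (|s| + 1) :=
    ⟨by linarith [neg_abs_le s], by linarith [le_abs_self s]⟩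
  have ha := abs_nonneg s
  have hb := abs_nonneg t
  exact hU M g (σ (|s| + 1)) (σ (|t| + 1)) (max (-(|s| + 1)) (-(|t| + 1)))
    (min (|s| + 1) (|t| + 1)) 0 ⟨max_lt (by linarith) (by linarith), lt_min (by linarith) (by linarith)⟩
    (fun r hr => hσ _ r ⟨(le_max_left _ _).trans_lt hr.1, hr.2.trans_le (min_le_left _ _)⟩)
    (fun r hr => hσ _ r ⟨(le_max_right _ _).trans_lt hr.1, hr.2.trans_le (min_le_right _ _)⟩)
    ((h0 _).trans (h0 _).symm) ⟨max_lt hs'.1 hs.1, lt_min hs'.2 hs.2⟩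

lemma uniq [T2Space M] (hU : SolUniqueS) {g : RM M} {σ τ : ℝ → M × E3} (hσ : ∀ t, SolAt g σ t)
    (hτ : ∀ t, SolAt g τ t) (e : σ 0 = τ 0) (s : ℝ) : σ s = τ s :=
  hU M g σ τ (-(|s| + 1)) (|s| + 1) 0 ⟨by linarith [abs_nonneg s], by linarith [abs_nonneg s]⟩
    (fun t _ => hσ t) (fun t _ => hτ t) e
    ⟨by linarith [neg_abs_le s], by linarith [le_abs_self s]⟩

end FlowExists

open FlowExists in
theorem flowExists (hU : SolUniqueS) (hL : SolLocalS) (hS : SolSpeedS) : FlowExistsS := by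
  intro M _ _ _ _ _ g
  have ex : ∀ p : M × E3, ∃ σ : ℝ → M × E3, σ 0 = p ∧ ∀ t, SolAt g σ t := by
    rintro ⟨x, v⟩
    set a : ℝ := |ipM g x v v| + 1 with ha
    have h1 : 1 ≤ a := by linarith [abs_nonneg (ipM g x v v)]
    have h0 : 0 < a := by linarith
    obtain ⟨σ, hσ0, hσ⟩ := globalize hU g (x, a⁻¹ • v) (unit hU hL hS g _ (by
      simp only [map_smul, smul_apply, smul_eq_mul]
      have h2 : ipM g x v v ≤ a * a := by nlinarith [le_abs_self (ipM g x v v)]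
      rw [inv_mul_le_iff₀ h0, inv_mul_le_iff₀ h0]
      linarith))
    refine ⟨fun s => ((σ (a * s)).1, a • (σ (a * s)).2), ?_, fun t => scale (hσ _)⟩
    simp [hσ0, smul_smul, mul_inv_cancel₀ h0.ne']
  choose σ h0 hσ using ex
  refine ⟨fun t p => σ p t, h0, hσ, fun s t p => ?_, fun a t x v => ?_, fun t p => ?_⟩
  · exact uniq hU (σ := fun r => σ p (r + t)) (τ := σ (σ p t)) (fun r => shift (hσ p _))
      (hσ _) (by simp [h0]) s
  · exact uniq hU (σ := σ (x, a • v))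
      (τ := fun s => ((σ (x, v) (a * s)).1, a • (σ (x, v) (a * s)).2)) (hσ _)
      (fun r => scale (hσ _ _)) (by simp [h0]) t
  · have := speed_const hS (σ := σ p) (a := -(|t| + 1)) (b := |t| + 1) (fun r _ => hσ p r)
      (s := t) (t := 0) ⟨by linarith [neg_abs_le t], by linarith [le_abs_self t]⟩
      ⟨by linarith [abs_nonneg t], by linarith [abs_nonneg t]⟩
    rw [h0] at this
    exact this

end Crest.Agent.R244
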