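import Crest.Agent.R244.Defs2
/-! Row 244: explicit formulas for the neck forms and their derivatives. -/
set_option autoImplicit false
open scoped ContDiff Topology
open Set Filter

noncomputable section
namespace Crest.Agent.R244

lemma smooth_hasDerivAt {f : ℝ → ℝ} (hf : ContDiff ℝ ∞ f) (t : ℝ) : HasDerivAt f (deriv f t) t :=
  (hf.differentiable (by simp) t).hasDerivAt

lemma smooth_deriv {f : ℝ → ℝ} (hf : ContDiff ℝ ∞ f) : ContDiff ℝ ∞ (deriv f) :=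
  (contDiff_infty_iff_deriv.1 hf).2

namespace Prof.OK
variable {P : Prof} (h : P.OK)
include h

lemma dφ (t : ℝ) : HasDerivAt P.φ (deriv P.φ t) t := smooth_hasDerivAt h.phi.smooth t
lemma dψ (t : ℝ) : HasDerivAt P.ψ (deriv P.ψ t) t := smooth_hasDerivAt h.ψ_smooth t
lemma dl (t : ℝ) : HasDerivAt P.lam (deriv P.lam t) t := smooth_hasDerivAt h.lam_smooth t
lemma ddφ (t : ℝ) : HasDerivAt (deriv P.φ) (deriv (deriv P.φ) t) t :=
  smooth_hasDerivAt (smooth_deriv h.phi.smooth) t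
lemma ddψ (t : ℝ) : HasDerivAt (deriv P.ψ) (deriv (deriv P.ψ) t) t :=
  smooth_hasDerivAt (smooth_deriv h.ψ_smooth) t
lemma ddl (t : ℝ) : HasDerivAt (deriv P.lam) (deriv (deriv P.lam) t) t :=
  smooth_hasDerivAt (smooth_deriv h.lam_smooth) t

lemma da (t : ℝ) : HasDerivAt P.a (deriv (deriv P.φ) t / 2) t := (h.ddφ t).div_const 2
lemma db (t : ℝ) : HasDerivAt P.b (-deriv (deriv P.ψ) t / 2) t := (h.ddψ t).neg.div_const 2
lemma deriv_b (t : ℝ) : deriv P.b t = -deriv (deriv P.ψ) t / 2 := (h.db t).deriv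

lemma hasDerivAt_Aq' (t : ℝ) (p q : ℝ × ℝ) : HasDerivAt (fun s => P.Aq s p q)
    (deriv P.φ t * p.1 * q.1 + deriv P.ψ t * (p.2 - P.lam t * p.1) * (q.2 - P.lam t * q.1)
      - P.ψ t * deriv P.lam t * (p.1 * (q.2 - P.lam t * q.1) + (p.2 - P.lam t * p.1) * q.1)) t := by
  have h1 := (((h.dφ t).mul_const p.1).mul_const q.1).add
    (((h.dψ t).mul (((h.dl t).mul_const p.1).const_sub p.2)).mul
      (((h.dl t).mul_const q.1).const_sub q.2))
  refine HasDerivAt.congr_deriv h1 ?_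
  simp only [Pi.mul_apply]; ring

lemma A1_eq (t : ℝ) (p q : ℝ × ℝ) : P.A1 t p q =
    deriv P.φ t * p.1 * q.1 + deriv P.ψ t * (p.2 - P.lam t * p.1) * (q.2 - P.lam t * q.1)
      - P.ψ t * deriv P.lam t * (p.1 * (q.2 - P.lam t * q.1) + (p.2 - P.lam t * p.1) * q.1) :=
  (h.hasDerivAt_Aq' t p q).deriv

lemma hasDerivAt_Aq (t : ℝ) (p q : ℝ × ℝ) : HasDerivAt (fun s => P.Aq s p q) (P.A1 t p q) t := by
  rw [h.A1_eq]; exact h.hasDerivAt_Aq' t p q

lemma hasDerivAt_A1' (t : ℝ) (p q : ℝ × ℝ) : HasDerivAt (fun s => P.A1 s p q)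
    (deriv (deriv P.φ) t * p.1 * q.1
      + deriv (deriv P.ψ) t * (p.2 - P.lam t * p.1) * (q.2 - P.lam t * q.1)
      - (2 * deriv P.ψ t * deriv P.lam t + P.ψ t * deriv (deriv P.lam) t)
          * (p.1 * (q.2 - P.lam t * q.1) + (p.2 - P.lam t * p.1) * q.1)
      + 2 * P.ψ t * deriv P.lam t ^ 2 * p.1 * q.1) t := by
  have hp := ((h.dl t).mul_const p.1).const_sub p.2
  have hq := ((h.dl t).mul_const q.1).const_sub q.2
  have h1 := ((((h.ddφ t).mul_const p.1).mul_const q.1).add (((h.ddψ t).mul hp).mul hq)).sub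
    (((h.dψ t).mul (h.ddl t)).mul ((hq.const_mul p.1).add (hp.mul_const q.1)))
  have e : (fun s => P.A1 s p q) = fun s => deriv P.φ s * p.1 * q.1
      + deriv P.ψ s * (p.2 - P.lam s * p.1) * (q.2 - P.lam s * q.1)
      - P.ψ s * deriv P.lam s * (p.1 * (q.2 - P.lam s * q.1) + (p.2 - P.lam s * p.1) * q.1) :=
    funext fun s => h.A1_eq s p q
  rw [e]
  refine HasDerivAt.congr_deriv h1 ?_
  simp only [Pi.mul_apply, Pi.add_apply]; ring

lemma A2_eq (t : ℝ) (p q : ℝ × ℝ) : P.A2 t p q =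
    deriv (deriv P.φ) t * p.1 * q.1
      + deriv (deriv P.ψ) t * (p.2 - P.lam t * p.1) * (q.2 - P.lam t * q.1)
      - (2 * deriv P.ψ t * deriv P.lam t + P.ψ t * deriv (deriv P.lam) t)
          * (p.1 * (q.2 - P.lam t * q.1) + (p.2 - P.lam t * p.1) * q.1)
      + 2 * P.ψ t * deriv P.lam t ^ 2 * p.1 * q.1 := (h.hasDerivAt_A1' t p q).deriv

lemma hasDerivAt_A1 (t : ℝ) (p q : ℝ × ℝ) : HasDerivAt (fun s => P.A1 s p q) (P.A2 t p q) t := by
  rw [h.A2_eq]; exact h.hasDerivAt_A1' t p q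

lemma hasDerivAt_V1 (p : ℝ × ℝ) (t : ℝ) : HasDerivAt (P.V1 p) (P.A2 t p p / 2) t :=
  (h.hasDerivAt_A1 t p p).div_const 2

lemma V1_eq (p : ℝ × ℝ) (t : ℝ) : P.V1 p t = P.a t * p.1 ^ 2 - P.b t * (p.2 - P.lam t * p.1) ^ 2
    - deriv P.lam t * P.ψ t * p.1 * (p.2 - P.lam t * p.1) := by
  rw [Prof.V1, h.A1_eq, Prof.a, Prof.b]; ring

lemma Aq_nonneg (t : ℝ) (p : ℝ × ℝ) : 0 ≤ P.Aq t p p := by
  have h1 := h.phi.pos t
  have h2 := h.ψ_pos t
  have : P.Aq t p p = P.φ t * p.1 ^ 2 + P.ψ t * (p.2 - P.lam t * p.1) ^ 2 := by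
    rw [Prof.Aq]; ring
  rw [this]; positivity

lemma hasDerivAt_kap (p q : ℝ × ℝ) (t : ℝ) (hN : P.Aq t p q ≠ 0) : HasDerivAt (P.kap p q)
    ((P.A2 t p p / 2 * P.Aq t p q - 2 * P.V1 p t * P.A1 t p q) / P.Aq t p q ^ 3) t := by
  have h1 := (h.hasDerivAt_V1 p t).div ((h.hasDerivAt_Aq t p q).pow 2) (pow_ne_zero 2 hN)
  refine HasDerivAt.congr_deriv h1 ?_
  simp only [Pi.pow_apply]
  field_simp
  ring

lemma hasDerivAt_Bq' (t : ℝ) (u v : E3) : HasDerivAt (fun s => P.Bq s u v)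
    (deriv P.lam t * (u 2 * (v 1 + P.lam t * v 2) + (u 1 + P.lam t * u 2) * v 2) / P.φ t
      - (u 1 + P.lam t * u 2) * (v 1 + P.lam t * v 2) * deriv P.φ t / P.φ t ^ 2
      - u 2 * v 2 * deriv P.ψ t / P.ψ t ^ 2) t := by
  have h1 := ((((h.dl t).mul_const (u 2)).const_add (u 1)).mul
    (((h.dl t).mul_const (v 2)).const_add (v 1))).div (h.dφ t) (h.phi.pos t).ne'
  have h2 := (hasDerivAt_const t (u 2 * v 2)).div (h.dψ t) (h.ψ_pos t).ne'
  have := (h.phi.pos t).ne'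
  have := (h.ψ_pos t).ne'
  refine HasDerivAt.congr_deriv (h1.add h2) ?_
  simp only [Pi.mul_apply]
  field_simp
  ring

lemma B1_eq (t : ℝ) (u v : E3) : P.B1 t u v =
    deriv P.lam t * (u 2 * (v 1 + P.lam t * v 2) + (u 1 + P.lam t * u 2) * v 2) / P.φ t
      - (u 1 + P.lam t * u 2) * (v 1 + P.lam t * v 2) * deriv P.φ t / P.φ t ^ 2
      - u 2 * v 2 * deriv P.ψ t / P.ψ t ^ 2 := (h.hasDerivAt_Bq' t u v).deriv

lemma hasDerivAt_Bq (t : ℝ) (u v : E3) : HasDerivAt (fun s => P.Bq s u v) (P.B1 t u v) t := by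
  rw [h.B1_eq]; exact h.hasDerivAt_Bq' t u v

end Prof.OK

/-- a smooth function constant on `(-∞, a]` has vanishing first two derivatives there -/
lemma deriv_zero_of_const_left {f : ℝ → ℝ} (hf : ContDiff ℝ ∞ f) {a c : ℝ}
    (hc : ∀ t ≤ a, f t = c) : ∀ t ≤ a, deriv f t = 0 := by
  have h1 : ∀ t < a, deriv f t = 0 := fun t ht => by
    have : f =ᶠ[𝓝 t] fun _ => c := by
      filter_upwards [Iio_mem_nhds ht] with s hs using hc s (le_of_lt hs)
    rw [this.deriv_eq]; simp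
  have hcl : IsClosed {t | deriv f t = 0} :=
    isClosed_eq (smooth_deriv hf).continuous continuous_const
  intro t ht
  have : closure (Iio a) ⊆ {t | deriv f t = 0} := hcl.closure_subset_iff.2 h1
  exact this (by rw [closure_Iio]; exact ht)

lemma deriv_zero_of_const_right {f : ℝ → ℝ} (hf : ContDiff ℝ ∞ f) {a c : ℝ}
    (hc : ∀ t ≥ a, f t = c) : ∀ t ≥ a, deriv f t = 0 := by
  have h1 : ∀ t > a, deriv f t = 0 := fun t ht => by
    have : f =ᶠ[𝓝 t] fun _ => c := by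
      filter_upwards [Ioi_mem_nhds ht] with s hs using hc s (le_of_lt hs)
    rw [this.deriv_eq]; simp
  have hcl : IsClosed {t | deriv f t = 0} :=
    isClosed_eq (smooth_deriv hf).continuous continuous_const
  intro t ht
  have : closure (Ioi a) ⊆ {t | deriv f t = 0} := hcl.closure_subset_iff.2 h1
  exact this (by rw [closure_Ioi]; exact ht)

namespace Prof.OK
variable {P : Prof} (h : P.OK)
include h
lemma dψ_left : ∀ t ≤ 0, deriv P.ψ t = 0 := deriv_zero_of_const_left h.ψ_smooth h.ψ_left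
lemma ddψ_left : ∀ t ≤ 0, deriv (deriv P.ψ) t = 0 :=
  deriv_zero_of_const_left (smooth_deriv h.ψ_smooth) h.dψ_left
lemma dl_left : ∀ t ≤ 1 / 6, deriv P.lam t = 0 := deriv_zero_of_const_left h.lam_smooth h.lam_left
lemma ddl_left : ∀ t ≤ 1 / 6, deriv (deriv P.lam) t = 0 :=
  deriv_zero_of_const_left (smooth_deriv h.lam_smooth) h.dl_left
lemma dφ_right : ∀ t ≥ 1 / 2, deriv P.φ t = 0 :=
  deriv_zero_of_const_right h.phi.smooth h.phi.right
lemma ddφ_right : ∀ t ≥ 1 / 2, deriv (deriv P.φ) t = 0 :=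
  deriv_zero_of_const_right (smooth_deriv h.phi.smooth) h.dφ_right
lemma dl_right : ∀ t ≥ 1 / 3, deriv P.lam t = 0 :=
  deriv_zero_of_const_right h.lam_smooth h.lam_right
lemma ddl_right : ∀ t ≥ 1 / 3, deriv (deriv P.lam) t = 0 :=
  deriv_zero_of_const_right (smooth_deriv h.lam_smooth) h.dl_right
end Prof.OK

end Crest.Agent.R244
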