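import Crest.Agent.R244.TanAux
/-! Row 244, task `GJ`. -/
set_option autoImplicit false
open scoped ContDiff Manifold Topology
open Bundle Set Filter
open Crest.GeometryTopology.Geodesic Crest.GeometryTopology.CoordMetric
  Crest.GeometryTopology.ChartCurvature

noncomputable section
namespace Crest.Agent.R244

namespace GJAux

theorem geoAt_congr {g : MF} {c c' : ℝ → E3} {t : ℝ} (h : c =ᶠ[𝓝 t] c') (hg : GeoAt g c t) :
    GeoAt g c' t := by
  unfold GeoAt at hg ⊢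
  rw [← h.deriv.deriv_eq, ← h.deriv_eq, ← h.eq_of_nhds]
  exact hg

theorem cov_congr {g : MF} {c c' V V' : ℝ → E3} {t : ℝ} (h : c =ᶠ[𝓝 t] c') (hV : V =ᶠ[𝓝 t] V') :
    cov g c V =ᶠ[𝓝 t] cov g c' V' := by
  filter_upwards [h, hV, h.deriv, hV.deriv] with s h1 h2 h3 h4
  simp only [cov, h1, h2, h3, h4]

theorem jacAt_congr {g : MF} {c c' J J' : ℝ → E3} {t : ℝ} (h : c =ᶠ[𝓝 t] c')
    (hJ : J =ᶠ[𝓝 t] J') (hj : JacAt g c J t) : JacAt g c' J' t := by
  unfold JacAt at hj ⊢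
  rw [← (cov_congr h (cov_congr h hJ)).eq_of_nhds, ← h.deriv_eq, ← h.eq_of_nhds, ← hJ.eq_of_nhds]
  exact hj

end GJAux

open TanAux GJAux in
theorem gJ (hT : TranslS) (hCC : CurveCovS) (hC : ChartFactsS) : GJS := by
  intro M _ _ _ g γ J hγ hJ
  have cf := hC M g
  have hcont : Continuous γ := hγ.1.continuous
  have hsrc : ∀ (z : M) (t : ℝ), γ t ∈ (ch z).source → ∀ᶠ s in 𝓝 t, γ s ∈ (ch z).source :=
    fun z t h => hcont.continuousAt ((ch z).open_source.mem_nhds h)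
  have sc : ∀ (z : M) (t : ℝ), γ t ∈ (ch z).source → ContDiffAt ℝ ∞ (fun s => ch z (γ s)) t := by
    intro z t h
    have h3 : ContMDiffAt I3 I3 ∞ (ch z) (γ t) :=
      (contMDiffOn_chart (I := I3) (n := ∞) (x := z)).contMDiffAt ((ch z).open_source.mem_nhds h)
    exact contMDiffAt_iff_contDiffAt.1 (h3.comp t (hγ.1 t))
  have sJ0 : ∀ t : ℝ, ContDiffAt ℝ ∞ (fun s => TT (γ t) (γ s) (J s)) t := by
    intro t
    have h := (contMDiffAt_totalSpace.1 (hJ.1 t)).2
    have h2 := contMDiffAt_iff_contDiffAt.1 h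
    refine h2.congr_of_eventuallyEq (Eventually.of_forall fun s => ?_)
    show TT (γ t) (γ s) (J s) = tangentCoordChange I3 (γ s) (γ t) (γ s) (J s)
    rw [tcc]; rfl
  have ec : ∀ (z : M) (t : ℝ), (fun s => trM (γ t) z (ch (γ t) (γ s))) =ᶠ[𝓝 t]
      fun s => ch z (γ s) := by
    intro z t
    filter_upwards [hsrc (γ t) t (mem_chart_source E3 _)] with s hs using trM_apply z hs
  have eJ : ∀ (z : M) (t : ℝ), γ t ∈ (ch z).source →
      (fun s => fderiv ℝ (trM (γ t) z) (ch (γ t) (γ s)) (TT (γ t) (γ s) (J s))) =ᶠ[𝓝 t]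
      fun s => TT z (γ s) (J s) := by
    intro z t h
    filter_upwards [hsrc (γ t) t (mem_chart_source E3 _), hsrc z t h] with s h1 h2
      using cf.tt_comp _ _ _ h1 h2 _
  have h2le : (2 : WithTop ℕ∞) ≤ ∞ := by norm_cast
  refine ⟨hcont, fun z t h => (sc z t h).of_le h2le, fun z t h => ?_, fun z t h => ?_,
    fun z t h => ?_⟩
  · have hd := mem_dom (mem_chart_source E3 (γ t)) h
    have ht : ContDiffAt ℝ ∞ (trM (γ t) z) (ch (γ t) (γ t)) :=
      (trM_smooth _ _).contDiffAt ((isOpen_dom _ _).mem_nhds hd)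
    have hD : ContDiffAt ℝ ∞ (fderiv ℝ (trM (γ t) z)) (ch (γ t) (γ t)) :=
      ht.fderiv_right (m := ∞) (by simp)
    have h4 : ContDiffAt ℝ ∞ (fun s => fderiv ℝ (trM (γ t) z) (ch (γ t) (γ s))) t :=
      ContDiffAt.comp t (g := fderiv ℝ (trM (γ t) z)) hD (sc _ t (mem_chart_source E3 _))
    exact ((h4.clm_apply (sJ0 t)).congr_of_eventuallyEq (eJ z t h).symm).of_le h2le
  · have hd := mem_dom (mem_chart_source E3 (γ t)) h
    have h5 := (hCC _ _ _ _ _ (cf.iso (γ t) z) (fun s => ch (γ t) (γ s))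
      (fun s => TT (γ t) (γ s) (J s)) t hd ((sc _ t (mem_chart_source E3 _)).of_le h2le)
      ((sJ0 t).of_le h2le)).1 ((hT.1 _ _ _).1 (hγ.2 t))
    exact geoAt_congr (ec z t) h5
  · have hd := mem_dom (mem_chart_source E3 (γ t)) h
    have h6 := (hT.2.1 _ _ (cf.riem (γ t)) _ _ t (mem_chart_target E3 (γ t))).1 (hJ.2 t)
    have h7 : JacAt (mic g (γ t)) (fun s => ch (γ t) (γ s)) (fun s => TT (γ t) (γ s) (J s)) t := by
      refine jacAt_congr EventuallyEq.rfl ?_ h6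
      filter_upwards [hsrc (γ t) t (mem_chart_source E3 _)] with s hs using cf.mfd _ _ hs _
    have h5 := (hCC _ _ _ _ _ (cf.iso (γ t) z) (fun s => ch (γ t) (γ s))
      (fun s => TT (γ t) (γ s) (J s)) t hd ((sc _ t (mem_chart_source E3 _)).of_le h2le)
      ((sJ0 t).of_le h2le)).2 h7
    exact jacAt_congr (ec z t) (eJ z t h) h5

end Crest.Agent.R244
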