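import Crest.Agent.R244.Defs2
/-! Row 244, task GamBasic: basic facts on a Riemannian metric field. -/
set_option autoImplicit false
open scoped ContDiff Manifold Topology
open Bundle Set Filter
open Crest.GeometryTopology.Geodesic Crest.GeometryTopology.CoordMetric
  Crest.GeometryTopology.ChartCurvature

noncomputable section
namespace Crest.Agent.R244

namespace GamBasicP

variable {g : MF} {U : Set E3}

theorem smc {F : Type} [NormedAddCommGroup F] [NormedSpace ℝ F] {f : E3 → ℝ}
    (hf : ContDiffOn ℝ ∞ f U) (c : F) : ContDiffOn ℝ ∞ (fun x => f x • c) U := hf.smul_const c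

theorem smd {F : Type} [NormedAddCommGroup F] [NormedSpace ℝ F] {f : E3 → ℝ} {f' : E3 →L[ℝ] ℝ}
    {x : E3} (hf : HasFDerivAt f f' x) (c : F) :
    HasFDerivAt (fun x => f x • c) (f'.smulRight c) x := hf.smul_const c

theorem symm (h : IsRiemannianOn g U) {x : E3} (hx : x ∈ U) (i j : Fin 3) : g x i j = g x j i := by
  have := (h.posDef x hx).isHermitian.apply j i
  simpa using this

theorem det_smooth (h : IsRiemannianOn g U) : ContDiffOn ℝ ∞ (fun x => (g x).det) U := by
  simp only [Matrix.det_fin_three]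
  have := h.contDiffOn
  exact ((((((this 0 0).mul (this 1 1)).mul (this 2 2)).sub
    (((this 0 0).mul (this 1 2)).mul (this 2 1))).sub
    (((this 0 1).mul (this 1 0)).mul (this 2 2))).add
    (((this 0 1).mul (this 1 2)).mul (this 2 0))).add
    (((this 0 2).mul (this 1 0)).mul (this 2 1)) |>.sub
    (((this 0 2).mul (this 1 1)).mul (this 2 0))

theorem adj_smooth (h : IsRiemannianOn g U) (i j : Fin 3) :
    ContDiffOn ℝ ∞ (fun x => (g x).adjugate i j) U := by
  have := h.contDiffOn
  simp only [Matrix.adjugate_fin_three]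
  fin_cases i <;> fin_cases j <;> simp <;>
    first
    | exact ((this _ _).mul (this _ _)).sub ((this _ _).mul (this _ _))
    | exact ((this _ _).mul (this _ _)).neg.add ((this _ _).mul (this _ _))

theorem inv_smooth (h : IsRiemannianOn g U) (i j : Fin 3) :
    ContDiffOn ℝ ∞ (fun x => (g x)⁻¹ i j) U := by
  have e : ∀ x, (g x)⁻¹ i j = ((g x).det)⁻¹ * (g x).adjugate i j := by
    intro x; rw [Matrix.inv_def, Ring.inverse_eq_inv']; rfl
  simp only [e]
  exact ((det_smooth h).inv (fun x hx => (h.posDef x hx).det_pos.ne')).mul (adj_smooth h i j)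

theorem pderiv_smooth (hU : IsOpen U) {f : E3 → ℝ} (hf : ContDiffOn ℝ ∞ f U) (i : Fin 3) :
    ContDiffOn ℝ ∞ (pderiv i f) U :=
  (hf.fderiv_of_isOpen hU (m := ∞) (by simp)).clm_apply contDiffOn_const

theorem chr_smooth (h : IsRiemannianOn g U) (k i j : Fin 3) :
    ContDiffOn ℝ ∞ (fun x => christoffel g x k i j) U := by
  unfold christoffel
  refine contDiffOn_const.mul (ContDiffOn.sum fun l _ => ?_)
  exact (inv_smooth h k l).mul (((pderiv_smooth h.isOpen (h.contDiffOn _ _) _).add
    (pderiv_smooth h.isOpen (h.contDiffOn _ _) _)).sub (pderiv_smooth h.isOpen (h.contDiffOn _ _) _))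

theorem fderiv_eq_sum (f : E3 → ℝ) (x u : E3) : fderiv ℝ f x u = ∑ i, u i * pderiv i f x := by
  have e : u = ∑ i, u i • (EuclideanSpace.single i 1 : E3) := by
    ext j; simp [Fin.sum_univ_three]; fin_cases j <;> simp
  conv_lhs => rw [e]
  simp only [map_sum, map_smul, smul_eq_mul, pderiv]

theorem fderiv_ipL (h : IsRiemannianOn g U) {x : E3} (hx : x ∈ U) (u v w : E3) :
    fderiv ℝ (ipL g) x u v w =
      ∑ i, ∑ j, (∑ k, u k * pderiv k (fun y => g y i j) x) * v i * w j := by
  have hd : ∀ i j, HasFDerivAt (fun y => g y i j) (fderiv ℝ (fun y => g y i j) x) x := fun i j =>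
    (((h.contDiffOn i j).contDiffAt (h.isOpen.mem_nhds hx)).differentiableAt (by simp)).hasFDerivAt
  have H : HasFDerivAt (ipL g) (∑ i, ∑ j, (fderiv ℝ (fun y => g y i j) x).smulRight
      ((prj i).smulRight (prj j))) x := by
    unfold ipL
    exact HasFDerivAt.fun_sum fun i _ => HasFDerivAt.fun_sum fun j _ =>
      smd (hd i j) ((prj i).smulRight (prj j) : E3 →L[ℝ] E3 →L[ℝ] ℝ)
  rw [H.fderiv]
  simp only [sum_apply, smul_apply,
    ContinuousLinearMap.smulRight_apply, prj_apply, smul_eq_mul, mul_assoc, fderiv_eq_sum]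

theorem pderiv_symm (h : IsRiemannianOn g U) {x : E3} (hx : x ∈ U) (k i j : Fin 3) :
    pderiv k (fun y => g y i j) x = pderiv k (fun y => g y j i) x := by
  unfold pderiv
  congr 1
  refine Filter.EventuallyEq.fderiv_eq ?_
  filter_upwards [h.isOpen.mem_nhds hx] with y hy using symm h hy i j

theorem lower (h : IsRiemannianOn g U) {x : E3} (hx : x ∈ U) (m i j : Fin 3) :
    2 * ∑ k, g x k m * christoffel g x k i j =
      pderiv i (fun y => g y j m) x + pderiv j (fun y => g y i m) x -
        pderiv m (fun y => g y i j) x := by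
  have hinv : g x * (g x)⁻¹ = 1 :=
    Matrix.mul_nonsing_inv _ (h.posDef x hx).det_pos.ne'.isUnit
  have e : ∀ l, ∑ k, g x k m * (g x)⁻¹ k l = if m = l then 1 else 0 := by
    intro l
    have := congrFun (congrFun hinv m) l
    rw [Matrix.mul_apply, Matrix.one_apply] at this
    rw [← this]
    exact Finset.sum_congr rfl fun k _ => by rw [symm h hx k m]
  have e0 := e 0
  have e1 := e 1
  have e2 := e 2
  simp only [christoffel, inverseField, Fin.sum_univ_three] at e0 e1 e2 ⊢
  fin_cases m <;> simp at e0 e1 e2 ⊢ <;>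
    linear_combination
      (pderiv i (fun y => g y j 0) x + pderiv j (fun y => g y i 0) x -
        pderiv 0 (fun y => g y i j) x) * e0 +
      (pderiv i (fun y => g y j 1) x + pderiv j (fun y => g y i 1) x -
        pderiv 1 (fun y => g y i j) x) * e1 +
      (pderiv i (fun y => g y j 2) x + pderiv j (fun y => g y i 2) x -
        pderiv 2 (fun y => g y i j) x) * e2

theorem koszul (h : IsRiemannianOn g U) {x : E3} (hx : x ∈ U) (u v w : E3) :
    2 * ipL g x (Gam g x u v) w =
      fderiv ℝ (ipL g) x u v w + fderiv ℝ (ipL g) x v u w - fderiv ℝ (ipL g) x w u v := by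
  have e : 2 * ipL g x (Gam g x u v) w =
      ∑ m, ∑ i, ∑ j, (2 * ∑ k, g x k m * christoffel g x k i j) * u i * v j * w m := by
    simp only [ipL_apply, Gam_apply, Fin.sum_univ_three]; ring
  rw [e]
  simp only [lower h hx]
  simp only [fderiv_ipL h hx, Fin.sum_univ_three]
  ring

theorem fderiv_symm (h : IsRiemannianOn g U) {x : E3} (hx : x ∈ U) (u v w : E3) :
    fderiv ℝ (ipL g) x u v w = fderiv ℝ (ipL g) x u w v := by
  rw [fderiv_ipL h hx, fderiv_ipL h hx, Finset.sum_comm]
  refine Finset.sum_congr rfl fun i _ => Finset.sum_congr rfl fun j _ => ?_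
  simp only [pderiv_symm h hx _ j i]
  ring

theorem ip_symm (h : IsRiemannianOn g U) {x : E3} (hx : x ∈ U) (u v : E3) :
    ipL g x u v = ipL g x v u := by
  rw [ipL_apply, ipL_apply, Finset.sum_comm]
  refine Finset.sum_congr rfl fun i _ => Finset.sum_congr rfl fun j _ => ?_
  rw [symm h hx j i]; ring

end GamBasicP

theorem gamBasic : GamBasicS := by
  intro g U h
  refine ⟨?_, ?_, fun x hx => GamBasicP.ip_symm h hx, fun x hx u hu => ?_, fun x hx u v => ?_,
    fun x hx => GamBasicP.koszul h hx, fun x hx u v w => ?_⟩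
  · unfold ipL
    exact ContDiffOn.sum fun i _ => ContDiffOn.sum fun j _ =>
      GamBasicP.smc (h.contDiffOn i j) ((prj i).smulRight (prj j) : E3 →L[ℝ] E3 →L[ℝ] ℝ)
  · unfold Gam
    exact ContDiffOn.sum fun k _ => ContDiffOn.sum fun i _ => ContDiffOn.sum fun j _ =>
      GamBasicP.smc (GamBasicP.chr_smooth h k i j)
        ((prj i).smulRight ((prj j).smulRight (bas k)) : E3 →L[ℝ] E3 →L[ℝ] E3)
  · have hu' : u.ofLp ≠ 0 := fun h0 => hu (by ext i; exact congrFun h0 i)
    have := (h.posDef x hx).dotProduct_mulVec_pos hu'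
    rw [ipL_apply]
    simp only [dotProduct, Matrix.mulVec, Fin.sum_univ_three, star_trivial] at this ⊢
    linarith
  · ext k
    rw [Gam_apply, Gam_apply, Finset.sum_comm]
    refine Finset.sum_congr rfl fun i _ => Finset.sum_congr rfl fun j _ => ?_
    have : christoffel g x k j i = christoffel g x k i j := by
      unfold christoffel
      congr 1
      refine Finset.sum_congr rfl fun l _ => ?_
      rw [GamBasicP.pderiv_symm h hx l j i]; ring
    rw [this]; ring
  · have k1 := GamBasicP.koszul h hx u v w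
    have k2 := GamBasicP.koszul h hx u w v
    have s1 := GamBasicP.fderiv_symm h hx u v w
    have s2 := GamBasicP.ip_symm h hx v (Gam g x u w)
    linarith

end Crest.Agent.R244
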