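import Crest.Agent.R244.Defs2
/-! Row 244, task `GamCov`. -/
set_option autoImplicit false
open scoped ContDiff Manifold Topology
open Bundle Set Filter
open Crest.GeometryTopology.Geodesic Crest.GeometryTopology.CoordMetric
  Crest.GeometryTopology.ChartCurvature

noncomputable section
namespace Crest.Agent.R244

namespace GamCov

theorem fd3 {Z : Type} [NormedAddCommGroup Z] [NormedSpace ℝ Z]
    {F : E3 → E3 →L[ℝ] E3 →L[ℝ] Z} {a b : E3 → E3} {y : E3} (hF : DifferentiableAt ℝ F y)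
    (ha : DifferentiableAt ℝ a y) (hb : DifferentiableAt ℝ b y) (u : E3) :
    fderiv ℝ (fun x => F x (a x) (b x)) y u = fderiv ℝ F y u (a y) (b y) +
      F y (fderiv ℝ a y u) (b y) + F y (a y) (fderiv ℝ b y u) := by
  rw [((hF.hasFDerivAt.clm_apply ha.hasFDerivAt).clm_apply hb.hasFDerivAt).fderiv]
  simp
  abel

theorem fd2 {Z : Type} [NormedAddCommGroup Z] [NormedSpace ℝ Z]
    {F : E3 → E3 →L[ℝ] Z} {a : E3 → E3} {y : E3} (hF : DifferentiableAt ℝ F y)
    (ha : DifferentiableAt ℝ a y) (u : E3) :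
    fderiv ℝ (fun x => F x (a x)) y u = fderiv ℝ F y u (a y) + F y (fderiv ℝ a y u) := by
  rw [(hF.hasFDerivAt.clm_apply ha.hasFDerivAt).fderiv]
  simp
  abel

theorem fd2c {Z : Type} [NormedAddCommGroup Z] [NormedSpace ℝ Z]
    {F : E3 → E3 →L[ℝ] Z} {y : E3} (hF : DifferentiableAt ℝ F y) (a u : E3) :
    fderiv ℝ (fun x => F x a) y u = fderiv ℝ F y u a := by
  rw [fd2 hF (differentiableAt_const a)]
  simp

theorem fd3c {Z : Type} [NormedAddCommGroup Z] [NormedSpace ℝ Z]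
    {F : E3 → E3 →L[ℝ] E3 →L[ℝ] Z} {y : E3} (hF : DifferentiableAt ℝ F y) (a b u : E3) :
    fderiv ℝ (fun x => F x a b) y u = fderiv ℝ F y u a b := by
  rw [fd3 hF (differentiableAt_const a) (differentiableAt_const b)]
  simp

/-- derivative of a pulled-back bilinear field -/
theorem fd_pull {Z : Type} [NormedAddCommGroup Z] [NormedSpace ℝ Z]
    {F : E3 → E3 →L[ℝ] E3 →L[ℝ] Z} {τ : E3 → E3} {y : E3} (hF : DifferentiableAt ℝ F (τ y))
    (hτ : ContDiffAt ℝ ∞ τ y) (u v w : E3) :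
    DifferentiableAt ℝ (fun x => F (τ x) (fderiv ℝ τ x v) (fderiv ℝ τ x w)) y ∧
    fderiv ℝ (fun x => F (τ x) (fderiv ℝ τ x v) (fderiv ℝ τ x w)) y u =
      fderiv ℝ F (τ y) (fderiv ℝ τ y u) (fderiv ℝ τ y v) (fderiv ℝ τ y w) +
      F (τ y) (fderiv ℝ (fderiv ℝ τ) y u v) (fderiv ℝ τ y w) +
      F (τ y) (fderiv ℝ τ y v) (fderiv ℝ (fderiv ℝ τ) y u w) := by
  have h0 : DifferentiableAt ℝ τ y := hτ.differentiableAt (by simp)
  have h1 : DifferentiableAt ℝ (fderiv ℝ τ) y :=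
    (hτ.fderiv_right (m := ∞) (by simp)).differentiableAt (by simp)
  have hc : DifferentiableAt ℝ (fun x => F (τ x)) y := DifferentiableAt.comp (g := F) y hF h0
  have hv : DifferentiableAt ℝ (fun x => fderiv ℝ τ x v) y :=
    h1.clm_apply (differentiableAt_const v)
  have hw : DifferentiableAt ℝ (fun x => fderiv ℝ τ x w) y :=
    h1.clm_apply (differentiableAt_const w)
  refine ⟨(hc.clm_apply hv).clm_apply hw, ?_⟩
  rw [fd3 hc hv hw, fd2c h1, fd2c h1]
  have : fderiv ℝ (fun x => F (τ x)) y = (fderiv ℝ F (τ y)).comp (fderiv ℝ τ y) :=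
    fderiv_comp (g := F) y hF h0
  rw [this]
  rfl

end GamCov

open GamCov in
theorem gamCov (hB : GamBasicS) : GamCovS := by
  intro g g' τ U U' h y hy u v
  have b := hB g U h.riem
  have b' := hB g' U' h.riem'
  have hU : U ∈ 𝓝 y := h.riem.isOpen.mem_nhds hy
  have hy' : τ y ∈ U' := h.maps hy
  have hτ : ContDiffAt ℝ ∞ τ y := h.smooth.contDiffAt hU
  have hg : DifferentiableAt ℝ (ipL g) y :=
    (b.ip_smooth.contDiffAt hU).differentiableAt (by simp)
  have hg' : DifferentiableAt ℝ (ipL g') (τ y) :=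
    (b'.ip_smooth.contDiffAt (h.riem'.isOpen.mem_nhds hy')).differentiableAt (by simp)
  have hS : ∀ a c, fderiv ℝ (fderiv ℝ τ) y a c = fderiv ℝ (fderiv ℝ τ) y c a := fun a c =>
    (hτ.isSymmSndFDerivAt (by simp [minSmoothness_of_isRCLikeNormedField]; norm_cast)).eq a c
  have hd : ∀ a c d, fderiv ℝ (ipL g) y a c d =
      fderiv ℝ (ipL g') (τ y) (fderiv ℝ τ y a) (fderiv ℝ τ y c) (fderiv ℝ τ y d) +
      ipL g' (τ y) (fderiv ℝ (fderiv ℝ τ) y a c) (fderiv ℝ τ y d) +
      ipL g' (τ y) (fderiv ℝ τ y c) (fderiv ℝ (fderiv ℝ τ) y a d) := by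
    intro a c d
    rw [← (fd_pull hg' hτ a c d).2, ← fd3c hg]
    have : (fun x => ipL g x c d) =ᶠ[𝓝 y]
        fun x => ipL g' (τ x) (fderiv ℝ τ x c) (fderiv ℝ τ x d) := by
      filter_upwards [hU] with x hx using h.pull x hx c d
    rw [this.fderiv_eq]
  set T := fderiv ℝ τ y with hT
  set S := fderiv ℝ (fderiv ℝ τ) y with hSd
  have hinj : Function.Injective (T : E3 →ₗ[ℝ] E3) := by
    rw [injective_iff_map_eq_zero]
    intro a ha
    by_contra hne
    have h1 := b.ip_pos y hy a hne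
    have ha' : T a = 0 := ha
    rw [h.pull y hy, ← hT, ha'] at h1
    simp at h1
  have hsurj : Function.Surjective (T : E3 →ₗ[ℝ] E3) :=
    LinearMap.injective_iff_surjective.1 hinj
  have key : ∀ w, ipL g' (τ y) (T (Gam g y u v) - (S u v + Gam g' (τ y) (T u) (T v))) (T w) = 0 := by
    intro w
    have k1 := b.koszul y hy u v w
    have k2 := b'.koszul (τ y) hy' (T u) (T v) (T w)
    rw [hd, hd, hd, h.pull y hy, ← hT] at k1
    have s1 := b'.ip_symm (τ y) hy' (T v) (S u w)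
    have s2 := b'.ip_symm (τ y) hy' (T u) (S v w)
    have s3 := b'.ip_symm (τ y) hy' (T u) (S w v)
    rw [hS v u, hS w u, hS w v] at k1
    simp only [map_sub, map_add, ContinuousLinearMap.sub_apply, ContinuousLinearMap.add_apply]
    linarith
  obtain ⟨w, hw⟩ := hsurj (T (Gam g y u v) - (S u v + Gam g' (τ y) (T u) (T v)))
  have hw' : T w = T (Gam g y u v) - (S u v + Gam g' (τ y) (T u) (T v)) := hw
  have k := key w
  rw [hw'] at k
  by_contra hne
  exact (b'.ip_pos (τ y) hy' _ (sub_ne_zero.2 hne)).ne' k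

end Crest.Agent.R244
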