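import Crest.Agent.R244.Defs2
/-! Row 244, task GlueEx: existence of the glued space. -/
set_option autoImplicit false
open scoped ContDiff Manifold Topology
open Bundle Set Filter
open Crest.GeometryTopology.Geodesic Crest.GeometryTopology.CoordMetric
  Crest.GeometryTopology.ChartCurvature

noncomputable section
namespace Crest.Agent.R244

namespace GlueEx

variable {A : Type} (D : Glue A)

/-- the glued set -/
def Mt : Type := {a : A // ∃ i, ∃ y ∈ D.Y i, D.P i y = a}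

open Classical in
/-- the maps of the pieces -/
def pp (h : D.Good) (i : Fin 3) (y : E3) : Mt D :=
  if hy : y ∈ D.Y i then ⟨D.P i y, i, y, hy, rfl⟩
  else ⟨D.P 1 h.ne.some, 1, _, h.ne.some_mem, rfl⟩

lemma pp_val (h : D.Good) {i : Fin 3} {y : E3} (hy : y ∈ D.Y i) : (pp D h i y).1 = D.P i y := by
  exact congrArg Subtype.val (dif_pos hy : pp D h i y = ⟨D.P i y, i, y, hy, rfl⟩)

lemma pp_eq_iff (h : D.Good) {i j : Fin 3} {y y' : E3} (hy : y ∈ D.Y i) (hy' : y' ∈ D.Y j) :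
    pp D h i y = pp D h j y' ↔ D.P i y = D.P j y' := by
  rw [← pp_val D h hy, ← pp_val D h hy']
  exact Subtype.ext_iff

lemma pp_surj (h : D.Good) (m : Mt D) : ∃ i, ∃ y ∈ D.Y i, pp D h i y = m := by
  obtain ⟨a, i, y, hy, e⟩ := m
  exact ⟨i, y, hy, Subtype.ext ((pp_val D h hy).trans e)⟩

/-- the final topology -/
@[reducible] def top (h : D.Good) : TopologicalSpace (Mt D) where
  IsOpen U := ∀ i, IsOpen (D.Y i ∩ pp D h i ⁻¹' U)
  isOpen_univ := fun i => by simpa using (h.riem i).isOpen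
  isOpen_inter := fun s t hs ht i => by
    have : D.Y i ∩ pp D h i ⁻¹' (s ∩ t) =
        (D.Y i ∩ pp D h i ⁻¹' s) ∩ (D.Y i ∩ pp D h i ⁻¹' t) := by
      ext y; simp only [mem_inter_iff, mem_preimage]; tauto
    rw [this]; exact (hs i).inter (ht i)
  isOpen_sUnion := fun S hS i => by
    have : D.Y i ∩ pp D h i ⁻¹' (⋃₀ S) = ⋃ t ∈ S, (D.Y i ∩ pp D h i ⁻¹' t) := by
      ext y; simp only [mem_inter_iff, mem_preimage, mem_sUnion, mem_iUnion]; tauto
    rw [this]; exact isOpen_biUnion fun t ht => hS t ht i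

lemma open_pre (h : D.Good) (i : Fin 3) (V : Set E3) (hV : IsOpen V) (hs : V ⊆ D.Y i)
    (j : Fin 3) : IsOpen (D.Y j ∩ pp D h j ⁻¹' (pp D h i '' V)) := by
  rw [isOpen_iff_mem_nhds]
  rintro u ⟨hu, v, hv, e⟩
  have e' := (pp_eq_iff D h (hs hv) hu).1 e
  obtain ⟨τ, W, hW, huW, hWs, hτ, hm, hτu, hP⟩ := h.tr j i u hu v (hs hv) e'.symm
  have hc : ContinuousAt τ u := hτ.continuousOn.continuousAt (hW.mem_nhds huW)
  have h1 : τ ⁻¹' V ∈ 𝓝 u := hc.preimage_mem_nhds (hV.mem_nhds (hτu ▸ hv))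
  filter_upwards [h1, hW.mem_nhds huW] with w hw1 hw2
  exact ⟨hWs hw2, τ w, hw1, (pp_eq_iff D h (hm hw2) (hWs hw2)).2 (hP w hw2).1⟩

lemma exists_chart (h : D.Good) (m : Mt D) : ∃ (i : Fin 3) (V : Set E3), IsOpen V ∧ V ⊆ D.Y i ∧
    InjOn (pp D h i) V ∧ m ∈ pp D h i '' V ∧ (m ∈ pp D h 1 '' D.Y 1 → i = 1) := by
  have key : ∀ i, ∀ y ∈ D.Y i, ∃ V : Set E3, IsOpen V ∧ V ⊆ D.Y i ∧ InjOn (pp D h i) V ∧ y ∈ V := by
    intro i y hy
    obtain ⟨V, hV, hi⟩ := h.locinj i y hy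
    obtain ⟨W, hWV, hW, hyW⟩ := mem_nhds_iff.1 hV
    refine ⟨W ∩ D.Y i, hW.inter (h.riem i).isOpen, inter_subset_right, ?_, hyW, hy⟩
    intro a ha b hb e
    exact hi ⟨hWV ha.1, ha.2⟩ ⟨hWV hb.1, hb.2⟩ ((pp_eq_iff D h ha.2 hb.2).1 e)
  by_cases hm : m ∈ pp D h 1 '' D.Y 1
  · obtain ⟨y, hy, e⟩ := hm
    obtain ⟨V, h1, h2, h3, h4⟩ := key 1 y hy
    exact ⟨1, V, h1, h2, h3, ⟨y, h4, e⟩, fun _ => rfl⟩
  · obtain ⟨i, y, hy, e⟩ := pp_surj D h m
    obtain ⟨V, h1, h2, h3, h4⟩ := key i y hy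
    exact ⟨i, V, h1, h2, h3, ⟨y, h4, e⟩, fun h' => absurd h' hm⟩

end GlueEx

open GlueEx in
theorem glueEx : GlueExS := by
  intro A D h
  letI : TopologicalSpace (Mt D) := top D h
  have hcont : ∀ i, ContinuousOn (pp D h i) (D.Y i) := fun i => by
    rw [continuousOn_open_iff (h.riem i).isOpen]
    exact fun t ht => ht i
  have hopen : ∀ i (V : Set E3), IsOpen V → V ⊆ D.Y i → IsOpen (pp D h i '' V) :=
    fun i V hV hs j => open_pre D h i V hV hs j
  choose ty V hV hs hinj hm hpref using exists_chart D h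
  let e : Mt D → OpenPartialHomeomorph E3 (Mt D) := fun m =>
    OpenPartialHomeomorph.ofContinuousOpenRestrict ((hinj m).toPartialEquiv _ _)
      ((hcont (ty m)).mono (hs m))
      (by
        intro U hU
        have h1 : IsOpen (Subtype.val '' U) := (hV m).isOpenMap_subtype_val U hU
        have h2 := hopen (ty m) _ h1 (by
          rintro _ ⟨y, -, rfl⟩
          exact hs m y.2)
        rw [← image_comp] at h2
        exact h2)
      (hV m)
  letI : ChartedSpace E3 (Mt D) :=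
    { atlas := range fun m => (e m).symm
      chartAt := fun m => (e m).symm
      mem_chart_source := fun m => hm m
      chart_mem_atlas := fun m => ⟨m, rfl⟩ }
  refine ⟨Mt D, inferInstance, inferInstance, pp D h, ty, pp_surj D h,
    fun i j y hy y' hy' => pp_eq_iff D h hy hy', hcont, fun U hU => hU, hopen, fun m => hs m,
    fun m y _ => rfl, fun y hy => hpref _ ⟨y, hy, rfl⟩, ?_⟩
  rintro _ ⟨m, rfl⟩
  exact ⟨m, rfl⟩

end Crest.Agent.R244
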