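import Crest.Agent.R244.TanAux
/-! Row 244, task `GlueMet`. -/
set_option autoImplicit false
open scoped ContDiff Manifold Topology
open Bundle Set Filter
open Crest.GeometryTopology.Geodesic Crest.GeometryTopology.CoordMetric
  Crest.GeometryTopology.ChartCurvature

noncomputable section
namespace Crest.Agent.R244

namespace GlueMet

theorem bounded (B : E3 →L[ℝ] E3 →L[ℝ] ℝ) (hB : ∀ u, u ≠ 0 → 0 < B u u) :
    Bornology.IsVonNBounded ℝ {v : E3 | B v v < 1} := by
  have hc : Continuous fun u : E3 => B u u := by fun_prop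
  have hne : (Metric.sphere (0 : E3) 1).Nonempty := NormedSpace.sphere_nonempty.2 zero_le_one
  obtain ⟨u, hu, hmin⟩ := (isCompact_sphere (0 : E3) 1).exists_isMinOn hne hc.continuousOn
  have hu1 : ‖u‖ = 1 := by simpa using hu
  have hpos : 0 < B u u := hB u (by rintro rfl; simp at hu1)
  rw [NormedSpace.isVonNBounded_iff, isBounded_iff_forall_norm_le]
  refine ⟨1 + 1 / B u u, fun v hv => ?_⟩
  have hv' : B v v < 1 := hv
  by_cases h0 : v = 0
  · rw [h0, norm_zero]; positivity
  have hn : 0 < ‖v‖ := norm_pos_iff.2 h0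
  have hm : (‖v‖⁻¹ • v) ∈ Metric.sphere (0 : E3) 1 := by
    simp [norm_smul, hn.ne']
  have h1 : B u u ≤ B (‖v‖⁻¹ • v) (‖v‖⁻¹ • v) := hmin hm
  simp only [map_smul, ContinuousLinearMap.smul_apply, smul_eq_mul] at h1
  have h2 : B u u * ‖v‖ ^ 2 ≤ B v v := by
    have : ‖v‖⁻¹ * (‖v‖⁻¹ * B v v) * ‖v‖ ^ 2 = B v v := by field_simp
    nlinarith [sq_nonneg ‖v‖]
  have h3 : ‖v‖ ^ 2 ≤ 1 / B u u := by
    rw [le_div_iff₀ hpos]; nlinarith
  nlinarith [sq_nonneg (‖v‖ - 1), one_div_pos.2 hpos]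

end GlueMet

open TanAux in
theorem glueMet (hB : GamBasicS) (hT : GlueTrS) : GlueMetS := by
  intro A D hD M _ _ _ p ty hG
  obtain ⟨-, h2, -⟩ := hT A D hD M p ty hG
  have hY : ∀ x : M, ch x x ∈ D.Y (ty x) := fun x => hG.target_sub x (mem_chart_target E3 x)
  have hgb : ∀ i, GamBasic (D.G i) (D.Y i) := fun i => hB _ _ (hD.riem i)
  let s : ∀ x : M, TangentSpace I3 x →L[ℝ] TangentSpace I3 x →L[ℝ] ℝ :=
    fun x => ipL (D.G (ty x)) (ch x x)
  have key : ∀ m x : M, x ∈ (ch m).source → ∀ a b : E3,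
      s x (fderiv ℝ (trM m x) (ch m x) a) (fderiv ℝ (trM m x) (ch m x) b) =
        ipL (D.G (ty m)) (ch m x) a b := by
    intro m x hx a b
    obtain ⟨τ, V, hV, hyV, -, -, hEq, hp⟩ := h2 m x _ (mem_dom hx (mem_chart_source E3 x))
    have hev : trM m x =ᶠ[𝓝 (ch m x)] τ := by
      filter_upwards [hV.mem_nhds hyV] with u hu using hEq hu
    rw [(hp _ hyV).2 a b, ← hev.fderiv_eq, ← hEq hyV, trM_apply x hx]
    rfl
  let g : RM M :=
    { inner := s
      symm := fun x v w => (hgb _).ip_symm _ (hY x) v w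
      pos := fun x v hv => (hgb _).ip_pos _ (hY x) v hv
      isVonNBounded := fun x => GlueMet.bounded _ ((hgb _).ip_pos _ (hY x))
      contMDiff := fun m => by
        refine (contMDiffAt_section (IB := I3) (n := ∞) m).2 ?_
        have h1 : ContDiffAt ℝ ∞ (ipL (D.G (ty m))) (ch m m) :=
          (hgb _).ip_smooth.contDiffAt ((hD.riem _).isOpen.mem_nhds (hY m))
        have h3 : ContMDiffAt I3 I3 ∞ (ch m) m :=
          (contMDiffOn_chart (I := I3) (n := ∞) (x := m)).contMDiffAt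
            ((ch m).open_source.mem_nhds (mem_chart_source E3 m))
        have h4 : ContMDiffAt I3 𝓘(ℝ, E3 →L[ℝ] E3 →L[ℝ] ℝ) ∞
            (fun x => ipL (D.G (ty m)) (ch m x)) m :=
          (contMDiffAt_iff_contDiffAt.2 h1).comp m h3
        refine h4.congr_of_eventuallyEq ?_
        filter_upwards [(ch m).open_source.mem_nhds (mem_chart_source E3 m)] with x hx
        ext u v
        exact (triv_apply s hx u v).trans (key m x hx u v) }
  refine ⟨g, fun m y hy => ?_⟩
  ext i j
  have hx : (ch m).symm y ∈ (ch m).source := (ch m).map_target hy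
  have h := key m _ hx (bas i) (bas j)
  rw [(ch m).right_inv hy] at h
  rw [← ipL_bas (mic g m) y i j, ipL_mic g hy, ← ipL_bas (D.G (ty m)) y i j]
  exact h

end Crest.Agent.R244
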