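import Crest.Agent.R244.Defs2
set_option autoImplicit false
open scoped ContDiff Manifold Topology
open Bundle Set Filter
open Crest.GeometryTopology.Geodesic Crest.GeometryTopology.CoordMetric
  Crest.GeometryTopology.ChartCurvature

noncomputable section
namespace Crest.Agent.R244

/-- Row 244, task GlueMfd: smooth structure and orientation of the glued manifold. -/
theorem glueMfd (hT : GlueTrS) : GlueMfdS := by
  intro A D hD M _ _ p ty hG
  obtain ⟨-, h2, -⟩ := hT A D hD M p ty hG
  have loc : ∀ (m m' : M), ∀ y ∈ dom m m', ContDiffAt ℝ ∞ (trM m m') y ∧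
      0 < LinearMap.det (fderiv ℝ (trM m m') y : E3 →ₗ[ℝ] E3) := by
    intro m m' y hy
    obtain ⟨τ, V, hV, hyV, -, hτ, he, hd⟩ := h2 m m' y hy
    have e : trM m m' =ᶠ[𝓝 y] τ := by
      filter_upwards [hV.mem_nhds hyV] with u hu using he hu
    refine ⟨(hτ.contDiffAt (hV.mem_nhds hyV)).congr_of_eventuallyEq e, ?_⟩
    rw [e.fderiv_eq]
    exact (hd y hyV).1
  have hM : IsManifold I3 ∞ M := by
    refine isManifold_of_contDiffOn I3 ∞ M fun e e' he he' => ?_
    obtain ⟨m, rfl⟩ := hG.atlas e he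
    obtain ⟨m', rfl⟩ := hG.atlas e' he'
    intro y hy
    have hy' : y ∈ dom m m' := by simpa [dom] using hy
    exact (loc m m' y hy').1.contDiffWithinAt
  refine ⟨hM, atlas E3 M, IsManifold.subset_maximalAtlas,
    fun x => ⟨ch x, chart_mem_atlas E3 x, mem_chart_source E3 x⟩, fun e he e' he' x hx => ?_⟩
  obtain ⟨m, rfl⟩ := hG.atlas e he
  obtain ⟨m', rfl⟩ := hG.atlas e' he'
  refine (loc m m' (ch m x) ⟨(ch m).map_source hx.1, ?_⟩).2
  show (ch m).symm (ch m x) ∈ (ch m').source
  rw [(ch m).left_inv hx.1]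
  exact hx.2

end Crest.Agent.R244
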