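import Crest.Agent.R244.Defs2
/-! Row 244, task GlueTr: chart transitions of a glued manifold, and descent of functions. -/
set_option autoImplicit false
open scoped ContDiff Manifold Topology
open Bundle Set Filter
open Crest.GeometryTopology.Geodesic Crest.GeometryTopology.CoordMetric
  Crest.GeometryTopology.ChartCurvature

noncomputable section
namespace Crest.Agent.R244
namespace GlueTr

variable {A : Type} {D : Glue A} {M : Type} [TopologicalSpace M] [ChartedSpace E3 M]
  {p : Fin 3 → E3 → M} {ty : M → Fin 3}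

lemma dom_open (m m' : M) : IsOpen (dom m m') :=
  (ch m).continuousOn_symm.isOpen_inter_preimage (ch m).open_target (ch m').open_source

lemma tr_cont {m m' : M} {y : E3} (hy : y ∈ dom m m') : ContinuousAt (trM m m') y :=
  ContinuousAt.comp (f := (ch m).symm) ((ch m').continuousAt hy.2) ((ch m).continuousAt_symm hy.1)

lemma tr_mem (h : Glued D M p ty) {m m' : M} {u : E3} (hu : u ∈ dom m m') :
    trM m m' u ∈ D.Y (ty m') := h.target_sub m' ((ch m').map_source hu.2)

lemma tr_nf (h : Glued D M p ty) {m m' : M} {u : E3} (hu : u ∈ dom m m') :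
    D.P (ty m') (trM m m' u) = D.P (ty m) u := by
  refine (h.eq_iff _ _ _ (tr_mem h hu) _ (h.target_sub m hu.1)).1 ?_
  rw [← h.symm_eq m u hu.1]
  exact (h.symm_eq m' _ ((ch m').map_source hu.2)).symm.trans ((ch m').left_inv hu.2)

lemma part1 (hD : D.Good) (h : Glued D M p ty) (m m' : M) (y : E3) (hy : y ∈ dom m m')
    (τ : E3 → E3) (hτ : ContinuousAt τ y) (e : τ y = trM m m' y)
    (hev : ∀ᶠ u in 𝓝 y, τ u ∈ D.Y (ty m') ∧ D.P (ty m') (τ u) = D.P (ty m) u) :
    trM m m' =ᶠ[𝓝 y] τ := by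
  obtain ⟨V, hV, hinj⟩ := hD.locinj (ty m') _ (tr_mem h hy)
  have h1 : ∀ᶠ u in 𝓝 y, trM m m' u ∈ V := (tr_cont hy).eventually hV
  have h2 : ∀ᶠ u in 𝓝 y, τ u ∈ V := hτ.eventually (show V ∈ 𝓝 (τ y) from e ▸ hV)
  filter_upwards [h1, h2, hev, (dom_open m m').mem_nhds hy] with u a b c d
  exact hinj ⟨a, tr_mem h d⟩ ⟨b, c.1⟩ ((tr_nf h d).trans c.2.symm)

end GlueTr

open GlueTr in
theorem glueTr : GlueTrS := by
  intro A D hD M _ _ p ty h
  refine ⟨part1 hD h, fun m m' y hy => ?_, fun Z _ f hf hc => ?_⟩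
  · obtain ⟨τ, V, hV, hyV, -, hsm, hmap, e, hu⟩ :=
      hD.tr (ty m) (ty m') y (h.target_sub m hy.1) _ (tr_mem h hy) (tr_nf h hy).symm
    have hev := part1 hD h m m' y hy τ (hsm.continuousOn.continuousAt (hV.mem_nhds hyV)) e
      (Filter.Eventually.mono (hV.mem_nhds hyV) fun u hu' => ⟨hmap hu', (hu u hu').1⟩)
    obtain ⟨W, hW, hWo, hyW⟩ := eventually_nhds_iff.1 hev
    refine ⟨τ, W ∩ V ∩ dom m m', (hWo.inter hV).inter (dom_open m m'), ⟨⟨hyW, hyV⟩, hy⟩,
      inter_subset_right, hsm.mono fun u hu' => hu'.1.2, fun u hu' => hW u hu'.1.1,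
      fun u hu' => (hu u hu'.1.2).2⟩
  · have key : ∀ i, ∀ y ∈ D.Y i, f (ty (p i y)) (ch (p i y) (p i y)) = f i y := by
      intro i y hy
      have ht : ch (p i y) (p i y) ∈ (ch (p i y)).target := mem_chart_target E3 (p i y)
      refine hc _ _ _ (h.target_sub _ ht) _ hy ((h.eq_iff _ _ _ (h.target_sub _ ht) _ hy).1 ?_)
      rw [← h.symm_eq _ _ ht]
      exact (ch (p i y)).left_inv (mem_chart_source E3 (p i y))
    refine ⟨fun m => f (ty m) (ch m m), continuous_def.2 fun W hW => h.isOpen_of _ fun i => ?_, key⟩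
    have : D.Y i ∩ p i ⁻¹' ((fun m => f (ty m) (ch m m)) ⁻¹' W) = D.Y i ∩ f i ⁻¹' W := by
      ext y
      constructor
      · rintro ⟨a, b⟩
        exact ⟨a, by have := key i y a; simp only [mem_preimage] at b ⊢; rwa [this] at b⟩
      · rintro ⟨a, b⟩
        exact ⟨a, by have := key i y a; simp only [mem_preimage] at b ⊢; rwa [this]⟩
    rw [this]
    exact (hf i).isOpen_inter_preimage (hD.riem i).1 hW

end Crest.Agent.R244
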