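import Crest.Agent.R244.Defs2
set_option autoImplicit false
open scoped ContDiff Manifold Topology
open Bundle Set Filter
open Crest.GeometryTopology.Geodesic Crest.GeometryTopology.CoordMetric
  Crest.GeometryTopology.ChartCurvature

noncomputable section
namespace Crest.Agent.R244

namespace GoodP

theorem tr_transl {A : Type} (D : Glue A) (i : Fin 3) (hY : IsOpen (D.Y i)) (y y' : E3)
    (hy : y ∈ D.Y i) (h1 : ∀ u ∈ D.Y i, u + (y' - y) ∈ D.Y i)
    (h2 : ∀ u ∈ D.Y i, D.P i (u + (y' - y)) = D.P i u)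
    (h3 : ∀ u ∈ D.Y i, D.G i (u + (y' - y)) = D.G i u) : D.Tr i i y y' := by
  have hd : ∀ u : E3, fderiv ℝ (fun u : E3 => u + (y' - y)) u = ContinuousLinearMap.id ℝ E3 :=
    fun u => ((hasFDerivAt_id u).add_const (y' - y)).fderiv
  refine ⟨fun u => u + (y' - y), D.Y i, hY, hy, subset_rfl, (contDiff_id.add contDiff_const).contDiffOn,
    h1, by simp, fun u hu => ⟨h2 u hu, ?_, fun a b => ?_⟩⟩
  · rw [hd]; simp
  · rw [hd, ipL_apply, ipL_apply, h3 u hu]; rfl

theorem riem_const (U : Set E3) (hU : IsOpen U) (a b c : ℝ) (ha : 0 < a) (hb : 0 < b)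
    (hc : 0 < c) : IsRiemannianOn (fun _ : E3 => Matrix.diagonal ![a, b, c]) U := by
  refine ⟨hU, fun i j => contDiffOn_const, fun x _ => Matrix.PosDef.diagonal fun i => ?_⟩
  fin_cases i <;> simpa

theorem coord_lt {y u v : E3} {r : ℝ} (hu : u ∈ Metric.ball y r) (hv : v ∈ Metric.ball y r)
    (i : Fin 3) : |v i - u i| < 2 * r := by
  have h1 : dist v u < 2 * r := by
    have := dist_triangle_right v u y
    rw [Metric.mem_ball] at hu hv
    linarith
  have h2 : dist (v i) (u i) ≤ dist v u := PiLp.dist_apply_le v u i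
  rw [Real.dist_eq] at h2
  linarith

theorem int_zero {a b c : ℝ} {k : ℤ} (hc : 0 < c) (h : b = a + c * k) (hlt : |b - a| < c) :
    b = a := by
  have h1 : |(k : ℝ)| < 1 := by
    rw [h, add_sub_cancel_left, abs_mul, abs_of_pos hc] at hlt
    nlinarith
  have h2 : k = 0 := by
    have : |k| < 1 := by exact_mod_cast h1
    exact Int.abs_lt_one_iff.1 this
  rw [h, h2]; simp

theorem inj_p {P : Prof} (pf : PFacts P) (i : Fin 3) (y : E3) (S : Set E3) :
    InjOn (PP i) (Metric.ball y (1 / 2) ∩ S) := by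
  intro u hu v hv h
  have hz := (pf.pp i u v).1 h
  ext j
  obtain ⟨k, hk⟩ := hz j
  have := coord_lt hu.1 hv.1 j
  exact (int_zero (c := 1) (k := k) one_pos (by rw [hk, one_mul]) (by linarith)).symm

theorem tr_p {P : Prof} (pf : PFacts P) (i : Fin 3) (hY : P.glue.Y i = Yp)
    (hP : P.glue.P i = PP i) (hG : ∀ u v, P.glue.G i u = P.glue.G i v) (y y' : E3)
    (hy : y ∈ P.glue.Y i) (h : PP i y = PP i y') : P.glue.Tr i i y y' := by
  have hz := (pf.pp i y y').1 h
  have hz' : ∀ u : E3, ZEq u (u + (y' - y)) := by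
    intro u j
    obtain ⟨k, hk⟩ := hz j
    exact ⟨k, by simp [hk]⟩
  refine tr_transl _ i (hY ▸ pf.open_p) y y' hy (fun u hu => ?_) (fun u _ => ?_) (fun u _ => hG _ _)
  · rw [hY] at hu ⊢
    obtain ⟨k0, h0⟩ := hz' u 0
    obtain ⟨k1, h1⟩ := hz' u 1
    show 1 / 64 < dz ((u + (y' - y)) 0) ^ 2 + dz ((u + (y' - y)) 1) ^ 2
    rw [h0, h1, pf.dz_int, pf.dz_int]
    exact hu
  · rw [hP]; exact ((pf.pp i _ _).2 (hz' u)).symm

end GoodP

/-- Row 244, task Good: the concrete gluing data are good. -/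
theorem good (hPF : PFactsS) (hN : NeckMetS) (hPol : PolTrS) (hS : TrSymmS) : GoodS := by
  intro P hok
  have pf := hPF P hok
  have nm := hN P hok
  have hR1 := hok.phi.R_pos
  have hR2 := hok.R₂_pos
  have hT := hok.T_pos
  have hfi := hok.phi.fi_pos
  have hpi := Real.pi_pos
  have hL1 : 0 < P.L₁ := by unfold Prof.L₁; positivity
  have hL2 : 0 < P.L₂ := by unfold Prof.L₂; positivity
  refine ⟨⟨0, ?_⟩, fun i => ?_, fun i y hy => ?_, fun i j y hy y' hy' h => ?_⟩
  · show -1 - (P.R₁ + 1) < (0 : E3) 0 ∧ (0 : E3) 0 < 3 / 2 + (P.R₂ + 3 / 2)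
    constructor <;> simp <;> linarith
  · fin_cases i
    · exact GoodP.riem_const Yp pf.open_p _ _ _ (by positivity) (by positivity) (by positivity)
    · exact ⟨pf.open_N, fun i j => (nm.riem.contDiffOn i j).mono (subset_univ _),
        fun x _ => nm.riem.posDef x (mem_univ _)⟩
    · exact GoodP.riem_const Yp pf.open_p _ _ _ (by positivity) (by positivity) (by positivity)
  · fin_cases i
    · exact ⟨_, Metric.ball_mem_nhds y (by norm_num), GoodP.inj_p pf 0 y _⟩
    · refine ⟨Metric.ball y (min Real.pi (Real.pi * P.T)),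
        Metric.ball_mem_nhds y (by positivity), fun u hu v hv h => ?_⟩
      obtain ⟨h0, ⟨k1, h1⟩, ⟨k2, h2⟩⟩ := (pf.nn u hu.2 v hv.2).1 h
      have c1 := GoodP.coord_lt hu.1 hv.1 1
      have c2 := GoodP.coord_lt hu.1 hv.1 2
      have m1 := min_le_left Real.pi (Real.pi * P.T)
      have m2 := min_le_right Real.pi (Real.pi * P.T)
      have e1 := GoodP.int_zero (by positivity) h1 (by linarith)
      have e2 := GoodP.int_zero (by positivity) h2 (by linarith)
      ext j
      fin_cases j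
      · exact h0.symm
      · exact e1.symm
      · exact e2.symm
    · exact ⟨_, Metric.ball_mem_nhds y (by norm_num), GoodP.inj_p pf 2 y _⟩
  · fin_cases i <;> fin_cases j
    · exact GoodP.tr_p pf 0 rfl rfl (fun _ _ => rfl) y y' hy h
    · exact hS _ P.glue 1 0 y' y pf.open_p ((hPol P hok).1 y' hy' y hy h.symm)
    · exact absurd (congrArg Prod.fst h) (by show (0 : Fin 3) ≠ 2; decide)
    · exact (hPol P hok).1 y hy y' hy' h
    · obtain ⟨h0, ⟨k1, h1⟩, ⟨k2, h2⟩⟩ := (pf.nn y hy y' hy').1 h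
      have e0 : ∀ u : E3, (u + (y' - y)) 0 = u 0 := fun u => by simp [h0]
      have hm : ∀ u ∈ P.YN, u + (y' - y) ∈ P.YN := fun u hu => by
        show _ < (u + (y' - y)) 0 ∧ (u + (y' - y)) 0 < _
        rw [e0]; exact hu
      refine GoodP.tr_transl P.glue 1 pf.open_N y y' hy hm (fun u hu => ?_) (fun u _ => ?_)
      · exact ((pf.nn u hu _ (hm u hu)).2 ⟨e0 u, ⟨k1, by simp [h1]⟩, ⟨k2, by simp [h2]⟩⟩).symm
      · show P.GN (u + (y' - y)) = P.GN u
        unfold Prof.GN
        rw [e0]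
    · exact (hPol P hok).2 y hy y' hy' h
    · exact absurd (congrArg Prod.fst h) (by show (2 : Fin 3) ≠ 0; decide)
    · exact hS _ P.glue 1 2 y' y pf.open_p ((hPol P hok).2 y' hy' y hy h.symm)
    · exact GoodP.tr_p pf 2 rfl rfl (fun _ _ => rfl) y y' hy h

end Crest.Agent.R244
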