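import Crest.Agent.R244.Defs2
/-! Row 244, Haus: the glued manifold is Hausdorff. -/
set_option autoImplicit false
open scoped ContDiff Topology
open Set Filter

noncomputable section
namespace Crest.Agent.R244

namespace Haus

def rad (y : E3) : ℝ := √(dz (y 0) ^ 2 + dz (y 1) ^ 2)

theorem rad_gt {y : E3} (hy : y ∈ Yp) : 1 / 8 < rad y := by
  unfold rad
  rw [Real.lt_sqrt (by norm_num)]
  have : (1 : ℝ) / 64 < dz (y 0) ^ 2 + dz (y 1) ^ 2 := hy
  linarith

theorem dz_zero {x : ℝ} (h : dz x = 0) : ∃ k : ℤ, x = k :=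
  ⟨round x, sub_eq_zero.1 (abs_eq_zero.1 h)⟩

theorem sep {A : Type} {D : Glue A} (hD : D.Good) {M : Type} [TopologicalSpace M]
    [ChartedSpace E3 M] {p : Fin 3 → E3 → M} {ty : M → Fin 3} (hG : Glued D M p ty) (i : Fin 3)
    (R : Set (E3 × E3)) (hR : IsClosed R)
    (h1 : ∀ v ∈ D.Y i, ∀ v' ∈ D.Y i, (D.P i v = D.P i v' ↔ (v, v') ∈ R))
    {u u' : E3} (hu : u ∈ D.Y i) (hu' : u' ∈ D.Y i) (hne : p i u ≠ p i u') :
    ∃ U U' : Set M, IsOpen U ∧ IsOpen U' ∧ p i u ∈ U ∧ p i u' ∈ U' ∧ Disjoint U U' := by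
  have hn : (u, u') ∈ Rᶜ := fun h => hne ((hG.eq_iff i i u hu u' hu').2 ((h1 u hu u' hu').2 h))
  obtain ⟨V, V', hV, hV', huV, huV', hsub⟩ := isOpen_prod_iff.1 hR.isOpen_compl u u' hn
  have hY := (hD.riem i).isOpen
  refine ⟨p i '' (V ∩ D.Y i), p i '' (V' ∩ D.Y i), hG.open_map i _ (hV.inter hY) inter_subset_right,
    hG.open_map i _ (hV'.inter hY) inter_subset_right, ⟨u, ⟨huV, hu⟩, rfl⟩, ⟨u', ⟨huV', hu'⟩, rfl⟩,
    Set.disjoint_left.2 ?_⟩
  rintro m ⟨v, hv, rfl⟩ ⟨v', hv', e⟩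
  exact hsub (mk_mem_prod hv.1 hv'.1)
    ((h1 v hv.2 v' hv'.2).1 ((hG.eq_iff i i v hv.2 v' hv'.2).1 e.symm))

end Haus

open Haus in
theorem haus (hPF : PFactsS) (hGood : GoodS) (hTr : GlueTrS) : HausS := by
  intro P hP M _ _ p ty hG
  have hf := hPF P hP
  have hD := hGood P hP
  have hT := hP.T_pos
  have hpi := Real.pi_pos
  have hR1 := hP.phi.R_pos
  have hR2 := hP.R₂_pos
  have hdz := hf.dz_cont
  have crad : Continuous rad := by unfold rad; fun_prop
  have hradz : ∀ y y', ZEq y y' → rad y' = rad y := by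
    intro y y' hz
    obtain ⟨k, hk⟩ := hz 0
    obtain ⟨m, hm⟩ := hz 1
    unfold rad
    rw [hk, hm, hf.dz_int, hf.dz_int]
  have h10 : ∀ y ∈ P.YN, ∀ y', P.PN y = PP 0 y' → y 0 = P.R₁ - P.L₁ * rad y' := by
    intro y hy y' h
    obtain ⟨a, hz⟩ := (hf.n1 _ _).1 h
    obtain ⟨b1, -, -, b2⟩ := hf.rad₁ y hy a
    rw [hradz _ _ hz]
    unfold rad
    rw [b2, Real.sqrt_sq (by linarith)]
    unfold Prof.r₁ Prof.L₁
    field_simp; ring
  have h12 : ∀ y ∈ P.YN, ∀ y', P.PN y = PP 2 y' → y 0 = P.L₂ * rad y' - P.R₂ := by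
    intro y hy y' h
    obtain ⟨a, hz⟩ := (hf.n2 _ _).1 h
    obtain ⟨b1, -, -, b2⟩ := hf.rad₂ y hy a
    rw [hradz _ _ hz]
    unfold rad
    rw [b2, Real.sqrt_sq (by linarith)]
    have : P.L₂ ≠ 0 := by unfold Prof.L₂; positivity
    unfold Prof.r₂
    field_simp; ring
  have h02 : ∀ y y', PP 0 y ≠ PP 2 y' := fun y y' h =>
    absurd (congrArg Prod.fst h) (by simp only [PP]; decide)
  obtain ⟨H, cH, hH⟩ := (hTr _ P.glue hD M p ty hG).2.2 ℝ
    ![fun y => P.R₁ - P.L₁ * rad y, fun y => y 0, fun y => P.L₂ * rad y - P.R₂]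
    (fun i => by
      fin_cases i
      · exact Continuous.continuousOn (f := fun y => P.R₁ - P.L₁ * rad y) (by fun_prop)
      · exact Continuous.continuousOn (f := fun y : E3 => y 0) (by fun_prop)
      · exact Continuous.continuousOn (f := fun y => P.L₂ * rad y - P.R₂) (by fun_prop))
    (fun i j y hy y' hy' h => by
      fin_cases i <;> fin_cases j
      · show P.R₁ - P.L₁ * rad y = P.R₁ - P.L₁ * rad y'
        rw [hradz _ _ ((hf.pp 0 y y').1 h)]
      · exact (h10 y' hy' y h.symm).symm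
      · exact absurd h (h02 _ _)
      · exact h10 y hy y' h
      · exact ((hf.nn y hy y' hy').1 h).1.symm
      · exact h12 y hy y' h
      · exact absurd h.symm (h02 _ _)
      · exact (h12 y' hy' y h.symm).symm
      · show P.L₂ * rad y - P.R₂ = P.L₂ * rad y' - P.R₂
        rw [hradz _ _ ((hf.pp 2 y y').1 h)])
  have H0 : ∀ y ∈ Yp, H (p 0 y) < -1 := by
    intro y hy
    have e : H (p 0 y) = P.R₁ - P.L₁ * rad y := hH 0 y hy
    have := rad_gt hy
    rw [e]; unfold Prof.L₁; nlinarith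
  have H2 : ∀ y ∈ Yp, 3 / 2 < H (p 2 y) := by
    intro y hy
    have e : H (p 2 y) = P.L₂ * rad y - P.R₂ := hH 2 y hy
    have := rad_gt hy
    rw [e]; unfold Prof.L₂; nlinarith
  have H1 : ∀ y ∈ P.YN, H (p 1 y) = y 0 := fun y hy => hH 1 y hy
  have zr : ∀ y : E3, ZEq y y := fun y _ => ⟨0, by simp⟩
  have c0 : ∀ m, H m < -1 → ∃ y ∈ Yp, p 0 y = m := by
    intro m hm
    obtain ⟨i, y, hy, rfl⟩ := hG.surj m
    fin_cases i
    · exact ⟨y, hy, rfl⟩
    · have a : y 0 < -1 := H1 y hy ▸ hm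
      have b := (hf.rad₁ y hy a).2.2.1
      exact ⟨_, b, ((hG.eq_iff 1 0 y hy _ b).2 ((hf.n1 _ _).2 ⟨a, zr _⟩)).symm⟩
    · have := H2 y hy
      have hm' : H (p 2 y) < -1 := hm
      linarith
  have c2 : ∀ m, 3 / 2 < H m → ∃ y ∈ Yp, p 2 y = m := by
    intro m hm
    obtain ⟨i, y, hy, rfl⟩ := hG.surj m
    fin_cases i
    · have := H0 y hy
      have hm' : 3 / 2 < H (p 0 y) := hm
      linarith
    · have a : 3 / 2 < y 0 := H1 y hy ▸ hm
      have b := (hf.rad₂ y hy a).2.2.1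
      exact ⟨_, b, ((hG.eq_iff 1 2 y hy _ b).2 ((hf.n2 _ _).2 ⟨a, zr _⟩)).symm⟩
    · exact ⟨y, hy, rfl⟩
  have c1 : ∀ m, ¬ H m < -1 → ¬ 3 / 2 < H m → ∃ y ∈ P.YN, p 1 y = m := by
    intro m hm hm'
    obtain ⟨i, y, hy, rfl⟩ := hG.surj m
    fin_cases i
    · exact absurd (H0 y hy) hm
    · exact ⟨y, hy, rfl⟩
    · exact absurd (H2 y hy) hm'
  have dzi : ∀ k : ℤ, dz k = 0 := fun k => by simp [dz]
  have hZ : ∀ v v' : E3, ZEq v v' ↔ (v, v') ∈ {w : E3 × E3 | ∀ j, dz (w.2 j - w.1 j) = 0} := by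
    intro v v'
    refine forall_congr' fun j => ⟨?_, fun h => ?_⟩
    · rintro ⟨k, hk⟩
      show dz (v' j - v j) = 0
      rw [hk, add_sub_cancel_left, dzi]
    · obtain ⟨k, hk⟩ := dz_zero h
      exact ⟨k, by simp only at hk; linarith⟩
  have hZc : IsClosed {w : E3 × E3 | ∀ j, dz (w.2 j - w.1 j) = 0} := by
    simp only [setOf_forall]
    exact isClosed_iInter fun j => isClosed_eq (by fun_prop) continuous_const
  refine ⟨fun m m' hne => ?_⟩
  by_cases hHm : H m = H m'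
  · by_cases a0 : H m < -1
    · obtain ⟨y, hy, rfl⟩ := c0 m a0
      obtain ⟨y', hy', rfl⟩ := c0 m' (hHm ▸ a0)
      exact sep hD hG 0 _ hZc (fun v _ v' _ => (hf.pp 0 v v').trans (hZ v v')) hy hy' hne
    · by_cases a2 : 3 / 2 < H m
      · obtain ⟨y, hy, rfl⟩ := c2 m a2
        obtain ⟨y', hy', rfl⟩ := c2 m' (hHm ▸ a2)
        exact sep hD hG 2 _ hZc (fun v _ v' _ => (hf.pp 2 v v').trans (hZ v v')) hy hy' hne
      · obtain ⟨y, hy, rfl⟩ := c1 m a0 a2
        obtain ⟨y', hy', rfl⟩ := c1 m' (hHm ▸ a0) (hHm ▸ a2)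
        refine sep hD hG 1 {w : E3 × E3 | w.2 0 = w.1 0 ∧ dz ((w.2 1 - w.1 1) / (2 * Real.pi)) = 0 ∧
          dz ((w.2 2 - w.1 2) / (2 * Real.pi * P.T)) = 0} ?_ (fun v hv v' hv' =>
            (hf.nn v hv v' hv').trans (and_congr Iff.rfl (and_congr ?_ ?_))) hy hy' hne
        · exact (isClosed_eq (by fun_prop) (by fun_prop)).inter
            ((isClosed_eq (f := fun w : E3 × E3 => dz ((w.2 1 - w.1 1) / (2 * Real.pi)))
              (by fun_prop) continuous_const).inter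
            (isClosed_eq (f := fun w : E3 × E3 => dz ((w.2 2 - w.1 2) / (2 * Real.pi * P.T)))
              (by fun_prop) continuous_const))
        · constructor
          · rintro ⟨k, hk⟩
            show dz ((v' 1 - v 1) / (2 * Real.pi)) = 0
            rw [hk, add_sub_cancel_left, mul_div_cancel_left₀ _ (by positivity), dzi]
          · intro h
            obtain ⟨k, hk⟩ := dz_zero h
            simp only at hk
            rw [div_eq_iff (by positivity)] at hk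
            exact ⟨k, by linarith⟩
        · constructor
          · rintro ⟨k, hk⟩
            show dz ((v' 2 - v 2) / (2 * Real.pi * P.T)) = 0
            rw [hk, add_sub_cancel_left, mul_div_cancel_left₀ _ (by positivity), dzi]
          · intro h
            obtain ⟨k, hk⟩ := dz_zero h
            simp only at hk
            rw [div_eq_iff (by positivity)] at hk
            exact ⟨k, by linarith⟩
  · exact separated_by_continuous cH hHm

end Crest.Agent.R244
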