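import Crest.Agent.R244.Defs2
/-! Row 244, task Iface: the glued manifold has a neck interface. -/
set_option autoImplicit false
open scoped ContDiff Manifold Topology
open Bundle Set Filter
open Crest.GeometryTopology.Geodesic Crest.GeometryTopology.CoordMetric
  Crest.GeometryTopology.ChartCurvature

noncomputable section
namespace Crest.Agent.R244

theorem iface (hF : PFactsS) (hG : GoodS) (hT : GlueTrS) : IfaceS := by
  intro P hP M _ _ _ _ p ty gl g hg
  have pf := hF P hP
  have good := hG P hP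
  have tr := (hT NF P.glue good M p ty gl).1
  have hY1 : P.glue.Y 1 = P.YN := rfl
  have hP1 : P.glue.P 1 = P.PN := rfl
  have rep : ∀ m x : M, ty m = 1 → x ∈ (ch m).source → ch m x ∈ P.YN ∧ p 1 (ch m x) = x := by
    intro m x hm hx
    have h1 := gl.target_sub m ((ch m).map_source hx)
    have h2 := gl.symm_eq m _ ((ch m).map_source hx)
    rw [hm] at h1 h2
    rw [(ch m).left_inv hx] at h2
    exact ⟨h1, h2.symm⟩
  have hopen : IsOpen (p 1 '' P.YN) := gl.open_map 1 _ pf.open_N subset_rfl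
  have hsub : ∀ x ∈ p 1 '' P.YN, ty x = 1 := by
    rintro _ ⟨y, hy, rfl⟩
    exact gl.pref y hy
  refine ⟨fun m hm => ?_, fun m hm => ?_, fun m hm y hy => ?_, fun m hm => ?_⟩
  · have hm : ty m = 1 := hm
    obtain ⟨h1, h2⟩ := rep m m hm (mem_chart_source E3 m)
    filter_upwards [hopen.mem_nhds ⟨_, h1, h2⟩,
      (ch m).open_source.mem_nhds (mem_chart_source E3 m)] with m' hm1 hm2
    have hm' : ty m' = 1 := hsub m' hm1
    refine ⟨hm', ch m' m' - ch m m', ?_⟩
    obtain ⟨h3, h4⟩ := rep m m' hm hm2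
    obtain ⟨h5, h6⟩ := rep m' m' hm' (mem_chart_source E3 m')
    have h7 : P.PN (ch m m') = P.PN (ch m' m') :=
      (gl.eq_iff 1 1 _ h3 _ h5).1 (h4.trans h6.symm)
    obtain ⟨e0, ⟨k1, e1⟩, k2, e2⟩ := (pf.nn _ h3 _ h5).1 h7
    refine ⟨by simp [e0], ?_⟩
    have hdom : ch m m' ∈ dom m m' := by
      refine ⟨(ch m).map_source hm2, ?_⟩
      change (ch m).symm (ch m m') ∈ (ch m').source
      rw [(ch m).left_inv hm2]
      exact mem_chart_source E3 m'
    have h8 := tr m m' _ hdom (fun u => u + (ch m' m' - ch m m')) (by fun_prop)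
      (by simp only [trM]; rw [(ch m).left_inv hm2]; abel) (by
        rw [hm, hm', hY1, hP1]
        filter_upwards [pf.open_N.mem_nhds h3] with u hu
        have hu' : u + (ch m' m' - ch m m') ∈ P.YN := by
          have : (u + (ch m' m' - ch m m')) 0 = u 0 := by simp [e0]
          simp only [Prof.YN, mem_ofPred_eq, this]
          exact hu
        refine ⟨hu', ((pf.nn _ hu _ hu').2 ⟨by simp [e0], ⟨k1, ?_⟩, k2, ?_⟩).symm⟩
        · simp [e1]
        · simp [e2])
    have h9 := ((ch m).continuousAt hm2).eventually h8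
    filter_upwards [h9, (ch m).open_source.mem_nhds hm2] with x hx1 hx2
    simp only [trM] at hx1
    rwa [(ch m).left_inv hx2] at hx1
  · have hπ : (0 : ℝ) < 2 * Real.pi := by positivity
    have hπT : (0 : ℝ) < 2 * Real.pi * P.T := mul_pos hπ hP.T_pos
    have hR1 := hP.phi.R_pos
    have hR2 := hP.R₂_pos
    set e : ℝ × ℝ × ℝ → E3 := fun q => !₂[q.1, q.2.1, q.2.2] with he
    have hec : Continuous e :=
      (PiLp.continuous_toLp 2 _).comp (continuous_pi fun i => by
        fin_cases i <;> simp <;> fun_prop)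
    set Bx : Set (ℝ × ℝ × ℝ) :=
      Icc 0 (1 / 2) ×ˢ Icc 0 (2 * Real.pi) ×ˢ Icc 0 (2 * Real.pi * P.T) with hBx
    have hmap : ∀ q ∈ Bx, e q ∈ P.YN := fun q hq => by
      have h1 := hq.1.1
      have h2 := hq.1.2
      have : e q 0 = q.1 := by simp [he]
      simp only [Prof.YN, mem_ofPred_eq, this]
      constructor <;> linarith
    have hK : IsCompact ((fun q => p 1 (e q)) '' Bx) :=
      (isCompact_Icc.prod (isCompact_Icc.prod isCompact_Icc)).image_of_continuousOn
        ((gl.cont 1).comp hec.continuousOn hmap)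
    have hmK : m ∉ (fun q => p 1 (e q)) '' Bx := by
      rintro ⟨q, hq, rfl⟩
      exact hm (gl.pref _ (hmap q hq))
    filter_upwards [hK.isClosed.isOpen_compl.mem_nhds hmK] with m' hm'
    rintro ⟨h1, h2, h3⟩
    obtain ⟨h5, h6⟩ := rep m' m' h1 (mem_chart_source E3 m')
    set y := ch m' m' with hy
    have red : ∀ (x L : ℝ), 0 < L → x - L * ⌊x / L⌋ ∈ Icc 0 L := fun x L hL => by
      have a1 := Int.floor_le (x / L)
      have a2 := Int.lt_floor_add_one (x / L)
      rw [le_div_iff₀ hL] at a1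
      rw [div_lt_iff₀ hL] at a2
      constructor <;> nlinarith
    have hq : (y 0, y 1 - 2 * Real.pi * ⌊y 1 / (2 * Real.pi)⌋,
        y 2 - 2 * Real.pi * P.T * ⌊y 2 / (2 * Real.pi * P.T)⌋) ∈ Bx :=
      ⟨⟨h2.le, h3.le⟩, red _ _ hπ, red _ _ hπT⟩
    refine hm' ⟨_, hq, ?_⟩
    rw [← h6]
    refine (gl.eq_iff 1 1 _ (hmap _ hq) _ h5).2 ((pf.nn _ (hmap _ hq) _ h5).2
      ⟨by simp [he], ⟨⌊y 1 / (2 * Real.pi)⌋, by simp [he]⟩,
        ⌊y 2 / (2 * Real.pi * P.T)⌋, by simp [he]⟩)
  · have hm : ty m = 1 := hm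
    rw [hg m y hy, hm]
    rfl
  · have hm : ty m ≠ 1 := hm
    have h02 : ty m = 0 ∨ ty m = 2 := by omega
    rcases h02 with h | h
    · exact ⟨_, fun y hy => by rw [hg m y hy, h]; rfl⟩
    · exact ⟨_, fun y hy => by rw [hg m y hy, h]; rfl⟩

end Crest.Agent.R244
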