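import Crest.Agent.R244.Defs2
/-! Row 244, JacUnique: a Jacobi field with zero initial data vanishes. -/
set_option autoImplicit false
set_option maxSynthPendingDepth 3
open scoped ContDiff Topology
open Set Filter

noncomputable section
namespace Crest.Agent.R244

namespace JacUnique

theorem zero_of_bound {F : Type} [NormedAddCommGroup F] [NormedSpace ℝ F] {Y Y' : ℝ → F}
    {a b C s₀ : ℝ} (hd : ∀ s ∈ Icc a b, HasDerivAt Y (Y' s) s)
    (hb : ∀ s ∈ Icc a b, ‖Y' s‖ ≤ C * ‖Y s‖) (hs : s₀ ∈ Icc a b) (h0 : Y s₀ = 0) :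
    ∀ s ∈ Icc a b, Y s = 0 := by
  intro s hs'
  rcases le_total s₀ s with h | h
  · have sub : ∀ r ∈ Icc s₀ b, r ∈ Icc a b := fun r hr => ⟨hs.1.trans hr.1, hr.2⟩
    exact eq_zero_of_abs_deriv_le_mul_abs_self_of_eq_zero_right (f := Y) (f' := Y') (K := C)
      (fun r hr => (hd r (sub r hr)).continuousAt.continuousWithinAt)
      (fun r hr => (hd r (sub r (Ico_subset_Icc_self hr))).hasDerivWithinAt) h0
      (fun r hr => hb r (sub r (Ico_subset_Icc_self hr))) s ⟨h, hs'.2⟩
  · have sub : ∀ r ∈ Icc (-s₀) (-a), -r ∈ Icc a b := fun r hr =>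
      ⟨by linarith [hr.2], by linarith [hr.1, hs.2]⟩
    have hd' : ∀ r ∈ Icc (-s₀) (-a), HasDerivAt (fun u => Y (-u)) (-Y' (-r)) r := by
      intro r hr
      have h2 := (hd (-r) (sub r hr)).scomp r (hasDerivAt_neg r)
      rw [neg_one_smul] at h2
      exact h2
    have := eq_zero_of_abs_deriv_le_mul_abs_self_of_eq_zero_right (f := fun u => Y (-u))
      (f' := fun r => -Y' (-r)) (K := C)
      (fun r hr => (hd' r hr).continuousAt.continuousWithinAt)
      (fun r hr => (hd' r (Ico_subset_Icc_self hr)).hasDerivWithinAt) (by simpa using h0)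
      (fun r hr => by rw [norm_neg]; exact hb _ (sub r (Ico_subset_Icc_self hr))) (-s)
      ⟨by linarith, by linarith [hs'.1]⟩
    simpa using this

theorem cd_deriv {c : ℝ → E3} {t : ℝ} (h : ContDiffAt ℝ 2 c t) : ContDiffAt ℝ 1 (deriv c) t := by
  have h1 : ContDiffAt ℝ 1 (fderiv ℝ c) t := h.fderiv_right (by norm_num)
  exact h1.clm_apply contDiffAt_const

end JacUnique

open JacUnique in
theorem jacUnique (hGB : GamBasicS) (hLin : LinGeoS) (hCh : ChartFactsS) : JacUniqueS := by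
  intro M _ _ _ g γ J hGJ a hJa hda
  have hC := hCh M g
  have hloc : ∀ t₀ : ℝ, ∃ ε > 0, ∀ s₀ ∈ Icc (t₀ - ε) (t₀ + ε), J s₀ = 0 →
      deriv (fun s => TT (γ t₀) (γ s) (J s)) s₀ = 0 → ∀ s ∈ Icc (t₀ - ε) (t₀ + ε), J s = 0 := by
    intro t₀
    set z := γ t₀ with hz
    have h1 : ∀ᶠ s in 𝓝 t₀, γ s ∈ (ch z).source :=
      hGJ.cont.continuousAt.eventually ((ch z).open_source.mem_nhds (mem_chart_source E3 z))
    obtain ⟨ε, hε, hball⟩ := Metric.nhds_basis_closedBall.eventually_iff.1 h1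
    rw [Real.closedBall_eq_Icc] at hball
    refine ⟨ε, hε, fun s₀ hs₀ hJ0 hd0 => ?_⟩
    set c : ℝ → E3 := fun s => ch z (γ s) with hc
    set K : ℝ → E3 := fun s => TT z (γ s) (J s) with hK
    have hG := hGB _ _ (hC.riem z)
    have htar : ∀ s ∈ Icc (t₀ - ε) (t₀ + ε), c s ∈ (ch z).target := fun s hs =>
      (ch z).map_source (hball hs)
    have hGam : ∀ s ∈ Icc (t₀ - ε) (t₀ + ε), ContDiffAt ℝ ∞ (Gam (mic g z)) (c s) := fun s hs =>
      hG.gam_smooth.contDiffAt ((ch z).open_target.mem_nhds (htar s hs))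
    have hcont : ContinuousOn (fun s => 1 + ‖fderiv ℝ (Gam (mic g z)) (c s)‖ * ‖deriv c s‖ * ‖deriv c s‖
        + 2 * (‖Gam (mic g z) (c s)‖ * ‖deriv c s‖)) (Icc (t₀ - ε) (t₀ + ε)) := by
      intro s hs
      have c0 : ContinuousAt c s := (hGJ.smooth_c z s (hball hs)).continuousAt
      have c1 : ContinuousAt (deriv c) s := (cd_deriv (hGJ.smooth_c z s (hball hs))).continuousAt
      have c2 : ContinuousAt (fun s => Gam (mic g z) (c s)) s := (hGam s hs).continuousAt.comp c0
      have c3 : ContinuousAt (fun s => fderiv ℝ (Gam (mic g z)) (c s)) s :=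
        ((hGam s hs).fderiv_right (m := 0) (by simp)).continuousAt.comp c0
      exact ((continuousAt_const.add ((c3.norm.mul c1.norm).mul c1.norm)).add
        (continuousAt_const.mul (c2.norm.mul c1.norm))).continuousWithinAt
    obtain ⟨C, hCb⟩ := isCompact_Icc.bddAbove_image hcont
    have hY := zero_of_bound (Y := fun s => (K s, deriv K s))
      (Y' := fun s => (deriv K s, deriv (deriv K) s)) (C := C)
      (fun s hs => by
        have h2 := hGJ.smooth_J z s (hball hs)
        exact (h2.differentiableAt (by norm_num)).hasDerivAt.prodMk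
          ((cd_deriv h2).differentiableAt one_ne_zero).hasDerivAt)
      (fun s hs => by
        have e := (hLin _ _ (hC.riem z) c K s (htar s hs) (hGJ.smooth_c z s (hball hs))
          (hGJ.smooth_J z s (hball hs)) (hGJ.geo z s (hball hs))).1 (hGJ.jac z s (hball hs))
        have e' : deriv (deriv K) s = -(fderiv ℝ (Gam (mic g z)) (c s) (K s) (deriv c s) (deriv c s))
            - (2 : ℝ) • Gam (mic g z) (c s) (deriv c s) (deriv K s) := by
          rw [← sub_eq_zero, ← e]; abel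
        have hle : 1 + ‖fderiv ℝ (Gam (mic g z)) (c s)‖ * ‖deriv c s‖ * ‖deriv c s‖
            + 2 * (‖Gam (mic g z) (c s)‖ * ‖deriv c s‖) ≤ C := hCb (mem_image_of_mem _ hs)
        have n1 : ‖K s‖ ≤ ‖(K s, deriv K s)‖ := norm_fst_le (K s, deriv K s)
        have n2 : ‖deriv K s‖ ≤ ‖(K s, deriv K s)‖ := norm_snd_le (K s, deriv K s)
        set N := ‖(K s, deriv K s)‖ with hN
        have hN0 : 0 ≤ N := norm_nonneg _
        have b1 : ‖fderiv ℝ (Gam (mic g z)) (c s) (K s) (deriv c s) (deriv c s)‖ ≤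
            ‖fderiv ℝ (Gam (mic g z)) (c s)‖ * ‖deriv c s‖ * ‖deriv c s‖ * N := by
          refine (ContinuousLinearMap.le_opNorm₂ _ _ _).trans ?_
          have := (fderiv ℝ (Gam (mic g z)) (c s)).le_opNorm (K s)
          calc _ ≤ (‖fderiv ℝ (Gam (mic g z)) (c s)‖ * N) * ‖deriv c s‖ * ‖deriv c s‖ := by
                gcongr
                exact this.trans (by gcongr)
            _ = _ := by ring
        have b2 : ‖Gam (mic g z) (c s) (deriv c s) (deriv K s)‖ ≤
            ‖Gam (mic g z) (c s)‖ * ‖deriv c s‖ * N :=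
          (ContinuousLinearMap.le_opNorm₂ _ _ _).trans (by gcongr)
        have p1 : 0 ≤ ‖fderiv ℝ (Gam (mic g z)) (c s)‖ * ‖deriv c s‖ * ‖deriv c s‖ := by positivity
        have p2 : 0 ≤ ‖Gam (mic g z) (c s)‖ * ‖deriv c s‖ := by positivity
        rw [Prod.norm_def]
        refine max_le ?_ ?_
        · show ‖deriv K s‖ ≤ C * N
          nlinarith
        · show ‖deriv (deriv K) s‖ ≤ C * N
          rw [e']
          refine (norm_sub_le _ _).trans ?_
          rw [norm_neg, norm_smul, Real.norm_ofNat]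
          nlinarith) hs₀ (by
        show (TT z (γ s₀) (J s₀), deriv K s₀) = 0
        rw [hJ0, map_zero, hd0]; rfl)
    intro s hs
    have h3 : TT z (γ s) (J s) = 0 := congrArg Prod.fst (hY s hs)
    have h4 := hC.tt_comp (γ s) z (γ s) (hball hs) (mem_chart_source E3 _) (J s)
    rw [h3, map_zero, hC.tt_self] at h4
    exact h4.symm
  have hS : IsClopen {t : ℝ | ∀ᶠ s in 𝓝 t, J s = 0} := by
    refine ⟨isClosed_of_closure_subset fun t₀ ht₀ => ?_, isOpen_setOf_eventually_nhds⟩
    obtain ⟨ε, hε, h⟩ := hloc t₀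
    have hI := Icc_mem_nhds (show t₀ - ε < t₀ by linarith) (show t₀ < t₀ + ε by linarith)
    obtain ⟨s₀, hs₀, hs₀'⟩ := mem_closure_iff_nhds.1 ht₀ _ hI
    have hev : ∀ᶠ s in 𝓝 s₀, J s = 0 := hs₀'
    have hK : (fun s => TT (γ t₀) (γ s) (J s)) =ᶠ[𝓝 s₀] fun _ => 0 := by
      filter_upwards [hev] with s hs
      rw [hs, map_zero]
    show ∀ᶠ s in 𝓝 t₀, J s = 0
    filter_upwards [hI] with s hs
    exact h s₀ hs₀ hev.self_of_nhds (by rw [hK.deriv_eq]; simp) s hs
  have hne : a ∈ {t : ℝ | ∀ᶠ s in 𝓝 t, J s = 0} := by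
    obtain ⟨ε, hε, h⟩ := hloc a
    filter_upwards [Icc_mem_nhds (show a - ε < a by linarith) (show a < a + ε by linarith)] with s hs
    exact h a ⟨by linarith, by linarith⟩ hJa hda s hs
  intro t
  have : t ∈ {t : ℝ | ∀ᶠ s in 𝓝 t, J s = 0} := by
    rw [hS.eq_univ ⟨a, hne⟩]; trivial
  exact Filter.Eventually.self_of_nhds (p := fun s => J s = 0) this

end Crest.Agent.R244
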