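import Crest.Agent.R244.Defs2
set_option autoImplicit false
open scoped ContDiff Manifold Topology
open Bundle Set Filter
open Crest.GeometryTopology.Geodesic Crest.GeometryTopology.CoordMetric
  Crest.GeometryTopology.ChartCurvature

noncomputable section
namespace Crest.Agent.R244

namespace LenOfCat

variable {G X : Type} [Group G] {act : G → X → X} {d : X → X → ℝ}

theorem quadr (h : CatAct G X act d) (x₁ x₂ x₃ x₄ : X) :
    d x₁ x₃ ^ 2 + d x₂ x₄ ^ 2 ≤ d x₁ x₂ ^ 2 + d x₂ x₃ ^ 2 + d x₃ x₄ ^ 2 + d x₁ x₄ ^ 2 := by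
  obtain ⟨m, hm⟩ := h.cn x₁ x₃
  have h2 := hm x₂
  have h4 := hm x₄
  have t := h.tri x₂ m x₄
  rw [h.comm m x₄] at t
  rw [h.comm x₂ x₁] at h2
  rw [h.comm x₄ x₁, h.comm x₄ x₃] at h4
  have t2 : d x₂ x₄ ^ 2 ≤ (d x₂ m + d x₄ m) ^ 2 := pow_le_pow_left₀ (h.nonneg _ _) t 2
  nlinarith [sq_nonneg (d x₂ m - d x₄ m)]

theorem half (h : CatAct G X act d) (g : G) (x : X) :
    ∃ m, 2 * d m (act g m) ≤ d x (act (g * g) x) := by
  obtain ⟨m, hm⟩ := h.cn x (act g x)
  refine ⟨m, ?_⟩
  have hm' : ∀ w, d w (act g m) ^ 2 ≤ d w (act g x) ^ 2 / 2 + d w (act (g * g) x) ^ 2 / 2 -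
      d (act g x) (act (g * g) x) ^ 2 / 4 := by
    intro w
    have e : w = act g (act g⁻¹ w) := by rw [← h.act_mul, mul_inv_cancel, h.act_one]
    rw [e, h.act_mul g g, h.iso, h.iso, h.iso, h.iso]
    exact hm _
  have h1 := hm (act g m)
  have h2 := hm' x
  have h3 := hm' (act g x)
  rw [h.self] at h3
  rw [h.comm (act g m) m, h.comm (act g m) x, h.comm (act g m) (act g x)] at h1
  have h4 : (2 * d m (act g m)) ^ 2 ≤ d x (act (g * g) x) ^ 2 := by nlinarith
  exact (pow_le_pow_iff_left₀ (by have := h.nonneg m (act g m); positivity) (h.nonneg _ _)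
    two_ne_zero).1 h4

end LenOfCat

/-- Row 244, task LenOfCat: the displacement of a base point is a length function. -/
theorem lenOfCat : LenOfCatS := by
  intro G X _ act d o h
  refine ⟨fun g => h.nonneg _ _, by simp only [h.act_one, h.self], fun g => ?_, fun g k => ?_,
    fun u a b ha _ => ?_, fun g hg => ?_⟩
  · show d o (act g⁻¹ o) = d o (act g o)
    rw [← h.iso g, ← h.act_mul, mul_inv_cancel, h.act_one, h.comm]
  · show d o (act (g * k) o) ≤ d o (act g o) + d o (act k o)
    rw [← h.iso g o (act k o), ← h.act_mul]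
    exact h.tri _ _ _
  · have q := LenOfCat.quadr h o (act a o) (act (u * a * b) o) (act (u * a) o)
    have e1 : d (act a o) (act (u * a) o) = d o (act u o) := by
      rw [ha.eq, h.act_mul, h.iso]
    have e2 : d (act a o) (act (u * a * b) o) = d o (act (u * b) o) := by
      rw [ha.eq, mul_assoc, h.act_mul, h.iso]
    have e3 : d (act (u * a * b) o) (act (u * a) o) = d o (act b o) := by
      rw [h.act_mul (u * a) b, h.iso, h.comm]
    rw [e1, e2, e3] at q
    show d o (act (u * a * b) o) ^ 2 + d o (act u o) ^ 2 ≤ d o (act (u * a) o) ^ 2 +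
      d o (act (u * b) o) ^ 2 + d o (act a o) ^ 2 + d o (act b o) ^ 2
    linarith
  · obtain ⟨ε, hε, hd⟩ := h.disp
    refine ⟨ε, hε, fun k => ?_⟩
    have : ∀ x, 2 ^ k * ε ≤ d x (act (g ^ (2 ^ k)) x) := by
      induction k with
      | zero => intro x; simpa using hd g hg x
      | succ k ih =>
        intro x
        obtain ⟨m, hm⟩ := LenOfCat.half h (g ^ (2 ^ k)) x
        have := ih m
        rw [← pow_add, ← two_mul, ← pow_succ'] at hm
        rw [pow_succ]
        linarith
    exact this o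

end Crest.Agent.R244
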