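import Crest.Agent.R244.Defs2
set_option autoImplicit false
open scoped ContDiff Manifold Topology
open Bundle Set Filter
open Crest.GeometryTopology.Geodesic Crest.GeometryTopology.CoordMetric
  Crest.GeometryTopology.ChartCurvature

noncomputable section
namespace Crest.Agent.R244

namespace LinGeo

theorem hd_comp {F : Type} [NormedAddCommGroup F] [NormedSpace ℝ F] {f : E3 → F} {c : ℝ → E3}
    {t : ℝ} (hf : DifferentiableAt ℝ f (c t)) (hc : DifferentiableAt ℝ c t) :
    HasDerivAt (fun s => f (c s)) (fderiv ℝ f (c t) (deriv c t)) t :=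
  hf.hasFDerivAt.comp_hasDerivAt t hc.hasDerivAt

theorem fderiv_app {f : E3 → E3 →L[ℝ] E3 →L[ℝ] E3} {x : E3} (hf : DifferentiableAt ℝ f x)
    (u v w : E3) : fderiv ℝ f x u v w = fderiv ℝ (fun y => f y v w) x u := by
  have h1 := (hf.hasFDerivAt.clm_apply (hasFDerivAt_const v x)).clm_apply (hasFDerivAt_const w x)
  rw [h1.fderiv]
  simp

theorem dGam_symm {g : MF} {U : Set E3} (h : IsRiemannianOn g U) (gb : GamBasic g U) {x : E3}
    (hx : x ∈ U) (u v w : E3) : fderiv ℝ (Gam g) x u v w = fderiv ℝ (Gam g) x u w v := by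
  have h1 : DifferentiableAt ℝ (Gam g) x :=
    (gb.gam_smooth.contDiffAt (h.isOpen.mem_nhds hx)).differentiableAt (by simp)
  rw [fderiv_app h1, fderiv_app h1]
  congr 1
  refine Filter.EventuallyEq.fderiv_eq ?_
  filter_upwards [h.isOpen.mem_nhds hx] with y hy using gb.gam_symm y hy v w

end LinGeo

/-- Row 244, task LinGeo: the Jacobi equation is the linearised geodesic equation. -/
theorem linGeo (hG : GamBasicS) : LinGeoS := by
  intro g U h c J t ht hc hJ hgeo
  have gb := hG g U h
  have h1 : DifferentiableAt ℝ (Gam g) (c t) :=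
    (gb.gam_smooth.contDiffAt (h.isOpen.mem_nhds ht)).differentiableAt (by simp)
  have hc0 : DifferentiableAt ℝ c t := hc.differentiableAt (by norm_num)
  have hJ0 : DifferentiableAt ℝ J t := hJ.differentiableAt (by norm_num)
  have hc' : DifferentiableAt ℝ (deriv c) t :=
    (hc.derivWithin (m := 1) (by norm_num)).differentiableAt (by norm_num)
  have hJ' : DifferentiableAt ℝ (deriv J) t :=
    (hJ.derivWithin (m := 1) (by norm_num)).differentiableAt (by norm_num)
  have h2 : HasDerivAt (fun s => Gam g (c s)) (fderiv ℝ (Gam g) (c t) (deriv c t)) t :=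
    LinGeo.hd_comp (F := E3 →L[ℝ] E3 →L[ℝ] E3) h1 hc0
  have h3 := hJ'.hasDerivAt.add ((h2.clm_apply hc'.hasDerivAt).clm_apply hJ0.hasDerivAt)
  have h4 : deriv (cov g c J) t = _ := h3.deriv
  have e1 : deriv (deriv c) t = -Gam g (c t) (deriv c t) (deriv c t) :=
    eq_neg_of_add_eq_zero_left hgeo
  have s1 := LinGeo.dGam_symm h gb ht (deriv c t) (deriv c t) (J t)
  have s2 := gb.gam_symm _ ht (J t) (Gam g (c t) (deriv c t) (deriv c t))
  have s3 := gb.gam_symm _ ht (J t) (deriv c t)
  have key : cov g c (cov g c J) t + Rm g (c t) (J t) (deriv c t) (deriv c t) =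
      deriv (deriv J) t + fderiv ℝ (Gam g) (c t) (J t) (deriv c t) (deriv c t)
        + (2 : ℝ) • Gam g (c t) (deriv c t) (deriv J t) := by
    have e2 : cov g c (cov g c J) t = deriv (cov g c J) t +
        Gam g (c t) (deriv c t) (deriv J t + Gam g (c t) (deriv c t) (J t)) := rfl
    rw [e2, h4, e1]
    unfold Rm
    simp only [map_add, add_apply, map_neg, neg_apply]
    rw [s1, s2, s3, two_smul]
    abel
  unfold JacAt
  rw [key]

end Crest.Agent.R244
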