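import Crest.Agent.R244.Defs2
/-! Row 244: assembly of the final statement from the task statements. -/
set_option autoImplicit false
open scoped ContDiff Manifold Topology
open Bundle Set Filter
open Crest.GeometryTopology.Geodesic Crest.GeometryTopology.CoordMetric
  Crest.GeometryTopology.ChartCurvature

noncomputable section
namespace Crest.Agent.R244

theorem noGraph (hS : StableLenS) (hO : OrthS) (G : Type) [Group G] (len : G → ℝ)
    (hl : LenFn G len) : ¬ GraphRel G := by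
  rintro ⟨e₁, e₂, a₁, b₁, a₂, b₂, h12, h2a, h2b, hr1, h1a, h1b, hr2, hne⟩
  obtain ⟨l, hs⟩ := hS G len hl
  have o1 := hO G len l hl hs e₂ a₁ b₁ h2a h2b
  have o2 := hO G len l hl hs e₁ a₂ b₂ h1a h1b
  rw [← hr1] at o1
  rw [← hr2] at o2
  have p1 := hs.para e₂ e₁ h12.symm
  have e : e₁ * (e₂ * e₁⁻¹) = e₂ := by rw [← mul_assoc, h12.eq, mul_assoc, mul_inv_cancel, mul_one]
  rw [e] at o2
  have := hs.pos e₁ hne
  nlinarith

theorem partA (hGJ : GJS) (hU : JacUniqueS) (hM : MonoS) (hN : CertNeckS) (hP : CertPieceS)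
    {M : Type} [TopologicalSpace M] [ChartedSpace E3 M] [IsManifold I3 ∞ M]
    (P : Prof) (g : RM M) (N : Set M) (hok : P.OK) (hI : NeckIface P g N) :
    NoConjugatePoints g := by
  intro γ J hγ hJ a b hab ha hb
  have gj := hGJ M g γ J hγ hJ
  have loc : ∀ s, CertLoc P g N γ J s := fun s => by
    by_cases h : γ s ∈ N
    · exact hN M P g N hok hI γ J gj s h
    · exact hP M P g N hok hI γ J gj s h
  have mono : Monotone (certM P g N γ J) := by
    refine hM.1 _ fun s ε hε => ?_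
    obtain ⟨c, hc, hl, -⟩ := loc s
    obtain ⟨h1, h2⟩ := hl ε hε
    constructor
    · filter_upwards [h1, self_mem_nhdsWithin] with r hr hr'
      have : 0 < r - s := sub_pos.2 hr'
      nlinarith
    · filter_upwards [h2, self_mem_nhdsWithin] with r hr hr'
      have : 0 < s - r := sub_pos.2 hr'
      nlinarith
  have key : ∀ a b : ℝ, a < b → J a = 0 → J b = 0 → ∀ t, J t = 0 := by
    intro a b hab ha hb
    refine hU M g γ J gj a ha ?_
    by_contra hne
    obtain ⟨c, hc, hl, hz⟩ := loc a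
    obtain ⟨f0, hpos⟩ := hz ha
    have hc' := hpos hne
    obtain ⟨c', -, -, hz'⟩ := loc b
    have fb := (hz' hb).1
    obtain ⟨h1, -⟩ := hl (c / 2) (by positivity)
    have h3 : ∀ᶠ r in 𝓝[>] a, r < b := nhdsWithin_le_nhds (Iio_mem_nhds hab)
    obtain ⟨r, hr1, hr2, hr3⟩ := (h1.and (h3.and self_mem_nhdsWithin)).exists
    have : 0 < r - a := sub_pos.2 hr3
    have hm := mono hr2.le
    have : 0 < (c - c / 2) * (r - a) := by apply mul_pos <;> linarith
    linarith
  rcases lt_or_gt_of_ne hab with h | h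
  · exact key a b h ha hb
  · exact key b a h hb ha

theorem expData (hF : FlowExistsS) (hD : FlowDepS) (hE : ExpandS) (hC : CoverCritS)
    (hH : ExpCoverHypS) (hK : CompareS) (hL : SmallLoopS)
    {M : Type} [TopologicalSpace M] [ChartedSpace E3 M] [IsManifold I3 ∞ M] [T2Space M]
    [CompactSpace M] (g : RM M) (hg : HasNonposSectionalCurvature g) :
    ∃ (ex : M → E3 → M) (B : M → E3 →L[ℝ] E3 →L[ℝ] ℝ), ExpData ex B := by
  obtain ⟨Fl, hFl⟩ := hF M g
  have hdep := hD M g Fl hFl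
  have hexp := hE M g Fl hFl hdep hg
  have hs : ∀ (x : M) (v : E3) (t : ℝ), (Fl 1 (x, t • v)).1 = (Fl t (x, v)).1 := fun x v t => by
    rw [hFl.smul, mul_one]
  refine ⟨fun x v => (Fl 1 (x, v)).1, ipM g, ?_⟩
  refine ⟨fun x => (hexp x).symm, fun x => (hexp x).pos,
    fun x => hC M _ (hH M g _ _ (hexp x)), fun x => ?_, ?_, ?_, ?_⟩
  · have := hs x 0 0
    rw [zero_smul, hFl.zero] at this
    exact this
  · intro x y u σ hσ h
    exact hK M g Fl hFl _ _ (hexp x) y u σ hσ fun t => (h t).trans (hs y u t)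
  · intro x v
    refine ⟨(1 / 2 : ℝ) • (Fl (1 / 2) (x, v)).2, ?_, fun t => ?_⟩
    · have := hFl.speed (1 / 2) (x, v)
      simp only [hs, map_smul, ContinuousLinearMap.smul_apply, smul_eq_mul] at this ⊢
      rw [this]; ring
    · simp only [hs, smul_smul]
      rw [show (1 + t) / 2 = t * (1 / 2) + 1 / 2 by ring, hFl.add]
  · obtain ⟨ε, hε, h⟩ := hL M g Fl hFl
    refine ⟨ε, hε, fun x v hv hx => ?_⟩
    obtain ⟨z, C, hC, hCt, hin⟩ := h x v hv
    refine ⟨C, (ch z).symm, fun t => ch z (Fl t (x, v)).1, hC,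
      (ch z).continuousOn_symm.mono hCt, ?_, fun t ht => (hin t ht).2, ?_, fun t ht => ?_⟩
    · refine (ch z).continuousOn.comp (fun t _ => (hFl.sol (x, v) t).1.continuousWithinAt) ?_
      exact fun t ht => (hin t ht).1
    · simp only [hFl.zero]
      exact congrArg _ hx
    · rw [hs]; exact (ch z).left_inv (hin t ht).1

theorem final (hGJ : GJS) (hU : JacUniqueS) (hM : MonoS) (hN : CertNeckS) (hP : CertPieceS)
    (hF : FlowExistsS) (hD : FlowDepS) (hE : ExpandS) (hC : CoverCritS)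
    (hH : ExpCoverHypS) (hK : CompareS) (hL : SmallLoopS) (hCat : CatOfExpS) (hLen : LenOfCatS)
    (hS : StableLenS) (hO : OrthS) (hφ : PhiExS) (hPr : ProfExS) (hGood : GoodS) (hEx : GlueExS)
    (hMfd : GlueMfdS) (hMet : GlueMetS) (hT2 : HausS) (hCC : CptConnS) (hI : IfaceS)
    (hRel : NeckRelS) :
    ∃ (M : Type) (_ : TopologicalSpace M) (_ : ChartedSpace (EuclideanSpace ℝ (Fin 3)) M)
      (_ : IsManifold 𝓘(ℝ, EuclideanSpace ℝ (Fin 3)) ∞ M),
      T2Space M ∧ SecondCountableTopology M ∧ CompactSpace M ∧ ConnectedSpace M ∧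
      IsOrientable 3 M ∧
      (∃ g : ContMDiffRiemannianMetric 𝓘(ℝ, EuclideanSpace ℝ (Fin 3)) ∞ (EuclideanSpace ℝ (Fin 3))
          (fun x : M => TangentSpace 𝓘(ℝ, EuclideanSpace ℝ (Fin 3)) x), NoConjugatePoints g) ∧
      ∀ g : ContMDiffRiemannianMetric 𝓘(ℝ, EuclideanSpace ℝ (Fin 3)) ∞ (EuclideanSpace ℝ (Fin 3))
          (fun x : M => TangentSpace 𝓘(ℝ, EuclideanSpace ℝ (Fin 3)) x),
        ¬ HasNonposSectionalCurvature g := by
  obtain ⟨φ, R₁, fi, hphi⟩ := hφ
  obtain ⟨P, -, -, -, hok⟩ := hPr φ R₁ fi hphi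
  have good := hGood P hok
  obtain ⟨M, _, _, p, ty, hG⟩ := hEx NF P.glue good
  obtain ⟨_, hor⟩ := hMfd NF P.glue good M p ty hG
  obtain ⟨g₀, hg₀⟩ := hMet NF P.glue good M p ty hG
  haveI := hT2 P hok M p ty hG
  obtain ⟨hc, hconn⟩ := hCC P hok M p ty hG
  refine ⟨M, inferInstance, inferInstance, inferInstance, inferInstance,
    ChartedSpace.secondCountable_of_sigmaCompact E3 M, hc, hconn, hor,
    ⟨g₀, partA hGJ hU hM hN hP P g₀ _ hok (hI P hok M p ty hG g₀ hg₀)⟩, fun g hg => ?_⟩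
  obtain ⟨ex, B, hex⟩ := expData hF hD hE hC hH hK hL g hg
  obtain ⟨d, hd⟩ := hCat M ex B hex (p 1 0)
  exact noGraph hS hO _ _ (hLen _ _ _ d 0 hd)
    (hRel P hok M p ty hG _ (hex.cover _) (hex.zero _))

end Crest.Agent.R244
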