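import Crest.Agent.R244.NeckJac
/-! Row 244, task `NeckGeo`. -/
set_option autoImplicit false
open scoped ContDiff Manifold Topology
open Bundle Set Filter
open Crest.GeometryTopology.Geodesic Crest.GeometryTopology.CoordMetric
  Crest.GeometryTopology.ChartCurvature

noncomputable section
namespace Crest.Agent.R244

open NeckJac in
theorem neckGeo (hN : NeckMetS) : NeckGeoS := by
  intro P hP c s hc hgeo
  have N := hN P hP
  have c1 : HasDerivAt c (deriv c s) s := (hc.differentiableAt (by norm_num)).hasDerivAt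
  have c2 : HasDerivAt (deriv c) (deriv (deriv c) s) s :=
    ((hc.derivWithin (m := 1) (by norm_num)).differentiableAt (by norm_num)).hasDerivAt
  have ea : deriv (deriv c) s = -Gam P.GN (c s) (deriv c s) (deriv c s) :=
    eq_neg_of_add_eq_zero_left hgeo
  have n1 := (hP.phi.pos (c s 0)).ne'
  have n2 := (hP.ψ_pos (c s 0)).ne'
  have hm : ∀ w, HasDerivAt (fun r => P.Bq (c r 0) (deriv c r) w) 0 s := by
    intro w
    refine (dBq hP (dc c1 0) c2 w).congr_deriv ?_
    have h1 := N.gam1 (c s) (deriv c s) (deriv c s) w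
    have h2 : P.Bq (c s 0) (-Gam P.GN (c s) (deriv c s) (deriv c s)) w =
        -P.Bq (c s 0) (Gam P.GN (c s) (deriv c s) (deriv c s)) w := by
      simp only [Prof.Bq, PiLp.neg_apply]; ring
    rw [ea, h2, h1, B1_eq hP]
    ring
  refine ⟨(hm (bas 1)).prodMk (hm (bas 2)), (dc c2 0).congr_deriv ?_⟩
  rw [ea, PiLp.neg_apply, N.gam0, B1_eq hP, A1_eq hP]
  simp only [Bx1, Ax1, Prof.mom, Prof.Bq, bas_apply]
  simp
  field_simp
  ring

end Crest.Agent.R244
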