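import Crest.Agent.R244.Defs2
/-! Row 244, task NeckJac: the Jacobi equation in the neck as a scalar system. -/
set_option autoImplicit false
set_option synthInstance.maxHeartbeats 400000
open scoped ContDiff Manifold Topology
open Bundle Set Filter
open Crest.GeometryTopology.Geodesic Crest.GeometryTopology.CoordMetric
  Crest.GeometryTopology.ChartCurvature

noncomputable section
namespace Crest.Agent.R244

namespace NeckJac

lemma d0 {f : ℝ → ℝ} (hf : ContDiff ℝ ∞ f) {θ : ℝ → ℝ} {θ' s : ℝ} (hθ : HasDerivAt θ θ' s) :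
    HasDerivAt (fun r => f (θ r)) (deriv f (θ s) * θ') s :=
  ((hf.differentiable (by simp)) (θ s)).hasDerivAt.comp s hθ

lemma d1 {f : ℝ → ℝ} (hf : ContDiff ℝ ∞ f) {θ : ℝ → ℝ} {θ' s : ℝ} (hθ : HasDerivAt θ θ' s) :
    HasDerivAt (fun r => deriv f (θ r)) (deriv (deriv f) (θ s) * θ') s :=
  d0 (contDiff_infty_iff_deriv.1 hf).2 hθ

lemma dc {V : ℝ → E3} {V' : E3} {s : ℝ} (hV : HasDerivAt V V' s) (k : Fin 3) :
    HasDerivAt (fun r => V r k) (V' k) s :=
  (prj k).hasFDerivAt.comp_hasDerivAt s hV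

/-- first derivative of the fibre block -/
def Bx1 (P : Prof) (t : ℝ) (u v : E3) : ℝ :=
  deriv P.lam t * (u 2 * (v 1 + P.lam t * v 2) + (u 1 + P.lam t * u 2) * v 2) / P.φ t
    - (u 1 + P.lam t * u 2) * (v 1 + P.lam t * v 2) * deriv P.φ t / P.φ t ^ 2
    - u 2 * v 2 * deriv P.ψ t / P.ψ t ^ 2

/-- second derivative of the fibre block -/
def Bx2 (P : Prof) (t : ℝ) (u v : E3) : ℝ :=
  deriv (deriv P.lam) t * (u 2 * (v 1 + P.lam t * v 2) + (u 1 + P.lam t * u 2) * v 2) / P.φ t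
    + 2 * deriv P.lam t ^ 2 * u 2 * v 2 / P.φ t
    - 2 * deriv P.lam t * (u 2 * (v 1 + P.lam t * v 2) + (u 1 + P.lam t * u 2) * v 2)
        * deriv P.φ t / P.φ t ^ 2
    - (u 1 + P.lam t * u 2) * (v 1 + P.lam t * v 2) * deriv (deriv P.φ) t / P.φ t ^ 2
    + 2 * (u 1 + P.lam t * u 2) * (v 1 + P.lam t * v 2) * deriv P.φ t ^ 2 / P.φ t ^ 3
    - u 2 * v 2 * deriv (deriv P.ψ) t / P.ψ t ^ 2 + 2 * u 2 * v 2 * deriv P.ψ t ^ 2 / P.ψ t ^ 3

/-- first derivative of the inverse block -/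
def Ax1 (P : Prof) (t : ℝ) (p q : ℝ × ℝ) : ℝ :=
  deriv P.φ t * p.1 * q.1 + deriv P.ψ t * ((p.2 - P.lam t * p.1) * (q.2 - P.lam t * q.1))
    - P.ψ t * deriv P.lam t * (p.1 * (q.2 - P.lam t * q.1) + (p.2 - P.lam t * p.1) * q.1)

/-- second derivative of the inverse block -/
def Ax2 (P : Prof) (t : ℝ) (p q : ℝ × ℝ) : ℝ :=
  deriv (deriv P.φ) t * p.1 * q.1
    + deriv (deriv P.ψ) t * ((p.2 - P.lam t * p.1) * (q.2 - P.lam t * q.1))
    - (2 * deriv P.ψ t * deriv P.lam t + P.ψ t * deriv (deriv P.lam) t)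
        * (p.1 * (q.2 - P.lam t * q.1) + (p.2 - P.lam t * p.1) * q.1)
    + 2 * P.ψ t * deriv P.lam t ^ 2 * p.1 * q.1

variable {P : Prof} (hP : P.OK)
include hP

lemma dBq {θ : ℝ → ℝ} {θ' s : ℝ} {V : ℝ → E3} {V' : E3} (hθ : HasDerivAt θ θ' s)
    (hV : HasDerivAt V V' s) (w : E3) :
    HasDerivAt (fun r => P.Bq (θ r) (V r) w)
      (θ' * Bx1 P (θ s) (V s) w + P.Bq (θ s) V' w) s := by
  have hφ := d0 hP.phi.smooth hθ
  have hψ := d0 hP.ψ_smooth hθ
  have hl := d0 hP.lam_smooth hθ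
  have n1 := (hP.phi.pos (θ s)).ne'
  have n2 := (hP.ψ_pos (θ s)).ne'
  have h := ((((dc hV 1).fun_add (hl.fun_mul (dc hV 2))).fun_mul
    ((hl.mul_const (w 2)).const_add (w 1))).fun_div hφ n1).fun_add
    (((dc hV 2).mul_const (w 2)).fun_div hψ n2)
  refine h.congr_deriv ?_
  unfold Bx1 Prof.Bq
  field_simp
  ring

lemma B1_eq (t : ℝ) (u v : E3) : P.B1 t u v = Bx1 P t u v := by
  have h := (dBq hP (hasDerivAt_id t) (hasDerivAt_const t u) v).deriv
  unfold Prof.B1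
  refine h.trans ?_
  simp [Prof.Bq]

lemma dB1 {θ : ℝ → ℝ} {θ' s : ℝ} {V : ℝ → E3} {V' : E3} (hθ : HasDerivAt θ θ' s)
    (hV : HasDerivAt V V' s) (w : E3) :
    HasDerivAt (fun r => P.B1 (θ r) (V r) w)
      (θ' * Bx2 P (θ s) (V s) w + Bx1 P (θ s) V' w) s := by
  simp only [B1_eq hP]
  have hφ := d0 hP.phi.smooth hθ
  have hψ := d0 hP.ψ_smooth hθ
  have hl := d0 hP.lam_smooth hθ
  have hφ1 := d1 hP.phi.smooth hθ
  have hψ1 := d1 hP.ψ_smooth hθ
  have hl1 := d1 hP.lam_smooth hθ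
  have n1 := (hP.phi.pos (θ s)).ne'
  have n2 := (hP.ψ_pos (θ s)).ne'
  have hU := (dc hV 1).fun_add (hl.fun_mul (dc hV 2))
  have hW := (hl.mul_const (w 2)).const_add (w 1)
  have h := (((hl1.fun_mul (((dc hV 2).fun_mul hW).fun_add (hU.mul_const (w 2)))).fun_div
    hφ n1).fun_sub (((hU.fun_mul hW).fun_mul hφ1).fun_div (hφ.fun_pow 2)
      (pow_ne_zero 2 n1))).fun_sub
    ((((dc hV 2).mul_const (w 2)).fun_mul hψ1).fun_div (hψ.fun_pow 2) (pow_ne_zero 2 n2))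
  refine h.congr_deriv ?_
  unfold Bx1 Bx2
  simp only [Nat.cast_ofNat, Nat.add_one_sub_one, pow_one]
  field_simp
  ring

lemma A1_eq (t : ℝ) (p q : ℝ × ℝ) : P.A1 t p q = Ax1 P t p q := by
  have hθ := hasDerivAt_id t
  have hφ := d0 hP.phi.smooth hθ
  have hψ := d0 hP.ψ_smooth hθ
  have hl := d0 hP.lam_smooth hθ
  have h := ((hφ.mul_const p.1).mul_const q.1).fun_add
    ((hψ.fun_mul ((hl.mul_const p.1).const_sub p.2)).fun_mul ((hl.mul_const q.1).const_sub q.2))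
  refine h.deriv.trans ?_
  unfold Ax1
  simp only [id]
  ring

lemma A2_eq (t : ℝ) (p q : ℝ × ℝ) : P.A2 t p q = Ax2 P t p q := by
  have hθ := hasDerivAt_id t
  have hψ := d0 hP.ψ_smooth hθ
  have hl := d0 hP.lam_smooth hθ
  have hφ1 := d1 hP.phi.smooth hθ
  have hψ1 := d1 hP.ψ_smooth hθ
  have hl1 := d1 hP.lam_smooth hθ
  have hp := (hl.mul_const p.1).const_sub p.2
  have hq := (hl.mul_const q.1).const_sub q.2
  have h := (((hφ1.mul_const p.1).mul_const q.1).fun_add (hψ1.fun_mul (hp.fun_mul hq))).fun_sub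
    ((hψ.fun_mul hl1).fun_mul ((hq.const_mul p.1).fun_add (hp.mul_const q.1)))
  unfold Prof.A2
  simp only [A1_eq hP]
  refine h.deriv.trans ?_
  unfold Ax2
  simp only [id]
  ring

end NeckJac

open NeckJac in
theorem neckJac (hB : GamBasicS) (hL : LinGeoS) (hN : NeckMetS) (hG : NeckGeoS) : NeckJacS := by
  intro P hP c J s hc hJ hgeo hjac
  have N := hN P hP
  have hΓ := hB _ _ N.riem
  have hj := (hL _ _ N.riem c J s (mem_univ _) hc hJ hgeo).1 hjac
  have dd : ∀ {f : ℝ → E3}, ContDiffAt ℝ 2 f s →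
      HasDerivAt f (deriv f s) s ∧ HasDerivAt (deriv f) (deriv (deriv f) s) s := fun {f} hf =>
    ⟨(hf.differentiableAt (by norm_num)).hasDerivAt,
      ((hf.derivWithin (m := 1) (by norm_num)).differentiableAt (by norm_num)).hasDerivAt⟩
  obtain ⟨c1, c2⟩ := dd hc
  obtain ⟨J1, J2⟩ := dd hJ
  set y := c s with hy
  set u := deriv c s with hu
  set a := deriv (deriv c) s with ha
  set j := J s with hjd
  set j1 := deriv J s with hj1
  set j2 := deriv (deriv J) s with hj2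
  set G := fderiv ℝ (Gam P.GN) y j u u with hGd
  have hdΓ : HasFDerivAt (Gam P.GN) (fderiv ℝ (Gam P.GN) y) (y + (0 : ℝ) • j) := by
    rw [zero_smul, add_zero]
    exact ((hΓ.gam_smooth.contDiffAt univ_mem).differentiableAt (by simp)).hasFDerivAt
  have hline : HasDerivAt (fun r : ℝ => y + r • j) j 0 := by
    simpa using ((hasDerivAt_id (0 : ℝ)).smul_const j).const_add y
  have hΓl : HasDerivAt (fun r : ℝ => Gam P.GN (y + r • j) u u) G 0 := by
    have h1 := HasFDerivAt.comp_hasDerivAt (E := E3 →L[ℝ] E3 →L[ℝ] E3) (l := Gam P.GN)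
      (0 : ℝ) hdΓ hline
    have h2 := (h1.clm_apply (hasDerivAt_const (0 : ℝ) u)).clm_apply (hasDerivAt_const (0 : ℝ) u)
    simpa using h2
  have hθ : HasDerivAt (fun r : ℝ => (y + r • j) 0) (j 0) 0 := dc hline 0
  have z0 : Bx1 P (y 0) 0 = fun _ => 0 := by funext w; simp [Bx1]
  have e0 : G 0 = -(j 0 * Bx2 P (y 0) u u) / 2 := by
    have h1 := dc hΓl 0
    simp only [N.gam0] at h1
    have h2 := ((dB1 hP hθ (hasDerivAt_const (0 : ℝ) u) u).fun_neg).div_const 2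
    have := h1.unique h2
    simpa [z0] using this
  have e1 : ∀ w, j 0 * Bx1 P (y 0) (Gam P.GN y u u) w + P.Bq (y 0) G w =
      u 0 * (j 0 * Bx2 P (y 0) u w) := by
    intro w
    have h1 := dBq hP hθ hΓl w
    simp only [N.gam1] at h1
    have h3 := (dB1 hP hθ (hasDerivAt_const (0 : ℝ) u) w).const_mul (u 0)
    have h2 := (h3.fun_add h3).div_const 2
    have := h1.unique h2
    simp only [zero_smul, add_zero, z0] at this
    rw [this]; ring
  have ea : Gam P.GN y u u = -a := by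
    have : a + Gam P.GN y u u = 0 := hgeo
    exact eq_neg_of_add_eq_zero_right this
  have ej : ∀ k, j2 k = -G k - 2 * Gam P.GN y u j1 k := by
    intro k
    have := congrArg (fun v : E3 => v k) hj
    simp only [PiLp.add_apply, PiLp.smul_apply, smul_eq_mul, PiLp.zero_apply] at this
    linarith
  have n1 := (hP.phi.pos (y 0)).ne'
  have n2 := (hP.ψ_pos (y 0)).ne'
  have hm : ∀ w, HasDerivAt (fun r => P.Bq (c r 0) (deriv J r) w + J r 0 * P.B1 (c r 0) (deriv c r) w)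
      0 s := by
    intro w
    have h := (dBq hP (dc c1 0) J2 w).fun_add ((dc J1 0).fun_mul (dB1 hP (dc c1 0) c2 w))
    refine h.congr_deriv ?_
    have f1 := e1 w
    have f2 := N.gam1 y u j1 w
    rw [ea] at f1
    simp only [B1_eq hP] at f2 ⊢
    have f3 : P.Bq (y 0) j2 w = -P.Bq (y 0) G w - 2 * P.Bq (y 0) (Gam P.GN y u j1) w := by
      unfold Prof.Bq; rw [ej 1, ej 2]; ring
    have f4 : Bx1 P (y 0) (-a) w = -Bx1 P (y 0) a w := by
      unfold Bx1; simp only [PiLp.neg_apply]; ring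
    rw [← hy, ← hu, ← hj1, ← hjd]
    rw [f4] at f1
    linear_combination f3 - f1 - 2 * f2
  have b11 : bas 1 1 = 1 := by simp [bas_apply]
  have b12 : bas 1 2 = 0 := by simp [bas_apply]
  have b21 : bas 2 1 = 0 := by simp [bas_apply]
  have b22 : bas 2 2 = 1 := by simp [bas_apply]
  refine ⟨(hm (bas 1)).prodMk (hm (bas 2)), dc c1 0, (hG P hP c s hc hgeo).2, dc J1 0, ?_, ?_, ?_⟩
  · refine (dc J2 0).congr_deriv ?_
    rw [ej 0, e0, N.gam0]
    simp only [jet, Prof.mom, Prof.dmom, A1_eq hP, A2_eq hP, B1_eq hP, ← hy, ← hu, ← hj1, ← hjd]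
    simp only [Ax1, Ax2, Bx1, Bx2, Prof.Bq, b11, b12, b21, b22]
    field_simp
    ring
  · refine (dc J1 1).congr_deriv ?_
    simp only [jet, Prof.mom, Prof.dmom, A1_eq hP, B1_eq hP, ← hy, ← hu, ← hj1, ← hjd]
    simp only [Ax1, Bx1, Prof.Bq, Prof.Aq, b11, b12, b21, b22]
    field_simp
    ring
  · refine (dc J1 2).congr_deriv ?_
    simp only [jet, Prof.mom, Prof.dmom, A1_eq hP, B1_eq hP, ← hy, ← hu, ← hj1, ← hjd]
    simp only [Ax1, Bx1, Prof.Bq, Prof.Aq, b11, b12, b21, b22]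
    field_simp
    ring

end Crest.Agent.R244
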