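import Crest.Agent.R244.Form
/-!
Row 244, task NeckMet: the neck metric and its Christoffel symbols.
-/
set_option autoImplicit false
open scoped Topology ContDiff Manifold
open Set Filter
open Crest.GeometryTopology.CoordMetric

noncomputable section
namespace Crest.Agent.R244

namespace NeckMetAux

variable {P : Prof}

theorem ip (P : Prof) (y u v : E3) : ipL P.GN y u v = u 0 * v 0 + P.Bq (y 0) u v := by
  rw [ipL_apply]
  simp [Prof.GN, Prof.Bq, Fin.sum_univ_three]
  ring

theorem riem (h : P.OK) : IsRiemannianOn P.GN univ := by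
  have h0 : ContDiff ℝ ∞ fun y : E3 => y 0 := (prj 0).contDiff
  have hφ := h.phi.smooth.comp h0
  have hψ := h.ψ_smooth.comp h0
  have hl := h.lam_smooth.comp h0
  have nφ : ∀ y : E3, P.φ (y 0) ≠ 0 := fun y => (h.phi.pos _).ne'
  have nψ : ∀ y : E3, P.ψ (y 0) ≠ 0 := fun y => (h.ψ_pos _).ne'
  refine ⟨isOpen_univ, fun i j => ContDiff.contDiffOn ?_, fun x _ => ?_⟩
  · fin_cases i <;> fin_cases j <;> simp only [Prof.GN] <;>
      first
      | exact contDiff_const
      | exact contDiff_const.div hφ nφ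
      | exact hl.div hφ nφ
      | exact ((hl.pow 2).div hφ nφ).add (contDiff_const.div hψ nψ)
  · refine Matrix.PosDef.of_dotProduct_mulVec_pos ?_ fun u hu => ?_
    · ext i j
      fin_cases i <;> fin_cases j <;> simp [Prof.GN]
    · have e : star u ⬝ᵥ Matrix.mulVec (P.GN x) u =
          u 0 ^ 2 + (u 1 + P.lam (x 0) * u 2) ^ 2 / P.φ (x 0) + u 2 ^ 2 / P.ψ (x 0) := by
        simp [Prof.GN, Matrix.mulVec, dotProduct, Fin.sum_univ_three]
        ring
      rw [e]
      have h1 := h.phi.pos (x 0)
      have h2 := h.ψ_pos (x 0)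
      by_cases u2 : u 2 = 0
      · by_cases u1 : u 1 = 0
        · have u0 : u 0 ≠ 0 := fun u0 => hu (by ext i; fin_cases i <;> simp [u0, u1, u2])
          positivity
        · rw [u2, mul_zero, add_zero]
          positivity
      · positivity

theorem fd (hG : GamBasicS) (h : P.OK) (y u v w : E3) :
    fderiv ℝ (ipL P.GN) y u v w = u 0 * P.B1 (y 0) v w := by
  have hd : HasFDerivAt (ipL P.GN) (fderiv ℝ (ipL P.GN) y) y :=
    (((hG _ _ (riem h)).ip_smooth.contDiffAt univ_mem).differentiableAt (by simp)).hasFDerivAt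
  have h1 := (hd.clm_apply (hasFDerivAt_const v y)).clm_apply (hasFDerivAt_const w y)
  have h2 := ((h.hasDerivAt_Bq (y 0) v w).comp_hasFDerivAt (f := fun y : E3 => y 0) y
    (prj 0).hasFDerivAt).const_add (v 0 * w 0)
  have h3 := h1.unique (h2.congr_of_eventuallyEq (Eventually.of_forall fun z => ip P z v w))
  have h4 := DFunLike.congr_fun h3 u
  simpa [mul_comm] using h4

theorem B1_bas (h : P.OK) (t : ℝ) (v : E3) : P.B1 t v (bas 0) = 0 := by
  simp [h.B1_eq, bas_apply]

theorem B1_symm (h : P.OK) (t : ℝ) (u v : E3) : P.B1 t u v = P.B1 t v u := by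
  rw [h.B1_eq, h.B1_eq]; ring

end NeckMetAux

open NeckMetAux in
theorem neckMet (hG : GamBasicS) : NeckMetS := by
  intro P h
  have hk := (hG _ _ (riem h)).koszul
  have g0 : ∀ y u v : E3, Gam P.GN y u v 0 = -P.B1 (y 0) u v / 2 := by
    intro y u v
    have := hk y trivial u v (bas 0)
    rw [ip, fd hG h, fd hG h, fd hG h, B1_bas h, B1_bas h] at this
    simp only [Prof.Bq, bas_apply] at this
    simp at this
    linarith
  refine ⟨riem h, ip P, g0, fun y u v w => ?_⟩
  have := hk y trivial u v w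
  rw [ip, fd hG h, fd hG h, fd hG h, g0] at this
  linarith

end Crest.Agent.R244
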