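import Crest.Agent.R244.Defs2
/-! Row 244, NeckRel: the relations of the graph-manifold group hold in the deck group. -/
set_option autoImplicit false
open scoped ContDiff Topology
open Set Filter

noncomputable section
namespace Crest.Agent.R244

namespace NeckRel

def pt (x y z : ℝ) : E3 := !₂[x, y, z]

theorem pt_add (x y z x' y' z' : ℝ) : pt x y z + pt x' y' z' = pt (x + x') (y + y') (z + z') := by
  ext i; fin_cases i <;> rfl

theorem cont_pt {X : Type} [TopologicalSpace X] {f g h : X → ℝ} (hf : Continuous f)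
    (hg : Continuous g) (hh : Continuous h) : Continuous (fun t => pt (f t) (g t) (h t)) := by
  unfold pt
  refine (PiLp.continuous_toLp 2 _).comp (continuous_pi fun i => ?_)
  fin_cases i
  · exact hf
  · exact hg
  · exact hh

theorem eq_of_act {M : Type} [TopologicalSpace M] {pr : E3 → M} (hF : CoverFacts pr)
    {g h : Deck pr} {a : E3} (e : dact g a = dact h a) : g = h := by
  have := hF.free (h⁻¹ * g) a (by rw [dact_mul, e, ← dact_mul, inv_mul_cancel, dact_one])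
  exact (inv_mul_eq_one.1 this).symm

theorem zeq_refl (y : E3) : ZEq y y := fun _ => ⟨0, by simp⟩

end NeckRel

open NeckRel in
theorem neckRel (hPF : PFactsS) (hCF : CoverFactsS) (hPR : PieceRelS) (hTE : ThetaExS)
    (hTN : ThetaNeS) : NeckRelS := by
  intro P hP M _ _ p ty hG pr hpr h0
  have hF := hCF M pr hpr
  have hf := hPF P hP
  have hT := hP.T_pos
  have hpi := Real.pi_pos
  have hR1 := hP.phi.R_pos
  have hR2 := hP.R₂_pos
  have hmem : ∀ t y z, -1 - (P.R₁ + 1) < t → t < 3 / 2 + (P.R₂ + 3 / 2) → pt t y z ∈ P.YN :=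
    fun _ _ _ h1 h2 => ⟨h1, h2⟩
  have hz0 : (0 : E3) = pt 0 0 0 := by ext i; fin_cases i <;> rfl
  have m0 : ∀ y z, pt 0 y z ∈ P.YN := fun y z => hmem _ _ _ (by linarith) (by linarith)
  obtain ⟨l, cl, ll, -⟩ := hF.lift P.YN (p 1) 0 0 hf.convex_N (hG.cont 1) (hz0 ▸ m0 0 0) h0
  have hsh : ∀ k m : ℤ, ∃ g : Deck pr, ∀ y ∈ P.YN,
      l (y + pt 0 (2 * Real.pi * k) (2 * Real.pi * P.T * m)) = dact g (l y) := by
    intro k m
    have e0 : ∀ y : E3, (y + pt 0 (2 * Real.pi * k) (2 * Real.pi * P.T * m)) 0 = y 0 := by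
      intro y; show y 0 + 0 = y 0; simp
    have hin : ∀ y ∈ P.YN, y + pt 0 (2 * Real.pi * k) (2 * Real.pi * P.T * m) ∈ P.YN := by
      intro y hy
      exact ⟨(e0 y).symm ▸ hy.1, (e0 y).symm ▸ hy.2⟩
    refine hF.shift P.YN l _ hf.convex_N.isPreconnected ⟨_, m0 0 0⟩ cl hin (fun y hy => ?_)
    rw [ll _ (hin y hy), ll y hy]
    exact ((hG.eq_iff 1 1 y hy _ (hin y hy)).2
      ((hf.nn y hy _ (hin y hy)).2 ⟨e0 y, ⟨k, rfl⟩, ⟨m, rfl⟩⟩)).symm
  obtain ⟨e₁, he₁⟩ := hsh 1 0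
  obtain ⟨e₂, he₂⟩ := hsh 0 1
  have he₁' : ∀ t y z, pt t y z ∈ P.YN → l (pt t (y + 2 * Real.pi) z) = dact e₁ (l (pt t y z)) := by
    intro t y z h
    have := he₁ _ h
    simpa [pt_add] using this
  have he₂' : ∀ t y z, pt t y z ∈ P.YN →
      l (pt t y (z + 2 * Real.pi * P.T)) = dact e₂ (l (pt t y z)) := by
    intro t y z h
    have := he₂ _ h
    simpa [pt_add] using this
  have hper : ∀ i : Fin 3, P.glue.Y i = Yp → P.glue.P i = PP i →
      ∀ y ∈ Yp, ∀ y', ZEq y y' → p i y' = p i y := by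
    intro i hY hPi y hy y' hz
    have hy' : y' ∈ Yp := by
      obtain ⟨k, hk⟩ := hz 0
      obtain ⟨m, hm⟩ := hz 1
      show (1 : ℝ) / 64 < dz (y' 0) ^ 2 + dz (y' 1) ^ 2
      rw [hk, hm, hf.dz_int, hf.dz_int]
      exact hy
    refine ((hG.eq_iff i i y (hY ▸ hy) y' (hY ▸ hy')).2 ?_).symm
    rw [hPi]
    exact (hf.pp i y y').2 hz
  -- first piece
  set t₁ := P.R₁ - P.L₁ / 5 with ht₁
  have a1 : t₁ < -1 := by rw [ht₁]; unfold Prof.L₁; linarith
  have m1 : ∀ y z, pt t₁ y z ∈ P.YN := fun y z =>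
    hmem _ _ _ (by rw [ht₁]; unfold Prof.L₁; linarith) (by linarith)
  have r1 : P.r₁ t₁ = 1 / 5 := by
    rw [ht₁]; unfold Prof.r₁ Prof.L₁; field_simp; ring
  obtain ⟨a₁, b₁, c1, c2, c3⟩ := hPR M pr hpr (p 0) (hG.cont 0) (hper 0 rfl rfl)
    (fun w => l (pt t₁ w.1 (2 * Real.pi * P.T * w.2)))
    (cl.comp_continuous (cont_pt continuous_const continuous_fst (by fun_prop)) (fun w => m1 _ _))
    (fun θ z => by
      have e : P.pol₁ (pt t₁ θ (2 * Real.pi * P.T * z)) =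
          !₂[1 / 5 * Real.cos θ, -(1 / 5 * Real.sin θ), z] := by
        have e' : 2 * Real.pi * P.T * z / (2 * Real.pi * P.T) = z := by field_simp
        show !₂[P.r₁ t₁ * Real.cos θ, -(P.r₁ t₁ * Real.sin θ),
          2 * Real.pi * P.T * z / (2 * Real.pi * P.T)] = _
        rw [r1, e']
      simp only
      rw [ll _ (m1 _ _), ← e]
      exact (hG.eq_iff 1 0 _ (m1 _ _) _ (hf.rad₁ _ (m1 _ _) a1).2.2.1).2
        ((hf.n1 _ _).2 ⟨a1, zeq_refl _⟩))
    e₁ e₂ (fun θ z => he₁' _ _ _ (m1 _ _))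
    (fun θ z => by
      simp only
      rw [mul_add, mul_one]
      exact he₂' _ _ _ (m1 _ _))
  -- second piece
  set t₂ := P.L₂ / 5 - P.R₂ with ht₂
  have a2 : 3 / 2 < t₂ := by rw [ht₂]; unfold Prof.L₂; linarith
  have m2 : ∀ y z, pt t₂ y z ∈ P.YN := fun y z =>
    hmem _ _ _ (by linarith) (by rw [ht₂]; unfold Prof.L₂; linarith)
  have r2 : P.r₂ t₂ = 1 / 5 := by
    rw [ht₂]; unfold Prof.r₂ Prof.L₂
    have : (8 : ℝ) * (P.R₂ + 3 / 2) ≠ 0 := by positivity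
    rw [div_eq_iff this]; ring
  obtain ⟨a₂, b₂, d1, d2, d3⟩ := hPR M pr hpr (p 2) (hG.cont 2) (hper 2 rfl rfl)
    (fun w => l (pt t₂ (2 * Real.pi * w.2 - w.1) (P.T * w.1)))
    (cl.comp_continuous (cont_pt continuous_const (by fun_prop) (by fun_prop)) (fun w => m2 _ _))
    (fun θ z => by
      have e : P.pol₂ (pt t₂ (2 * Real.pi * z - θ) (P.T * θ)) =
          !₂[1 / 5 * Real.cos θ, -(1 / 5 * Real.sin θ), z] := by
        have e1 : P.T * θ / P.T = θ := by field_simp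
        have e2 : (2 * Real.pi * z - θ) / (2 * Real.pi) + P.T * θ / (2 * Real.pi * P.T) = z := by
          field_simp; ring
        show !₂[P.r₂ t₂ * Real.cos (P.T * θ / P.T), -(P.r₂ t₂ * Real.sin (P.T * θ / P.T)),
          (2 * Real.pi * z - θ) / (2 * Real.pi) + P.T * θ / (2 * Real.pi * P.T)] = _
        rw [r2, e1, e2]
      simp only
      rw [ll _ (m2 _ _), ← e]
      exact (hG.eq_iff 1 2 _ (m2 _ _) _ (hf.rad₂ _ (m2 _ _) a2).2.2.1).2
        ((hf.n2 _ _).2 ⟨a2, zeq_refl _⟩))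
    (e₂ * e₁⁻¹) e₁
    (fun θ z => by
      simp only
      have h1 := he₁' t₂ (2 * Real.pi * z - (θ + 2 * Real.pi)) (P.T * θ) (m2 _ _)
      rw [show 2 * Real.pi * z - (θ + 2 * Real.pi) + 2 * Real.pi = 2 * Real.pi * z - θ by ring] at h1
      rw [show P.T * (θ + 2 * Real.pi) = P.T * θ + 2 * Real.pi * P.T by ring, he₂' _ _ _ (m2 _ _), h1,
        ← dact_mul (e₂ * e₁⁻¹), inv_mul_cancel_right])
    (fun θ z => by
      simp only
      rw [show 2 * Real.pi * (z + 1) - θ = 2 * Real.pi * z - θ + 2 * Real.pi by ring]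
      exact he₁' _ _ _ (m2 _ _))
  refine ⟨e₁, e₂, a₁, b₁, a₂, b₂, eq_of_act hF (a := l (pt 0 0 0)) ?_, c1, c2, c3, d1, d2, d3, ?_⟩
  · rw [dact_mul, dact_mul, ← he₂' _ _ _ (m0 _ _), ← he₁' _ _ _ (m0 _ _), ← he₁' _ _ _ (m0 _ _),
      ← he₂' _ _ _ (m0 _ _)]
  · rintro rfl
    obtain ⟨Xh, Yh, A, B, hTh⟩ := hTE P hP M p ty hG
    refine hTN M Xh Yh A B _ hTh pr (fun s => l (pt 0 s 0)) hpr.continuous
      (cl.comp_continuous (cont_pt continuous_const continuous_id continuous_const) (fun w => m0 _ _))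
      (fun s => ll _ (m0 _ _)) ?_
    have := he₁' 0 0 0 (m0 _ _)
    rwa [zero_add, dact_one] at this

end Crest.Agent.R244
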