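import Crest.Agent.R244.Defs2
/-! Row 244, OdeDep: the variational equation gives the strict derivative of the flow. -/
set_option autoImplicit false
open scoped ContDiff Topology NNReal
open Set Filter

noncomputable section
namespace Crest.Agent.R244

namespace OdeDep

theorem forward {E : Type} [NormedAddCommGroup E] [NormedSpace ℝ E] (F : E → E) (K : ℝ≥0)
    (hK0 : 0 < K) (hK : LipschitzWith K F) (hd : Differentiable ℝ F)
    (hu : UniformContinuous (fderiv ℝ F)) (t : ℝ) (ht : 0 ≤ t) (Φ : ℝ → E → E) (D : ℝ → E →L[ℝ] E)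
    (y : E) (h0 : ∀ z, Φ 0 z = z) (hD0 : D 0 = ContinuousLinearMap.id ℝ E)
    (hΦ : ∀ s ∈ Icc 0 t, ∀ z, HasDerivAt (fun r => Φ r z) (F (Φ s z)) s)
    (hD : ∀ s ∈ Icc 0 t, HasDerivAt D ((fderiv ℝ F (Φ s y)).comp (D s)) s) :
    HasStrictFDerivAt (Φ t) (D t) y := by
  have hK' : (0 : ℝ) < K := hK0
  have hcont : ∀ z, ContinuousOn (fun r => Φ r z) (Icc 0 t) := fun z s hs =>
    (hΦ s hs z).continuousAt.continuousWithinAt
  set L : ℝ := Real.exp (K * t) with hL
  have hL0 : 0 < L := Real.exp_pos _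
  have hlip : ∀ z z', ∀ s ∈ Icc 0 t, dist (Φ s z) (Φ s z') ≤ dist z z' * L := by
    intro z z' s hs
    have := dist_le_of_trajectories_ODE (v := fun _ => F) (K := K) (f := fun r => Φ r z)
      (g := fun r => Φ r z') (a := 0) (b := t) (δ := dist z z') (fun _ => hK) (hcont z)
      (fun r hr => (hΦ r (Ico_subset_Icc_self hr) z).hasDerivWithinAt) (hcont z')
      (fun r hr => (hΦ r (Ico_subset_Icc_self hr) z').hasDerivWithinAt) (by simp [h0]) s hs
    refine this.trans (mul_le_mul_of_nonneg_left (Real.exp_le_exp.2 ?_) dist_nonneg)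
    rw [sub_zero]
    exact mul_le_mul_of_nonneg_left hs.2 hK'.le
  rw [hasStrictFDerivAt_iff_isLittleO, Asymptotics.isLittleO_iff]
  intro ε hε
  set ε' : ℝ := ε * K / (L * L) with hε'
  have hε'0 : 0 < ε' := by positivity
  obtain ⟨η, hη, hη'⟩ := Metric.uniformContinuous_iff.1 hu ε' hε'0
  have hball : ∀ᶠ p : E × E in 𝓝 (y, y), dist p.1 y < η / L ∧ dist p.2 y < η / L := by
    have h1 : ∀ᶠ z in 𝓝 y, dist z y < η / L := Metric.ball_mem_nhds y (by positivity)
    exact (continuous_fst.continuousAt.eventually (p := fun z => dist z y < η / L) h1).and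
      (continuous_snd.continuousAt.eventually (p := fun z => dist z y < η / L) h1)
  filter_upwards [hball] with p hp
  obtain ⟨y₁, y₂⟩ := p
  obtain ⟨hp1, hp2⟩ := hp
  simp only at hp1 hp2 ⊢
  have hin : ∀ z, dist z y < η / L → ∀ s ∈ Icc 0 t, Φ s z ∈ Metric.ball (Φ s y) η := by
    intro z hz s hs
    rw [Metric.mem_ball]
    refine (hlip z y s hs).trans_lt ?_
    rwa [lt_div_iff₀ hL0] at hz
  have hw : ∀ s ∈ Icc 0 t, HasDerivAt (fun r => Φ r y₁ - Φ r y₂ - D r (y₁ - y₂))
      (F (Φ s y₁) - F (Φ s y₂) - fderiv ℝ F (Φ s y) (D s (y₁ - y₂))) s := by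
    intro s hs
    have h3 := (hD s hs).clm_apply (hasDerivAt_const s (y₁ - y₂))
    simp only [ContinuousLinearMap.comp_apply, map_zero, add_zero] at h3
    exact ((hΦ s hs y₁).sub (hΦ s hs y₂)).sub h3
  have hg := norm_le_gronwallBound_of_norm_deriv_right_le
    (f := fun r => Φ r y₁ - Φ r y₂ - D r (y₁ - y₂))
    (f' := fun s => F (Φ s y₁) - F (Φ s y₂) - fderiv ℝ F (Φ s y) (D s (y₁ - y₂)))
    (δ := 0) (K := K) (ε := ε' * (‖y₁ - y₂‖ * L)) (a := 0) (b := t)
    (fun s hs => (hw s hs).continuousAt.continuousWithinAt)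
    (fun s hs => (hw s (Ico_subset_Icc_self hs)).hasDerivWithinAt) (by simp [h0, hD0])
    (fun s hs => by
      have hs' := Ico_subset_Icc_self hs
      have h1 := (convex_ball (Φ s y) η).norm_image_sub_le_of_norm_fderiv_le' (𝕜 := ℝ) (f := F)
        (φ := fderiv ℝ F (Φ s y)) (C := ε') (fun x _ => hd x)
        (fun x hx => by
          rw [← dist_eq_norm]
          exact (hη' (Metric.mem_ball.1 hx)).le) (hin y₂ hp2 s hs') (hin y₁ hp1 s hs')
      have h2 : ‖Φ s y₁ - Φ s y₂‖ ≤ ‖y₁ - y₂‖ * L := by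
        have := hlip y₁ y₂ s hs'
        rwa [dist_eq_norm, dist_eq_norm] at this
      have h3 : ‖fderiv ℝ F (Φ s y)‖ ≤ K := norm_fderiv_le_of_lipschitz ℝ hK
      have h4 : F (Φ s y₁) - F (Φ s y₂) - fderiv ℝ F (Φ s y) (D s (y₁ - y₂)) =
          fderiv ℝ F (Φ s y) (Φ s y₁ - Φ s y₂ - D s (y₁ - y₂)) +
            (F (Φ s y₁) - F (Φ s y₂) - fderiv ℝ F (Φ s y) (Φ s y₁ - Φ s y₂)) := by
        rw [map_sub (fderiv ℝ F (Φ s y)) (Φ s y₁ - Φ s y₂)]; abel
      rw [h4]
      refine (norm_add_le _ _).trans (add_le_add ?_ ?_)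
      · exact ((fderiv ℝ F (Φ s y)).le_opNorm _).trans
          (mul_le_mul_of_nonneg_right h3 (norm_nonneg _))
      · exact h1.trans (mul_le_mul_of_nonneg_left h2 hε'0.le)) t ⟨ht, le_rfl⟩
  refine hg.trans ?_
  rw [gronwallBound_of_K_ne_0 hK'.ne']
  simp only [zero_mul, zero_add, sub_zero, ← hL]
  have e : ε' * (‖y₁ - y₂‖ * L) / K * L = ε * ‖y₁ - y₂‖ := by
    rw [hε']; field_simp
  rw [← e]
  exact mul_le_mul_of_nonneg_left (by linarith) (by positivity)

end OdeDep

theorem odeDep : OdeDepS := by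
  intro F hF hc δ Φ D h0 hD0 h t ht y
  obtain ⟨K, hK⟩ := hF.lipschitzWith_of_hasCompactSupport hc one_ne_zero
  have hK1 : LipschitzWith (K + 1) F := hK.weaken le_self_add
  have hd : Differentiable ℝ F := hF.differentiable one_ne_zero
  have hu : UniformContinuous (fderiv ℝ F) :=
    (hc.fderiv ℝ).uniformContinuous_of_continuous (hF.continuous_fderiv one_ne_zero)
  rcases le_total 0 t with ht0 | ht0
  · exact OdeDep.forward F (K + 1) (by positivity) hK1 hd hu t ht0 Φ (fun s => D s y) y h0 (hD0 y)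
      (fun s hs z => (h s ⟨by linarith [ht.1, ht.2, hs.1], by linarith [ht.2, hs.2]⟩ z).1)
      (fun s hs => (h s ⟨by linarith [ht.1, ht.2, hs.1], by linarith [ht.2, hs.2]⟩ y).2)
  · have hfd : fderiv ℝ (fun z => -F z) = fun z => -fderiv ℝ F z := by
      funext z; exact fderiv_fun_neg
    have := OdeDep.forward (fun z => -F z) (K + 1) (by positivity) hK1.neg hd.neg
      (by rw [hfd]; exact hu.neg) (-t) (by linarith) (fun s => Φ (-s)) (fun s => D (-s) y) y
      (by simpa using h0) (by simpa using hD0 y)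
      (fun s hs z => by
        have h1 := (h (-s) ⟨by linarith [ht.1, hs.2], by linarith [ht.1, ht.2, hs.1]⟩ z).1
        have h2 := h1.scomp s (hasDerivAt_neg s)
        rw [neg_one_smul] at h2
        exact h2)
      (fun s hs => by
        have h1 := (h (-s) ⟨by linarith [ht.1, hs.2], by linarith [ht.1, ht.2, hs.1]⟩ y).2
        have h2 := h1.scomp s (hasDerivAt_neg s)
        rw [neg_one_smul, ← ContinuousLinearMap.neg_comp] at h2
        rw [hfd]
        exact h2)
    simpa using this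

end Crest.Agent.R244
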