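import Crest.Agent.R244.Defs2
/-! Row 244, OdeEx: short-time flow and variational equation of a compactly supported field. -/
set_option autoImplicit false
open scoped ContDiff Topology NNReal
open Set Filter Metric

noncomputable section
namespace Crest.Agent.R244

namespace OdeEx

theorem gen {E : Type} [NormedAddCommGroup E] [NormedSpace ℝ E] [CompleteSpace E] (F : E → E)
    (hF : ContDiff ℝ 1 F) (hc : HasCompactSupport F) :
    ∃ δ > 0, ∃ (Φ : ℝ → E → E) (D : ℝ → E → (E →L[ℝ] E)),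
    (∀ y, Φ 0 y = y) ∧ (∀ y, D 0 y = ContinuousLinearMap.id ℝ _) ∧
    ∀ t ∈ Ioo (-δ) δ, ∀ y, HasDerivAt (fun s => Φ s y) (F (Φ t y)) t ∧
      HasDerivAt (fun s => D s y) ((fderiv ℝ F (Φ t y)).comp (D t y)) t := by
  obtain ⟨B, hB⟩ := hF.continuous.bounded_above_of_compact_support hc
  have hcd : Continuous (fderiv ℝ F) := hF.continuous_fderiv (by norm_num)
  obtain ⟨K₀, hK₀⟩ := hcd.bounded_above_of_compact_support (hc.fderiv ℝ)
  have hB0 : 0 ≤ B := (norm_nonneg _).trans (hB 0)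
  have hK0 : 0 ≤ K₀ := (norm_nonneg _).trans (hK₀ 0)
  lift B to ℝ≥0 using hB0
  lift K₀ to ℝ≥0 using hK0 with K
  have hlip : LipschitzWith K F :=
    lipschitzWith_of_nnnorm_fderiv_le (hF.differentiable (by norm_num)) fun x => hK₀ x
  set δ : ℝ := 1 / (2 * K + B + 1) with hδ
  have hden : (0 : ℝ) < 2 * K + B + 1 := by positivity
  have hδ0 : 0 < δ := by positivity
  have h0 : (0 : ℝ) ∈ Icc (-δ) δ := ⟨by linarith, hδ0.le⟩
  have hmax : max (δ - ((⟨0, h0⟩ : Icc (-δ) δ) : ℝ)) (((⟨0, h0⟩ : Icc (-δ) δ) : ℝ) - -δ) = δ := by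
    simp
  have hΦ : ∀ y : E, ∃ α : ℝ → E, α 0 = y ∧
      ∀ t ∈ Icc (-δ) δ, HasDerivWithinAt α (F (α t)) (Icc (-δ) δ) t := by
    intro y
    have hpl : IsPicardLindelof (fun _ => F) (⟨0, h0⟩ : Icc (-δ) δ) y 1 0 B K := by
      refine IsPicardLindelof.of_time_independent (fun x _ => hB x) hlip.lipschitzOnWith ?_
      rw [hmax, hδ, mul_one_div, NNReal.coe_one, NNReal.coe_zero, sub_zero, div_le_one hden]
      have : (0 : ℝ) ≤ K := K.2
      linarith
    exact hpl.exists_eq_forall_mem_Icc_hasDerivWithinAt₀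
  choose Φ hΦ0 hΦd using hΦ
  have hD : ∀ y : E, ∃ α : ℝ → E →L[ℝ] E, α 0 = ContinuousLinearMap.id ℝ E ∧
      ∀ t ∈ Icc (-δ) δ, HasDerivWithinAt α ((fderiv ℝ F (Φ y t)).comp (α t)) (Icc (-δ) δ) t := by
    intro y
    have hcont : ContinuousOn (Φ y) (Icc (-δ) δ) := fun t ht => (hΦd y t ht).continuousWithinAt
    have hpl : IsPicardLindelof (fun t (A : E →L[ℝ] E) => (fderiv ℝ F (Φ y t)).comp A)
        (⟨0, h0⟩ : Icc (-δ) δ) (ContinuousLinearMap.id ℝ E) 1 0 (2 * K) K := by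
      refine ⟨fun t _ => ?_, fun A _ => ?_, fun t _ A hA => ?_, ?_⟩
      · refine LipschitzWith.lipschitzOnWith (LipschitzWith.of_dist_le_mul fun A A' => ?_)
        rw [dist_eq_norm, dist_eq_norm, ← ContinuousLinearMap.comp_sub]
        exact (ContinuousLinearMap.opNorm_comp_le _ _).trans
          (mul_le_mul_of_nonneg_right (hK₀ _) (norm_nonneg _))
      · exact (hcd.comp_continuousOn hcont).clm_comp continuousOn_const
      · have hA' : ‖A‖ ≤ 2 := by
          have h1 : ‖A - ContinuousLinearMap.id ℝ E‖ ≤ 1 := by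
            simpa [dist_eq_norm] using hA
          have h2 : ‖ContinuousLinearMap.id ℝ E‖ ≤ 1 := ContinuousLinearMap.norm_id_le
          calc ‖A‖ = ‖(A - ContinuousLinearMap.id ℝ E) + ContinuousLinearMap.id ℝ E‖ := by
                rw [sub_add_cancel]
            _ ≤ _ := norm_add_le _ _
            _ ≤ 2 := by linarith
        refine (ContinuousLinearMap.opNorm_comp_le _ _).trans ?_
        have := mul_le_mul (hK₀ (Φ y t)) hA' (norm_nonneg _) K.2
        push_cast
        linarith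
      · rw [hmax, hδ, mul_one_div, NNReal.coe_one, NNReal.coe_zero, sub_zero, div_le_one hden]
        have : (0 : ℝ) ≤ B := B.2
        push_cast
        linarith
    exact hpl.exists_eq_forall_mem_Icc_hasDerivWithinAt₀
  choose D hD0 hDd using hD
  refine ⟨δ, hδ0, fun t y => Φ y t, fun t y => D y t, hΦ0, hD0, fun t ht y => ⟨?_, ?_⟩⟩
  · exact (hΦd y t (Ioo_subset_Icc_self ht)).hasDerivAt (Icc_mem_nhds ht.1 ht.2)
  · exact (hDd y t (Ioo_subset_Icc_self ht)).hasDerivAt (Icc_mem_nhds ht.1 ht.2)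

end OdeEx

theorem odeEx : OdeExS := fun F hF hc => OdeEx.gen F hF hc

end Crest.Agent.R244
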