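import Crest.Agent.R244.Defs2
/-! Row 244, task Orth: a commutator in the centraliser of `f` is orthogonal to `f`. -/
set_option autoImplicit false
open scoped Topology
open Set Filter

noncomputable section
namespace Crest.Agent.R244
namespace Orth

variable {G : Type} [Group G] {len l : G → ℝ}

lemma inv_pair (h : LenFn G len) {u a : G} (hu : Commute u a) :
    len (u * a) ^ 2 + len (u * a⁻¹) ^ 2 ≤ 2 * len u ^ 2 + 2 * len a ^ 2 := by
  have hc : Commute (u * a⁻¹) a := hu.mul_left (Commute.refl a).inv_left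
  have := h.quad (u * a⁻¹) a a hc hc
  rw [inv_mul_cancel_right] at this
  linarith

lemma comm_bd (h : LenFn G len) (a b : G) : ∃ C : ℝ, ∀ u : G, Commute u a → Commute u b →
    len (u * (b⁻¹ * a⁻¹ * b * a)) ^ 2 - len u ^ 2 ≤ C := by
  refine ⟨len (b⁻¹ * a⁻¹) ^ 2 + len (b * a) ^ 2 + 4 * len a ^ 2 + 4 * len b ^ 2,
    fun u ha hb => ?_⟩
  have h1 := h.quad u (b⁻¹ * a⁻¹) (b * a) (hb.inv_right.mul_right ha.inv_right) (hb.mul_right ha)
  have h2 := h.quad u b⁻¹ a⁻¹ hb.inv_right ha.inv_right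
  have h3 := h.quad u b a hb ha
  have h4 := inv_pair h ha
  have h5 := inv_pair h hb
  rw [h.inv, h.inv] at h2
  simp only [mul_assoc] at h1 h2 h3 ⊢
  linarith

lemma len_pow (h : LenFn G len) (c : G) (n : ℕ) : len (c ^ n) ≤ n * len c := by
  induction n with
  | zero => simp [h.one]
  | succ n ih =>
    rw [pow_succ]
    have := h.mul (c ^ n) c
    push_cast
    linarith

lemma doubling (h : LenFn G len) {u c : G} (hc : Commute u c) {C : ℝ}
    (hC : len (u * c) ^ 2 - len u ^ 2 ≤ C) (k : ℕ) :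
    len (u * c ^ (2 ^ k)) ^ 2 - len u ^ 2 ≤ 2 ^ k * C + ((2 ^ k) ^ 2 - 2 ^ k) * len c ^ 2 := by
  induction k with
  | zero => simpa using hC
  | succ k ih =>
    have h1 := h.quad u (c ^ 2 ^ k) (c ^ 2 ^ k) (hc.pow_right _) (hc.pow_right _)
    rw [mul_assoc, ← pow_add, ← two_mul, ← pow_succ'] at h1
    have h2 := len_pow h c (2 ^ k)
    have h3 : len (c ^ 2 ^ k) ^ 2 ≤ (2 ^ k) ^ 2 * len c ^ 2 := by
      rw [← mul_pow]
      push_cast at h2
      exact pow_le_pow_left₀ (h.nonneg _) h2 2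
    rw [pow_succ (2 : ℝ) k]
    nlinarith

lemma l_inv (h : LenFn G len) (hs : StableLen G len l) (g : G) : l g⁻¹ = l g := by
  refine tendsto_nhds_unique (hs.lim g⁻¹) ?_
  simpa only [inv_pow, h.inv] using hs.lim g

lemma l_pow (h : LenFn G len) (hs : StableLen G len l) (g : G) (N : ℕ) : l (g ^ N) = N * l g := by
  rcases Nat.eq_zero_or_pos N with rfl | hN
  · refine tendsto_nhds_unique (hs.lim _) ?_
    simp [h.one]
  refine tendsto_nhds_unique (hs.lim _) ?_
  have h1 : Tendsto (fun n : ℕ => N * n) atTop atTop := tendsto_id.const_mul_atTop' hN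
  have h2 := ((hs.lim g).comp h1).const_mul (N : ℝ)
  refine h2.congr fun n => ?_
  have : (N : ℝ) ≠ 0 := by positivity
  simp only [Function.comp, ← pow_mul]
  push_cast
  by_cases hn : (n : ℝ) = 0
  · simp [hn]
  · field_simp

lemma stable_bd (h : LenFn G len) (hs : StableLen G len l) {f c : G} (hc : Commute f c) {C : ℝ}
    (hC : ∀ n : ℕ, len (f ^ n * c) ^ 2 - len (f ^ n) ^ 2 ≤ C) (N : ℕ) :
    l (f ^ N * c) ^ 2 - l (f ^ N) ^ 2 ≤ len c ^ 2 := by
  have ht : Tendsto (fun k : ℕ => 2 ^ k) atTop atTop := tendsto_pow_atTop_atTop_of_one_lt one_lt_two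
  have h1 := (((hs.lim (f ^ N * c)).comp ht).pow 2).sub (((hs.lim (f ^ N)).comp ht).pow 2)
  have h2 : Tendsto (fun k : ℕ => C / (2 : ℝ) ^ k + len c ^ 2) atTop (𝓝 (0 + len c ^ 2)) :=
    (tendsto_const_nhds.div_atTop (tendsto_pow_atTop_atTop_of_one_lt one_lt_two)).add_const _
  rw [zero_add] at h2
  refine le_of_tendsto_of_tendsto' h1 h2 fun k => ?_
  have h3 := doubling h (hc.pow_left (N * 2 ^ k)) (hC (N * 2 ^ k)) k
  have hp : (0 : ℝ) < 2 ^ k := by positivity
  simp only [Function.comp]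
  rw [(hc.pow_left N).mul_pow, ← pow_mul]
  push_cast
  rw [div_pow, div_pow, ← sub_div, div_le_iff₀ (by positivity)]
  have h4 : (C / 2 ^ k + len c ^ 2) * (2 ^ k) ^ 2 = 2 ^ k * C + (2 ^ k) ^ 2 * len c ^ 2 := by
    field_simp
  rw [h4]
  nlinarith [mul_nonneg hp.le (sq_nonneg (len c))]

lemma beta_le (h : LenFn G len) (hs : StableLen G len l) {f c : G} (hc : Commute f c) {C : ℝ}
    (hC : ∀ n : ℕ, len (f ^ n * c) ^ 2 - len (f ^ n) ^ 2 ≤ C) :
    l (f * c) ^ 2 - l c ^ 2 - l f ^ 2 ≤ 0 := by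
  set β := l (f * c) ^ 2 - l c ^ 2 - l f ^ 2 with hβ
  have key : ∀ N : ℕ, l (f ^ N * c) ^ 2 = l c ^ 2 + β * N + N ^ 2 * l f ^ 2 ∧
      l (f ^ (N + 1) * c) ^ 2 = l c ^ 2 + β * (N + 1) + (N + 1) ^ 2 * l f ^ 2 := by
    intro N
    induction N with
    | zero => simp [hβ]; ring
    | succ N ih =>
      refine ⟨by push_cast; exact ih.2, ?_⟩
      have hcm : Commute (f ^ (N + 1) * c) f :=
        ((Commute.refl f).pow_left _).mul_left hc.symm
      have h1 := hs.para _ _ hcm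
      have e1 : f ^ (N + 1) * c * f = f ^ (N + 1 + 1) * c := by
        rw [mul_assoc, ← hc.eq, ← mul_assoc, ← pow_succ]
      have e2 : f ^ (N + 1) * c * f⁻¹ = f ^ N * c := by
        rw [mul_assoc, ← hc.inv_left.eq, ← mul_assoc, pow_succ, mul_inv_cancel_right]
      rw [e1, e2, ih.1, ih.2] at h1
      push_cast
      linarith
  by_contra hb
  push Not at hb
  obtain ⟨N, hN⟩ := exists_nat_gt (len c ^ 2 / β)
  have h1 := stable_bd h hs hc hC N
  rw [(key N).1, l_pow h hs, mul_pow] at h1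
  rw [div_lt_iff₀ hb] at hN
  nlinarith [sq_nonneg (l c)]

end Orth

open Orth in
theorem orth : OrthS := by
  intro G _ len l h hs f a b ha hb
  have hc : Commute f (b⁻¹ * a⁻¹ * b * a) :=
    ((hb.inv_right.mul_right ha.inv_right).mul_right hb).mul_right ha
  obtain ⟨C, hC⟩ := comm_bd h a b
  obtain ⟨C', hC'⟩ := comm_bd h b a
  have e : a⁻¹ * b⁻¹ * a * b = (b⁻¹ * a⁻¹ * b * a)⁻¹ := by group
  rw [e] at hC'
  have h1 := beta_le h hs hc fun n => hC _ (ha.pow_left n) (hb.pow_left n)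
  have h2 := beta_le h hs hc.inv_right fun n => hC' _ (hb.pow_left n) (ha.pow_left n)
  have h3 := hs.para _ _ hc
  rw [l_inv h hs] at h2
  linarith

end Crest.Agent.R244
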