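import Crest.Agent.R244.Defs2
/-! Row 244, PFacts: elementary facts on the normal forms of the graph manifold. -/
set_option autoImplicit false
open scoped ContDiff Topology
open Set Filter

noncomputable section
namespace Crest.Agent.R244

namespace PFactsAux

theorem dz_le (x : ℝ) (k : ℤ) : dz x ≤ |x - k| := round_le x k

theorem dz_int (x : ℝ) (k : ℤ) : dz (x + k) = dz x := by
  unfold dz
  rw [round_add_intCast]
  push_cast
  congr 1; ring

theorem dz_small (x : ℝ) (h : |x| ≤ 1 / 2) : dz x = |x| := by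
  refine le_antisymm (by simpa using dz_le x 0) ?_
  unfold dz
  rcases eq_or_ne (round x) 0 with h0 | h0
  · simp [h0]
  · have h1 : (1 : ℝ) ≤ |(round x : ℝ)| := by
      have := Int.one_le_abs h0
      exact_mod_cast this
    have h2 := abs_sub_abs_le_abs_sub (round x : ℝ) x
    rw [abs_sub_comm] at h2
    linarith

theorem dz_cont : Continuous dz := by
  refine (LipschitzWith.of_le_add (f := dz) fun x y => ?_).continuous
  refine (dz_le x (round y)).trans ?_
  rw [Real.dist_eq]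
  have := abs_sub_le x y (round y)
  unfold dz
  linarith

theorem pp (i : Fin 3) (y y' : E3) : PP i y = PP i y' ↔ ZEq y y' := by
  unfold PP ZEq
  simp only [Prod.mk.injEq, true_and, funext_iff]
  refine forall_congr' fun j => ?_
  rw [eq_comm, Int.fract_eq_fract]
  exact exists_congr fun k => ⟨fun h => by linarith, fun h => by linarith⟩

theorem int_zero {a b : ℝ} {k : ℤ} (ha : |a| < 1 / 4) (hb : |b| < 1 / 4) (h : b = a + k) : b = a := by
  have h1 := abs_lt.1 ha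
  have h2 := abs_lt.1 hb
  have h3 : (k : ℝ) < 1 := by linarith
  have h4 : (-1 : ℝ) < k := by linarith
  have h5 : k < 1 := by exact_mod_cast h3
  have h6 : -1 < k := by exact_mod_cast h4
  obtain rfl : k = 0 := by omega
  simpa using h

theorem abs_cos_lt {r : ℝ} (h1 : 1 / 8 < r) (h2 : r < 1 / 4) (θ : ℝ) : |r * Real.cos θ| < 1 / 4 := by
  rw [abs_mul, abs_of_pos (by linarith : 0 < r)]
  nlinarith [Real.abs_cos_le_one θ, abs_nonneg (Real.cos θ)]

theorem abs_sin_lt {r : ℝ} (h1 : 1 / 8 < r) (h2 : r < 1 / 4) (θ : ℝ) :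
    |-(r * Real.sin θ)| < 1 / 4 := by
  rw [abs_neg, abs_mul, abs_of_pos (by linarith : 0 < r)]
  nlinarith [Real.abs_sin_le_one θ, abs_nonneg (Real.sin θ)]

theorem polar_inj {r r' θ θ' : ℝ} {k l : ℤ} (h1 : 1 / 8 < r) (h2 : r < 1 / 4) (h1' : 1 / 8 < r')
    (h2' : r' < 1 / 4) (e1 : r' * Real.cos θ' = r * Real.cos θ + k)
    (e2 : -(r' * Real.sin θ') = -(r * Real.sin θ) + l) :
    r' = r ∧ ∃ m : ℤ, θ' = θ + 2 * Real.pi * m := by
  have f1 := int_zero (abs_cos_lt h1 h2 θ) (abs_cos_lt h1' h2' θ') e1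
  have f2 := int_zero (abs_sin_lt h1 h2 θ) (abs_sin_lt h1' h2' θ') e2
  have f3 : r' * Real.sin θ' = r * Real.sin θ := by linarith
  have hr : r' = r := by
    have : r' ^ 2 = r ^ 2 := by
      have a1 := Real.cos_sq_add_sin_sq θ
      have a2 := Real.cos_sq_add_sin_sq θ'
      calc r' ^ 2 = (r' * Real.cos θ') ^ 2 + (r' * Real.sin θ') ^ 2 := by
            rw [mul_pow, mul_pow, ← mul_add, a2, mul_one]
        _ = r ^ 2 := by rw [f1, f3, mul_pow, mul_pow, ← mul_add, a1, mul_one]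
    exact (pow_left_inj₀ (by linarith) (by linarith) two_ne_zero).1 this
  refine ⟨hr, ?_⟩
  rw [hr] at f1 f3
  have hr0 : r ≠ 0 := by linarith
  obtain ⟨m, hm⟩ := Real.Angle.angle_eq_iff_two_pi_dvd_sub.1
    (Real.Angle.cos_sin_inj (mul_left_cancel₀ hr0 f1) (mul_left_cancel₀ hr0 f3))
  exact ⟨m, by linarith⟩

theorem polar_dz {r : ℝ} (h1 : 1 / 8 < r) (h2 : r < 1 / 4) (θ : ℝ) :
    dz (r * Real.cos θ) ^ 2 + dz (-(r * Real.sin θ)) ^ 2 = r ^ 2 := by
  rw [dz_small _ (by linarith [abs_cos_lt h1 h2 θ]), dz_small _ (by linarith [abs_sin_lt h1 h2 θ]),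
    sq_abs, sq_abs, neg_sq, mul_pow, mul_pow, ← mul_add, Real.cos_sq_add_sin_sq, mul_one]

theorem polar_surj {x y : ℝ} (h1 : 1 / 64 < dz x ^ 2 + dz y ^ 2) (h2 : dz x ^ 2 + dz y ^ 2 < 1 / 16) :
    ∃ r θ : ℝ, 1 / 8 < r ∧ r < 1 / 4 ∧ x = r * Real.cos θ + round x ∧
      y = -(r * Real.sin θ) + round y := by
  set w : ℂ := ⟨x - round x, -(y - round y)⟩ with hw
  have hn : ‖w‖ ^ 2 = dz x ^ 2 + dz y ^ 2 := by
    rw [Complex.sq_norm, Complex.normSq_apply]
    simp only [hw, dz, sq_abs]; ring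
  have h0 := norm_nonneg w
  refine ⟨‖w‖, w.arg, by nlinarith, by nlinarith, ?_, ?_⟩
  · rw [Complex.norm_mul_cos_arg]; simp [hw]
  · rw [Complex.norm_mul_sin_arg]; simp [hw]

theorem rad1 {P : Prof} (hP : P.OK) {y : E3} (hy : y ∈ P.YN) (h : y 0 < -1) :
    1 / 8 < P.r₁ (y 0) ∧ P.r₁ (y 0) < 1 / 4 := by
  have := hP.phi.R_pos
  have h1 := hy.1
  unfold Prof.r₁ Prof.L₁
  constructor
  · rw [lt_div_iff₀ (by positivity)]; linarith
  · rw [div_lt_iff₀ (by positivity)]; linarith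

theorem rad2 {P : Prof} (hP : P.OK) {y : E3} (hy : y ∈ P.YN) (h : 3 / 2 < y 0) :
    1 / 8 < P.r₂ (y 0) ∧ P.r₂ (y 0) < 1 / 4 := by
  have := hP.R₂_pos
  have h1 := hy.2
  unfold Prof.r₂ Prof.L₂
  constructor
  · rw [lt_div_iff₀ (by positivity)]; linarith
  · rw [div_lt_iff₀ (by positivity)]; linarith

theorem n1 (P : Prof) (y y' : E3) : P.PN y = PP 0 y' ↔ y 0 < -1 ∧ ZEq (P.pol₁ y) y' := by
  unfold Prof.PN
  split_ifs with h1 h2
  · rw [pp]; simp [h1]
  · simp [PP, h1]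
  · simp [PP, h1]

theorem n2 (P : Prof) (y y' : E3) : P.PN y = PP 2 y' ↔ 3 / 2 < y 0 ∧ ZEq (P.pol₂ y) y' := by
  unfold Prof.PN
  split_ifs with h1 h2
  · have : ¬ (3 / 2 < y 0) := by linarith
    simp only [PP, this, Prod.mk.injEq, false_and, iff_false, not_and]
    intro h; exact absurd h (by decide)
  · rw [pp]; simp only [h2, true_and]
  · simp only [PP, h2, Prod.mk.injEq, false_and, iff_false, not_and]
    intro h; exact absurd h (by decide)

theorem nn {P : Prof} (hP : P.OK) (y : E3) (hy : y ∈ P.YN) (y' : E3) (hy' : y' ∈ P.YN) :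
    P.PN y = P.PN y' ↔ y' 0 = y 0 ∧ (∃ k : ℤ, y' 1 = y 1 + 2 * Real.pi * k) ∧
      ∃ k : ℤ, y' 2 = y 2 + 2 * Real.pi * P.T * k := by
  have hT := hP.T_pos
  have hpi := Real.pi_pos
  have hR1 := hP.phi.R_pos
  have hR2 := hP.R₂_pos
  constructor
  · intro h
    by_cases h1 : y' 0 < -1
    · have e : P.PN y' = PP 0 (P.pol₁ y') := by unfold Prof.PN; rw [if_pos h1]
      rw [e, n1] at h
      obtain ⟨h0, hz⟩ := h
      obtain ⟨k, hk⟩ := hz 0
      obtain ⟨l, hl⟩ := hz 1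
      obtain ⟨m, hm⟩ := hz 2
      obtain ⟨a1, a2⟩ := polar_inj (rad1 hP hy h0).1 (rad1 hP hy h0).2 (rad1 hP hy' h1).1
        (rad1 hP hy' h1).2 hk hl
      refine ⟨?_, a2, m, ?_⟩
      · unfold Prof.r₁ Prof.L₁ at a1
        rw [div_left_inj' (by positivity)] at a1
        linarith
      · have hm' : y' 2 / (2 * Real.pi * P.T) = y 2 / (2 * Real.pi * P.T) + m := hm
        field_simp at hm'
        linarith
    · by_cases h2 : 3 / 2 < y' 0
      · have e : P.PN y' = PP 2 (P.pol₂ y') := by unfold Prof.PN; rw [if_neg h1, if_pos h2]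
        rw [e, n2] at h
        obtain ⟨h0, hz⟩ := h
        obtain ⟨k, hk⟩ := hz 0
        obtain ⟨l, hl⟩ := hz 1
        obtain ⟨m, hm⟩ := hz 2
        obtain ⟨a1, n, a2⟩ := polar_inj (rad2 hP hy h0).1 (rad2 hP hy h0).2 (rad2 hP hy' h2).1
          (rad2 hP hy' h2).2 hk hl
        have a3 : y' 2 = y 2 + 2 * Real.pi * P.T * n := by
          field_simp at a2
          linarith
        refine ⟨?_, ⟨m - n, ?_⟩, n, a3⟩
        · unfold Prof.r₂ Prof.L₂ at a1
          rw [div_left_inj' (by positivity)] at a1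
          linarith
        · have hm' : y' 1 / (2 * Real.pi) + y' 2 / (2 * Real.pi * P.T) =
            y 1 / (2 * Real.pi) + y 2 / (2 * Real.pi * P.T) + m := hm
          rw [a3] at hm'
          have : (y 2 + 2 * Real.pi * P.T * n) / (2 * Real.pi * P.T) =
              y 2 / (2 * Real.pi * P.T) + n := by field_simp
          rw [this] at hm'
          have h3 : y' 1 / (2 * Real.pi) = y 1 / (2 * Real.pi) + (m - n) := by linarith
          field_simp at h3
          push_cast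
          linarith
      · unfold Prof.PN at h
        rw [if_neg h1, if_neg h2] at h
        split_ifs at h with h3 h4
        · exact absurd (congrArg Prod.fst h) (by simp [PP])
        · exact absurd (congrArg Prod.fst h) (by simp only [PP]; decide)
        · have h5 := congrArg Prod.snd h
          have b0 : y 0 = y' 0 := congrFun h5 0
          have b1 : Int.fract (y 1 / (2 * Real.pi)) = Int.fract (y' 1 / (2 * Real.pi)) :=
            congrFun h5 1
          have b2 : Int.fract (y 2 / (2 * Real.pi * P.T)) = Int.fract (y' 2 / (2 * Real.pi * P.T)) :=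
            congrFun h5 2
          obtain ⟨k, hk⟩ := Int.fract_eq_fract.1 b1.symm
          obtain ⟨l, hl⟩ := Int.fract_eq_fract.1 b2.symm
          refine ⟨b0.symm, ⟨k, ?_⟩, l, ?_⟩
          · field_simp at hk; linarith
          · field_simp at hl; linarith
  · rintro ⟨h0, ⟨k, hk⟩, l, hl⟩
    have c1 : y' 1 / (2 * Real.pi) = y 1 / (2 * Real.pi) + k := by rw [hk]; field_simp
    have c2 : y' 2 / (2 * Real.pi * P.T) = y 2 / (2 * Real.pi * P.T) + l := by rw [hl]; field_simp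
    have c3 : y' 2 / P.T = y 2 / P.T + l * (2 * Real.pi) := by rw [hl]; field_simp
    have c4 : y' 1 = y 1 + k * (2 * Real.pi) := by rw [hk]; ring
    unfold Prof.PN
    rw [h0]
    split_ifs with h1 h2
    · rw [pp]
      intro i
      fin_cases i
      · refine ⟨0, ?_⟩
        show P.r₁ (y' 0) * Real.cos (y' 1) = P.r₁ (y 0) * Real.cos (y 1) + ((0 : ℤ) : ℝ)
        rw [h0, c4, Real.cos_add_int_mul_two_pi]; simp
      · refine ⟨0, ?_⟩
        show -(P.r₁ (y' 0) * Real.sin (y' 1)) = -(P.r₁ (y 0) * Real.sin (y 1)) + ((0 : ℤ) : ℝ)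
        rw [h0, c4, Real.sin_add_int_mul_two_pi]; simp
      · exact ⟨l, c2⟩
    · rw [pp]
      intro i
      fin_cases i
      · refine ⟨0, ?_⟩
        show P.r₂ (y' 0) * Real.cos (y' 2 / P.T) = P.r₂ (y 0) * Real.cos (y 2 / P.T) + ((0 : ℤ) : ℝ)
        rw [h0, c3, Real.cos_add_int_mul_two_pi]; simp
      · refine ⟨0, ?_⟩
        show -(P.r₂ (y' 0) * Real.sin (y' 2 / P.T)) =
          -(P.r₂ (y 0) * Real.sin (y 2 / P.T)) + ((0 : ℤ) : ℝ)
        rw [h0, c3, Real.sin_add_int_mul_two_pi]; simp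
      · refine ⟨k + l, ?_⟩
        show y' 1 / (2 * Real.pi) + y' 2 / (2 * Real.pi * P.T) =
          y 1 / (2 * Real.pi) + y 2 / (2 * Real.pi * P.T) + ((k + l : ℤ) : ℝ)
        rw [c1, c2]; push_cast; ring
    · rw [c1, c2, Int.fract_add_intCast, Int.fract_add_intCast]

end PFactsAux

open PFactsAux in
theorem pFacts : PFactsS := by
  intro P hP
  have hT := hP.T_pos
  have hpi := Real.pi_pos
  have hR1 := hP.phi.R_pos
  have hR2 := hP.R₂_pos
  refine ⟨dz_cont, dz_int, dz_small, dz_le, ?_, ?_, ?_, pp, nn hP, n1 P, n2 P, ?_, ?_, ?_, ?_⟩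
  · have := dz_cont
    exact isOpen_lt continuous_const (by fun_prop)
  · exact (isOpen_Ioo (a := -1 - (P.R₁ + 1)) (b := 3 / 2 + (P.R₂ + 3 / 2))).preimage
      (prj 0).continuous
  · exact (convex_Ioo (-1 - (P.R₁ + 1)) (3 / 2 + (P.R₂ + 3 / 2))).is_linear_preimage
      (prj 0).toLinearMap.isLinear
  · intro y hy h
    obtain ⟨a1, a2⟩ := rad1 hP hy h
    have e : dz (P.pol₁ y 0) ^ 2 + dz (P.pol₁ y 1) ^ 2 = P.r₁ (y 0) ^ 2 := polar_dz a1 a2 _
    refine ⟨a1, a2, ?_, e⟩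
    show (1 : ℝ) / 64 < dz (P.pol₁ y 0) ^ 2 + dz (P.pol₁ y 1) ^ 2
    rw [e]; nlinarith
  · intro y hy h
    obtain ⟨a1, a2⟩ := rad2 hP hy h
    have e : dz (P.pol₂ y 0) ^ 2 + dz (P.pol₂ y 1) ^ 2 = P.r₂ (y 0) ^ 2 := polar_dz a1 a2 _
    refine ⟨a1, a2, ?_, e⟩
    show (1 : ℝ) / 64 < dz (P.pol₂ y 0) ^ 2 + dz (P.pol₂ y 1) ^ 2
    rw [e]; nlinarith
  · intro y' hy' h
    obtain ⟨r, θ, a1, a2, a3, a4⟩ := polar_surj hy' h
    have hr : P.r₁ (P.R₁ - P.L₁ * r) = r := by
      unfold Prof.r₁ Prof.L₁; field_simp; ring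
    refine ⟨!₂[P.R₁ - P.L₁ * r, θ, 2 * Real.pi * P.T * y' 2], ⟨?_, ?_⟩, ?_, fun i => ?_⟩
    · show _ < P.R₁ - P.L₁ * r
      unfold Prof.L₁; nlinarith
    · show P.R₁ - P.L₁ * r < _
      unfold Prof.L₁; nlinarith
    · show P.R₁ - P.L₁ * r < _
      unfold Prof.L₁; nlinarith
    · fin_cases i
      · refine ⟨round (y' 0), ?_⟩
        show y' 0 = P.r₁ (P.R₁ - P.L₁ * r) * Real.cos θ + _
        rw [hr]; exact a3
      · refine ⟨round (y' 1), ?_⟩
        show y' 1 = -(P.r₁ (P.R₁ - P.L₁ * r) * Real.sin θ) + _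
        rw [hr]; exact a4
      · refine ⟨0, ?_⟩
        show y' 2 = 2 * Real.pi * P.T * y' 2 / (2 * Real.pi * P.T) + ((0 : ℤ) : ℝ)
        field_simp; simp
  · intro y' hy' h
    obtain ⟨r, θ, a1, a2, a3, a4⟩ := polar_surj hy' h
    have hr : P.r₂ (P.L₂ * r - P.R₂) = r := by
      unfold Prof.r₂ Prof.L₂
      have : (8 : ℝ) * (P.R₂ + 3 / 2) ≠ 0 := by positivity
      rw [div_eq_iff this]; ring
    have hθ : P.T * θ / P.T = θ := by field_simp
    refine ⟨!₂[P.L₂ * r - P.R₂, 2 * Real.pi * y' 2 - θ, P.T * θ], ⟨?_, ?_⟩, ?_, fun i => ?_⟩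
    · show _ < P.L₂ * r - P.R₂
      unfold Prof.L₂; nlinarith
    · show P.L₂ * r - P.R₂ < _
      unfold Prof.L₂; nlinarith
    · show _ < P.L₂ * r - P.R₂
      unfold Prof.L₂; nlinarith
    · fin_cases i
      · refine ⟨round (y' 0), ?_⟩
        show y' 0 = P.r₂ (P.L₂ * r - P.R₂) * Real.cos (P.T * θ / P.T) + _
        rw [hr, hθ]; exact a3
      · refine ⟨round (y' 1), ?_⟩
        show y' 1 = -(P.r₂ (P.L₂ * r - P.R₂) * Real.sin (P.T * θ / P.T)) + _
        rw [hr, hθ]; exact a4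
      · refine ⟨0, ?_⟩
        show y' 2 = (2 * Real.pi * y' 2 - θ) / (2 * Real.pi) + P.T * θ / (2 * Real.pi * P.T) +
          ((0 : ℤ) : ℝ)
        field_simp; simp

end Crest.Agent.R244
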