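import Crest.Agent.R244.Defs2
/-! Row 244, task PhiEx: existence of the profile `φ`. -/
set_option autoImplicit false
open scoped ContDiff Topology
open Set Filter

noncomputable section
namespace Crest.Agent.R244

namespace PhiEx

lemma e_le_one (x : ℝ) : expNegInvGlue x ≤ 1 := by
  unfold expNegInvGlue
  split_ifs with h
  · exact zero_le_one
  · rw [Real.exp_le_one_iff]
    have : 0 < x⁻¹ := inv_pos.2 (not_le.1 h)
    linarith

lemma e_deriv (x : ℝ) : HasDerivAt expNegInvGlue (x⁻¹ ^ 2 * expNegInvGlue x) x := by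
  simpa using expNegInvGlue.hasDerivAt_polynomial_eval_inv_mul 1 x

lemma e_four {x : ℝ} (h0 : 0 ≤ x) (h1 : x ≤ 1 / 2) :
    4 * expNegInvGlue x ≤ x⁻¹ ^ 2 * expNegInvGlue x := by
  rcases h0.eq_or_lt with h | h
  · rw [← h]; simp
  · refine mul_le_mul_of_nonneg_right ?_ (expNegInvGlue.nonneg x)
    have : 2 ≤ x⁻¹ := by rw [le_inv_comm₀ (by norm_num) h]; linarith
    nlinarith

lemma exists_sig : ∃ σ : ℝ → ℝ, ContDiff ℝ ∞ σ ∧ (∀ t ≤ -1, σ t = 1) ∧ (∀ t ≥ 1 / 2, σ t = 0) ∧
    (∀ t, 0 ≤ σ t) ∧ (∀ t, deriv σ t ≤ 0) ∧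
    (∀ t ∈ Icc (0 : ℝ) (1 / 2), σ t ≤ 1 / 1000 ∧ 4 * σ t ≤ -deriv σ t) ∧
    ∀ t ∈ Ico (0 : ℝ) (1 / 2), 0 < σ t := by
  set u : ℝ → ℝ := fun t => 1 - Real.smoothTransition (-t) with hu
  set v : ℝ → ℝ := fun t => 1 - 1 / 1000 * expNegInvGlue (1 / 2 - t) with hv
  have cu : ContDiff ℝ ∞ u := contDiff_const.sub (Real.smoothTransition.contDiff.comp contDiff_neg)
  have cv : ContDiff ℝ ∞ v := contDiff_const.sub (contDiff_const.mul
    (expNegInvGlue.contDiff.comp (contDiff_const.sub contDiff_id)))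
  have u0 : ∀ t, 0 ≤ u t := fun t => sub_nonneg.2 (Real.smoothTransition.le_one _)
  have u1 : ∀ t, u t ≤ 1 := fun t => sub_le_self _ (Real.smoothTransition.nonneg _)
  have v0 : ∀ t, 0 ≤ v t := fun t => by
    have := e_le_one (1 / 2 - t); simp only [hv]; linarith
  have v1 : ∀ t, v t ≤ 1 := fun t => by
    have := expNegInvGlue.nonneg (1 / 2 - t); simp only [hv]; linarith
  have mu : Monotone u := fun a b hab =>
    sub_le_sub_left (Real.smoothTransition.monotone (neg_le_neg hab)) 1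
  have ue : ∀ t, 0 ≤ t → u t = 1 := fun t ht => by
    simp only [hu]; rw [Real.smoothTransition.zero_of_nonpos (by linarith), sub_zero]
  have du : ∀ t, HasDerivAt u (deriv u t) t := fun t =>
    (cu.differentiable (by simp) t).hasDerivAt
  have dv : ∀ t, HasDerivAt v (1 / 1000 * ((1 / 2 - t)⁻¹ ^ 2 * expNegInvGlue (1 / 2 - t))) t := by
    intro t
    have h := (((e_deriv (1 / 2 - t)).comp t ((hasDerivAt_id t).const_sub (1 / 2))).const_mul
      (1 / 1000)).const_sub 1
    exact h.congr_deriv (by ring)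
  have ds : ∀ t, deriv (fun t => 1 - u t * v t) t = -(deriv u t * v t +
      u t * (1 / 1000 * ((1 / 2 - t)⁻¹ ^ 2 * expNegInvGlue (1 / 2 - t)))) := fun t =>
    (((du t).fun_mul (dv t)).const_sub 1).deriv
  refine ⟨fun t => 1 - u t * v t, contDiff_const.sub (cu.mul cv), fun t ht => ?_, fun t ht => ?_,
    fun t => ?_, fun t => ?_, fun t ht => ?_, fun t ht => ?_⟩
  · have : u t = 0 := by
      simp only [hu]; rw [Real.smoothTransition.one_of_one_le (by linarith), sub_self]
    simp only [this, zero_mul, sub_zero]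
  · have : v t = 1 := by
      simp only [hv]; rw [expNegInvGlue.zero_of_nonpos (by linarith)]; ring
    simp only [this, ue t (by linarith), mul_one, sub_self]
  · exact sub_nonneg.2 (mul_le_one₀ (u1 t) (v0 t) (v1 t))
  · rw [ds]
    have h1 := mul_nonneg (mu.deriv_nonneg (x := t)) (v0 t)
    have h2 : 0 ≤ u t * (1 / 1000 * ((1 / 2 - t)⁻¹ ^ 2 * expNegInvGlue (1 / 2 - t))) :=
      mul_nonneg (u0 t) (by have := expNegInvGlue.nonneg (1 / 2 - t); positivity)
    linarith
  · rw [ds]
    have h1 := mul_nonneg (mu.deriv_nonneg (x := t)) (v0 t)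
    have h2 := e_four (x := 1 / 2 - t) (by linarith [ht.2]) (by linarith [ht.1])
    have h3 := e_le_one (1 / 2 - t)
    simp only [ue t ht.1, one_mul]
    simp only [hv] at h1 ⊢
    constructor <;> linarith
  · have h3 := expNegInvGlue.pos_of_pos (x := 1 / 2 - t) (by linarith [ht.2])
    simp only [ue t ht.1, one_mul, hv]
    linarith

end PhiEx

theorem phiEx : PhiExS := by
  obtain ⟨σ, cσ, hl, hr, h0, hd, hb, hp⟩ := PhiEx.exists_sig
  have cσ0 := cσ.continuous
  set f : ℝ → ℝ := fun t => 4 / 5 - ∫ x in (1 / 2 : ℝ)..t, σ x with hf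
  have df : ∀ t, HasDerivAt f (-σ t) t := fun t =>
    (cσ0.integral_hasStrictDerivAt (1 / 2) t).hasDerivAt.const_sub _
  have dfe : deriv f = fun t => -σ t := funext fun t => (df t).deriv
  have cf : ContDiff ℝ ∞ f := by
    rw [contDiff_infty_iff_deriv, dfe]
    exact ⟨fun t => (df t).differentiableAt, cσ.neg⟩
  have fr : ∀ t ≥ 1 / 2, f t = 4 / 5 := fun t ht => by
    have : ∫ x in (1 / 2 : ℝ)..t, σ x = ∫ _x in (1 / 2 : ℝ)..t, (0 : ℝ) :=
      intervalIntegral.integral_congr fun x hx => hr x (by rw [uIcc_of_le ht] at hx; exact hx.1)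
    simp only [hf, this]; simp
  have af : Antitone f := antitone_of_deriv_nonpos (fun t => (df t).differentiableAt)
    (fun t => by rw [dfe]; exact neg_nonpos.2 (h0 t))
  have fge : ∀ t, 4 / 5 ≤ f t := fun t => by
    rcases le_total t (1 / 2) with h | h
    · rw [← fr (1 / 2) le_rfl]; exact af h
    · rw [fr t h]
  have fpos : ∀ t, 0 < f t := fun t => by linarith [fge t]
  have fl : ∀ t ≤ -1, f t = (f (-1) - 1) - t := fun t ht => by
    have h1 := intervalIntegral.integral_add_adjacent_intervals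
      (cσ0.intervalIntegrable (μ := MeasureTheory.volume) (1 / 2) (-1))
      (cσ0.intervalIntegrable (-1) t)
    have h2 : ∫ x in (-1 : ℝ)..t, σ x = ∫ _x in (-1 : ℝ)..t, (1 : ℝ) :=
      intervalIntegral.integral_congr fun x hx => hl x (by rw [uIcc_of_ge ht] at hx; exact hx.2)
    simp only [intervalIntegral.integral_const, smul_eq_mul, mul_one] at h2
    simp only [hf]
    linarith
  have fle : ∀ t ∈ Icc (0 : ℝ) (1 / 2), f t ≤ 1 := fun t ht => by
    have h1 : ∫ x in t..(1 / 2 : ℝ), σ x ≤ ∫ _x in t..(1 / 2 : ℝ), (1 / 1000 : ℝ) :=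
      intervalIntegral.integral_mono_on ht.2 (cσ0.intervalIntegrable _ _)
        (continuous_const.intervalIntegrable _ _) fun x hx => (hb x ⟨ht.1.trans hx.1, hx.2⟩).1
    simp only [intervalIntegral.integral_const, smul_eq_mul] at h1
    simp only [hf]
    rw [intervalIntegral.integral_symm]
    linarith [ht.1]
  have d1 : ∀ t, HasDerivAt (fun t => 1 / f t ^ 2) (2 * σ t / f t ^ 3) t := fun t => by
    have h := (hasDerivAt_const t (1 : ℝ)).fun_div ((df t).fun_pow 2) (pow_ne_zero 2 (fpos t).ne')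
    refine h.congr_deriv ?_
    have := (fpos t).ne'
    simp only [Nat.cast_ofNat, Nat.add_one_sub_one, pow_one]
    field_simp
    ring
  have e1 : deriv (fun t => 1 / f t ^ 2) = fun t => 2 * σ t / f t ^ 3 := funext fun t => (d1 t).deriv
  have e2 : ∀ t, deriv (fun t => 2 * σ t / f t ^ 3) t =
      2 * deriv σ t / f t ^ 3 + 6 * σ t ^ 2 / f t ^ 4 := fun t => by
    have h := ((cσ.differentiable (by simp) t).hasDerivAt.const_mul 2).fun_div ((df t).fun_pow 3)
      (pow_ne_zero 3 (fpos t).ne')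
    refine h.deriv.trans ?_
    have := (fpos t).ne'
    simp only [Nat.cast_ofNat, Nat.add_one_sub_one]
    field_simp
    ring
  refine ⟨fun t => 1 / f t ^ 2, f (-1) - 1, 4 / 5, contDiff_const.div (cf.pow 2)
    (fun t => pow_ne_zero 2 (fpos t).ne'), fun t => by have := fpos t; positivity,
    by linarith [fpos (-1)], by norm_num, fun t ht => by simp only [← fl t ht],
    fun t ht => by simp only [fr t ht], fun t => ?_, fun t => ?_, fun t ht => ?_, fun t ht => ?_⟩
  · rw [e1]; have := fpos t; have := h0 t; positivity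
  · rw [e1, e2]
    have hF := fpos t
    have e : 3 * (2 * σ t / f t ^ 3 / 2) ^ 2 -
        (2 * deriv σ t / f t ^ 3 + 6 * σ t ^ 2 / f t ^ 4) / 2 * (1 / f t ^ 2) =
        -deriv σ t / f t ^ 5 := by field_simp; ring
    have : 0 ≤ -deriv σ t / f t ^ 5 := div_nonneg (neg_nonneg.2 (hd t)) (by positivity)
    simp only
    linarith
  · rw [e1, e2]
    have hF := fpos t
    have g1 := fge t
    have g2 := fle t ht
    obtain ⟨b1, b2⟩ := hb t ht
    have s0 := h0 t
    have f2 : 16 / 25 ≤ f t ^ 2 := by nlinarith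
    have f3 : 1 / 2 ≤ f t ^ 3 := by nlinarith
    refine ⟨?_, ?_, ?_, ?_⟩
    · rw [le_div_iff₀ (by positivity)]; nlinarith
    · rw [div_le_iff₀ (by positivity)]; linarith
    · simp only; rw [div_div, div_le_iff₀ (by positivity)]; linarith
    · have e : -((2 * deriv σ t / f t ^ 3 + 6 * σ t ^ 2 / f t ^ 4) / 2) - 2 * σ t / f t ^ 3 / 2 =
          ((-deriv σ t - σ t) * f t - 3 * σ t ^ 2) / f t ^ 4 := by field_simp; ring
      have : 0 ≤ ((-deriv σ t - σ t) * f t - 3 * σ t ^ 2) / f t ^ 4 := by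
        refine div_nonneg ?_ (by positivity)
        have : 3 * σ t * f t ≤ (-deriv σ t - σ t) * f t :=
          mul_le_mul_of_nonneg_right (by linarith) hF.le
        nlinarith
      simp only
      linarith
  · rw [e1]; have := fpos t; have := hp t ht; positivity

end Crest.Agent.R244
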