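import Crest.Agent.R244.Defs2
/-! Row 244, PieceRel: the boundary loop of a piece is a commutator in the centraliser of the fibre. -/
set_option autoImplicit false
open scoped ContDiff Topology
open Set Filter

noncomputable section
namespace Crest.Agent.R244

namespace PieceRel

def pt (x y z : ℝ) : E3 := !₂[x, y, z]

@[simp] theorem pt0 (x y z : ℝ) : pt x y z 0 = x := rfl
@[simp] theorem pt1 (x y z : ℝ) : pt x y z 1 = y := rfl
@[simp] theorem pt2 (x y z : ℝ) : pt x y z 2 = z := rfl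

theorem pt_add (x y z x' y' z' : ℝ) : pt x y z + pt x' y' z' = pt (x + x') (y + y') (z + z') := by
  ext i; fin_cases i <;> rfl

theorem cont_pt {f g h : ℝ → ℝ} (hf : Continuous f) (hg : Continuous g) (hh : Continuous h) :
    Continuous (fun t => pt (f t) (g t) (h t)) := by
  unfold pt
  refine (PiLp.continuous_toLp 2 _).comp (continuous_pi fun i => ?_)
  fin_cases i
  · exact hf
  · exact hg
  · exact hh

def strip (i : Fin 3) : Set E3 := {y | 1 / 8 < y i ∧ y i < 7 / 8}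

theorem strip_convex (i : Fin 3) : Convex ℝ (strip i) :=
  (convex_Ioo (1 / 8 : ℝ) (7 / 8)).is_linear_preimage (prj i).toLinearMap.isLinear

theorem dz_gt {x : ℝ} (h1 : 1 / 8 < x) (h2 : x < 7 / 8) : 1 / 64 < dz x ^ 2 := by
  have : 1 / 8 < dz x := by
    unfold dz
    rcases le_or_gt (round x) 0 with h | h
    · have : (round x : ℝ) ≤ 0 := by exact_mod_cast h
      exact lt_of_lt_of_le (by linarith) (le_abs_self _)
    · have : (1 : ℝ) ≤ round x := by exact_mod_cast h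
      exact lt_of_lt_of_le (by linarith) (neg_le_abs _)
  nlinarith

theorem strip0_sub : strip 0 ⊆ Yp := fun y hy => by
  have := dz_gt hy.1 hy.2
  show (1 : ℝ) / 64 < dz (y 0) ^ 2 + dz (y 1) ^ 2
  nlinarith [sq_nonneg (dz (y 1))]

theorem strip1_sub : strip 1 ⊆ Yp := fun y hy => by
  have := dz_gt hy.1 hy.2
  show (1 : ℝ) / 64 < dz (y 0) ^ 2 + dz (y 1) ^ 2
  nlinarith [sq_nonneg (dz (y 0))]

theorem cos_gt {t : ℝ} (ht : t ∈ Icc (-(Real.pi / 4)) (Real.pi / 4)) : 5 / 8 < Real.cos t := by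
  have h1 : Real.cos (Real.pi / 4) ≤ Real.cos |t| :=
    Real.cos_le_cos_of_nonneg_of_le_pi (abs_nonneg _) (by linarith [Real.pi_pos]) (abs_le.2 ht)
  rw [Real.cos_abs, Real.cos_pi_div_four] at h1
  have h2 : (5 / 4 : ℝ) < √2 := by
    rw [Real.lt_sqrt (by norm_num)]; norm_num
  linarith

theorem eq_of_act {M : Type} [TopologicalSpace M] {pr : E3 → M} (hF : CoverFacts pr)
    {g h : Deck pr} {a : E3} (e : dact g a = dact h a) : g = h := by
  have := hF.free (h⁻¹ * g) a (by rw [dact_mul, e, ← dact_mul, inv_mul_cancel, dact_one])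
  exact (inv_mul_eq_one.1 this).symm

theorem inv_act {M : Type} {pr : E3 → M} {g : Deck pr} {a b : E3} (e : b = dact g a) :
    a = dact g⁻¹ b := by
  rw [e, ← dact_mul, inv_mul_cancel, dact_one]

end PieceRel

open PieceRel in
theorem pieceRel (hCF : CoverFactsS) : PieceRelS := by
  intro M _ pr hpr q hq hper ν hν hlift c f hc hf
  have hF := hCF M pr hpr
  set s : ℝ := 1 / 5 * (√2 / 2) with hs
  have hs1 : 1 / 8 < s := by
    have := cos_gt (t := Real.pi / 4) ⟨by linarith [Real.pi_pos], le_rfl⟩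
    rw [Real.cos_pi_div_four] at this
    linarith
  have hs2 : s < 1 / 5 := by
    have h2 : √2 < (2 : ℝ) := by
      rw [Real.sqrt_lt' (by norm_num)]; norm_num
    linarith
  have hl : ∀ θ z : ℝ, pr (ν (θ, z)) = q (pt (1 / 5 * Real.cos θ) (-(1 / 5 * Real.sin θ)) z) := hlift
  set x₀ := ν (-(Real.pi / 4), 0) with hx₀
  have hbase : ∀ z, pr (ν (-(Real.pi / 4), z)) = q (pt s s z) := by
    intro z
    rw [hl, Real.cos_neg, Real.sin_neg, Real.cos_pi_div_four, Real.sin_pi_div_four]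
    congr 2; ring
  have hm0 : ∀ x y z, 1 / 8 < x → x < 7 / 8 → pt x y z ∈ strip 0 := fun _ _ _ h1 h2 => ⟨h1, h2⟩
  have hm1 : ∀ x y z, 1 / 8 < y → y < 7 / 8 → pt x y z ∈ strip 1 := fun _ _ _ h1 h2 => ⟨h1, h2⟩
  obtain ⟨sH, cH, lH, bH⟩ := hF.lift (strip 1) q (pt s s 0) x₀ (strip_convex 1) (hq.mono strip1_sub)
    (hm1 _ _ _ hs1 (by linarith)) (hbase 0)
  obtain ⟨sV, cV, lV, bV⟩ := hF.lift (strip 0) q (pt s s 0) x₀ (strip_convex 0) (hq.mono strip0_sub)
    (hm0 _ _ _ hs1 (by linarith)) (hbase 0)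
  have hHV : ∀ x y, 1 / 8 < x → x < 7 / 8 → 1 / 8 < y → y < 7 / 8 → sH (pt x y 0) = sV (pt x y 0) := by
    intro x y h1 h2 h3 h4
    exact hpr.eqOn_of_comp_eqOn ((strip_convex 0).inter (strip_convex 1)).isPreconnected
      (cH.mono inter_subset_right) (cV.mono inter_subset_left)
      (fun u hu => by simp only [Function.comp]; rw [lH u hu.2, lV u hu.1])
      (a := pt s s 0) ⟨hm0 _ _ _ hs1 (by linarith), hm1 _ _ _ hs1 (by linarith)⟩ (by rw [bH, bV])
      ⟨hm0 _ _ _ h1 h2, hm1 _ _ _ h3 h4⟩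
  have hz : ∀ (y : E3) (k l m : ℤ), ZEq y (y + pt k l m) := by
    intro y k l m i
    fin_cases i
    · exact ⟨k, rfl⟩
    · exact ⟨l, rfl⟩
    · exact ⟨m, rfl⟩
  -- shifts
  have hsh : ∀ (i : Fin 3) (σ : E3 → E3), strip i ⊆ Yp → ContinuousOn σ (strip i) →
      (∀ y ∈ strip i, pr (σ y) = q y) → ∀ k l m : ℤ, pt k l m i = 0 → pt s s 0 ∈ strip i →
      ∃ g : Deck pr, ∀ y ∈ strip i, σ (y + pt k l m) = dact g (σ y) := by
    intro i σ hsub hσ hl k l m h0 hp
    have hin : ∀ y ∈ strip i, y + pt k l m ∈ strip i := by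
      intro y hy
      have : (y + pt k l m) i = y i := by simp [h0]
      exact ⟨this ▸ hy.1, this ▸ hy.2⟩
    exact hF.shift (strip i) σ _ (strip_convex i).isPreconnected ⟨_, hp⟩ hσ hin
      (fun y hy => by rw [hl _ (hin y hy), hl y hy, hper y (hsub hy) _ (hz y k l m)])
  have p0 : pt s s 0 ∈ strip 0 := hm0 _ _ _ hs1 (by linarith)
  have p1 : pt s s 0 ∈ strip 1 := hm1 _ _ _ hs1 (by linarith)
  obtain ⟨a, ha⟩ := hsh 1 sH strip1_sub cH lH 1 0 0 (by simp) p1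
  obtain ⟨b, hb⟩ := hsh 0 sV strip0_sub cV lV 0 1 0 (by simp) p0
  obtain ⟨f₁, hf₁⟩ := hsh 1 sH strip1_sub cH lH 0 0 1 (by simp) p1
  obtain ⟨f₂, hf₂⟩ := hsh 0 sV strip0_sub cV lV 0 0 1 (by simp) p0
  have ha' : ∀ x y z, 1 / 8 < y → y < 7 / 8 → sH (pt (x + 1) y z) = dact a (sH (pt x y z)) := by
    intro x y z h1 h2
    have := ha _ (hm1 x y z h1 h2)
    simpa [pt_add] using this
  have hb' : ∀ x y z, 1 / 8 < x → x < 7 / 8 → sV (pt x (y + 1) z) = dact b (sV (pt x y z)) := by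
    intro x y z h1 h2
    have := hb _ (hm0 x y z h1 h2)
    simpa [pt_add] using this
  have hf₁' : ∀ x y z, 1 / 8 < y → y < 7 / 8 → sH (pt x y (z + 1)) = dact f₁ (sH (pt x y z)) := by
    intro x y z h1 h2
    have := hf₁ _ (hm1 x y z h1 h2)
    simpa [pt_add] using this
  have hf₂' : ∀ x y z, 1 / 8 < x → x < 7 / 8 → sV (pt x y (z + 1)) = dact f₂ (sV (pt x y z)) := by
    intro x y z h1 h2
    have := hf₂ _ (hm0 x y z h1 h2)
    simpa [pt_add] using this
  -- the fibre shift is `f`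
  have hline : ∀ (i : Fin 3) (σ : E3 → E3), ContinuousOn σ (strip i) →
      (∀ y ∈ strip i, pr (σ y) = q y) → (∀ z, pt s s z ∈ strip i) → σ (pt s s 0) = x₀ →
      σ (pt s s (0 + 1)) = dact f (σ (pt s s 0)) := by
    intro i σ hσ hl hin h0
    have := hpr.eq_of_comp_eq (g₁ := fun z : ℝ => σ (pt s s z))
      (g₂ := fun z : ℝ => ν (-(Real.pi / 4), z))
      (hσ.comp_continuous (cont_pt continuous_const continuous_const continuous_id) hin)
      (by fun_prop) (by funext z; simp only [Function.comp]; rw [hl _ (hin z), hbase]) 0 h0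
    rw [congrFun this (0 + 1), h0]
    exact hf _ _
  have e₁ : f₁ = f := eq_of_act hF (a := sH (pt s s 0)) (by
    rw [← hf₁' _ _ _ hs1 (by linarith)]
    exact hline 1 sH cH lH (fun z => hm1 _ _ _ hs1 (by linarith)) bH)
  have e₂ : f₂ = f := eq_of_act hF (a := sV (pt s s 0)) (by
    rw [← hf₂' _ _ _ hs1 (by linarith)]
    exact hline 0 sV cV lV (fun z => hm0 _ _ _ hs1 (by linarith)) bV)
  rw [e₁] at hf₁'
  rw [e₂] at hf₂'
  have hs3 : s < 7 / 8 := by linarith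
  refine ⟨a, b, eq_of_act hF (a := sH (pt s s 0)) ?_, eq_of_act hF (a := sV (pt s s 0)) ?_, ?_⟩
  · rw [dact_mul, dact_mul, ← ha' _ _ _ hs1 hs3, ← hf₁' _ _ _ hs1 hs3, ← hf₁' _ _ _ hs1 hs3,
      ← ha' _ _ _ hs1 hs3]
  · rw [dact_mul, dact_mul, ← hb' _ _ _ hs1 hs3, ← hf₂' _ _ _ hs1 hs3, ← hf₂' _ _ _ hs1 hs3,
      ← hb' _ _ _ hs1 hs3]
  -- the four arcs
  have harc : ∀ (i : Fin 3) (σ : E3 → E3), strip i ⊆ Yp → ContinuousOn σ (strip i) →
      (∀ y ∈ strip i, pr (σ y) = q y) → ∀ (θ₀ : ℝ) (X Y : ℝ → ℝ) (k l : ℤ) (g : Deck pr),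
      Continuous X → Continuous Y →
      (∀ t ∈ Icc (-(Real.pi / 4)) (Real.pi / 4), pt (X t) (Y t) 0 ∈ strip i) →
      (∀ t, 1 / 5 * Real.cos (t + θ₀) = X t + k) → (∀ t, -(1 / 5 * Real.sin (t + θ₀)) = Y t + l) →
      ν (-(Real.pi / 4) + θ₀, 0) = dact g (σ (pt (X (-(Real.pi / 4))) (Y (-(Real.pi / 4))) 0)) →
      ν (Real.pi / 4 + θ₀, 0) = dact g (σ (pt (X (Real.pi / 4)) (Y (Real.pi / 4)) 0)) := by
    intro i σ hsub hσ hl' θ₀ X Y k l g hX hY hin e1 e2 h0
    have hI : -(Real.pi / 4) ≤ Real.pi / 4 := by linarith [Real.pi_pos]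
    exact hpr.eqOn_of_comp_eqOn (isPreconnected_Icc (a := -(Real.pi / 4)) (b := Real.pi / 4))
      (g₁ := fun t : ℝ => ν (t + θ₀, 0)) (g₂ := fun t : ℝ => dact g (σ (pt (X t) (Y t) 0)))
      (by fun_prop)
      ((dact_cont g).comp_continuousOn
        (hσ.comp (cont_pt hX hY continuous_const).continuousOn hin))
      (fun t ht => by
        simp only [Function.comp]
        rw [dact_proj (pr := pr), hl' _ (hin t ht), hl, e1, e2]
        have := hper _ (hsub (hin t ht)) _ (hz (pt (X t) (Y t) 0) k l 0)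
        simpa [pt_add] using this)
      (a := -(Real.pi / 4)) ⟨le_rfl, hI⟩ h0 ⟨hI, le_rfl⟩
  have hcos : ∀ t ∈ Icc (-(Real.pi / 4)) (Real.pi / 4), 1 / 8 < 1 / 5 * Real.cos t ∧
      1 / 5 * Real.cos t ≤ 1 / 5 := fun t ht =>
    ⟨by linarith [cos_gt ht], by linarith [Real.cos_le_one t]⟩
  have A1 := harc 0 sV strip0_sub cV lV 0 (fun t => 1 / 5 * Real.cos t)
    (fun t => -(1 / 5 * Real.sin t)) 0 0 1 (by fun_prop) (by fun_prop)
    (fun t ht => hm0 _ _ _ (hcos t ht).1 (by linarith [(hcos t ht).2])) (by simp) (by simp)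
  have A2 := harc 1 sH strip1_sub cH lH (Real.pi / 2) (fun t => -(1 / 5 * Real.sin t))
    (fun t => -(1 / 5 * Real.cos t) + 1) 0 (-1) b⁻¹ (by fun_prop) (by fun_prop)
    (fun t ht => hm1 _ _ _ (by linarith [(hcos t ht).2]) (by linarith [(hcos t ht).1]))
    (fun t => by rw [Real.cos_add_pi_div_two]; simp) (fun t => by rw [Real.sin_add_pi_div_two]; simp)
  have A3 := harc 0 sV strip0_sub cV lV Real.pi (fun t => -(1 / 5 * Real.cos t) + 1)
    (fun t => 1 / 5 * Real.sin t + 1) (-1) (-1) (b⁻¹ * a⁻¹) (by fun_prop) (by fun_prop)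
    (fun t ht => hm0 _ _ _ (by linarith [(hcos t ht).2]) (by linarith [(hcos t ht).1]))
    (fun t => by rw [Real.cos_add_pi]; simp) (fun t => by rw [Real.sin_add_pi]; simp)
  have A4 := harc 1 sH strip1_sub cH lH (Real.pi / 2 + Real.pi) (fun t => 1 / 5 * Real.sin t + 1)
    (fun t => 1 / 5 * Real.cos t) (-1) 0 (b⁻¹ * a⁻¹ * b) (by fun_prop) (by fun_prop)
    (fun t ht => hm1 _ _ _ (hcos t ht).1 (by linarith [(hcos t ht).2]))
    (fun t => by rw [← add_assoc, Real.cos_add_pi, Real.cos_add_pi_div_two]; simp)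
    (fun t => by rw [← add_assoc, Real.sin_add_pi, Real.sin_add_pi_div_two]; simp)
  simp only [Real.cos_neg, Real.sin_neg, Real.cos_pi_div_four, Real.sin_pi_div_four, mul_neg,
    neg_neg, ← hs] at A1 A2 A3 A4
  have t1 : 1 / 8 < -s + 1 := by linarith
  have t2 : -s + 1 < 7 / 8 := by linarith
  have B1 := A1 (by rw [add_zero, dact_one, bV])
  have B2 := A2 (by
    rw [show -(Real.pi / 4) + Real.pi / 2 = Real.pi / 4 + 0 by ring, B1, dact_one,
      hHV _ _ hs1 hs3 t1 t2]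
    exact inv_act (hb' _ _ _ hs1 hs3))
  have B3 := A3 (by
    rw [show -(Real.pi / 4) + Real.pi = Real.pi / 4 + Real.pi / 2 by ring, B2, dact_mul,
      ← hHV _ _ t1 t2 t1 t2]
    congr 1
    exact inv_act (ha' _ _ _ t1 t2))
  have B4 := A4 (by
    rw [show -(Real.pi / 4) + (Real.pi / 2 + Real.pi) = Real.pi / 4 + Real.pi by ring, B3,
      dact_mul (b⁻¹ * a⁻¹), hHV _ _ t1 t2 hs1 hs3, hb' _ _ _ t1 t2])
  rw [ha' _ _ _ hs1 hs3, bH, ← dact_mul,
    show Real.pi / 4 + (Real.pi / 2 + Real.pi) = -(Real.pi / 4) + 2 * Real.pi by ring, hc] at B4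
  exact eq_of_act hF B4

end Crest.Agent.R244
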