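import Crest.Agent.R244.Defs2
/-! Row 244, task `PolTr`. -/
set_option autoImplicit false
open scoped ContDiff Manifold Topology
open Bundle Set Filter
open Crest.GeometryTopology.Geodesic Crest.GeometryTopology.CoordMetric
  Crest.GeometryTopology.ChartCurvature

noncomputable section
namespace Crest.Agent.R244

namespace PolTr

theorem dir {τ : E3 → E3} {u : E3} (hτ : DifferentiableAt ℝ τ u) (a : E3) (i : Fin 3) {d : ℝ}
    (h : HasDerivAt (fun s : ℝ => τ (u + s • a) i) d 0) : fderiv ℝ τ u a i = d := by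
  have hline : HasDerivAt (fun r : ℝ => u + r • a) a 0 := by
    simpa using ((hasDerivAt_id (0 : ℝ)).smul_const a).const_add u
  have hd : HasFDerivAt τ (fderiv ℝ τ u) (u + (0 : ℝ) • a) := by
    rw [zero_smul, add_zero]; exact hτ.hasFDerivAt
  have h1 := HasFDerivAt.comp_hasDerivAt (l := τ) (0 : ℝ) hd hline
  have h2 : HasDerivAt (fun s : ℝ => τ (u + s • a) i) (fderiv ℝ τ u a i) 0 :=
    (prj i).hasFDerivAt.comp_hasDerivAt (0 : ℝ) h1
  exact h2.unique h

theorem det_eq (L : E3 →L[ℝ] E3) :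
    LinearMap.det (L : E3 →ₗ[ℝ] E3) = Matrix.det (Matrix.of fun i j => L (bas j) i) := by
  rw [← LinearMap.det_toMatrix (EuclideanSpace.basisFun (Fin 3) ℝ).toBasis]
  congr 1

theorem co (u a : E3) (i : Fin 3) : HasDerivAt (fun s : ℝ => (u + s • a) i) (a i) 0 := by
  simpa using ((hasDerivAt_id (0 : ℝ)).mul_const (a i)).const_add (u i)

theorem pol₁_smooth (P : Prof) : ContDiff ℝ ∞ P.pol₁ := by
  rw [contDiff_euclidean]
  intro i
  fin_cases i <;> simp [Prof.pol₁, Prof.r₁] <;> fun_prop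

theorem pol₂_smooth (P : Prof) : ContDiff ℝ ∞ P.pol₂ := by
  rw [contDiff_euclidean]
  intro i
  fin_cases i <;> simp [Prof.pol₂, Prof.r₂] <;> fun_prop

theorem fd₁ (P : Prof) (K u a : E3) :
    fderiv ℝ (fun v => P.pol₁ v + K) u a 0 =
      -a 0 / P.L₁ * Real.cos (u 1) - P.r₁ (u 0) * Real.sin (u 1) * a 1 ∧
    fderiv ℝ (fun v => P.pol₁ v + K) u a 1 =
      a 0 / P.L₁ * Real.sin (u 1) - P.r₁ (u 0) * Real.cos (u 1) * a 1 ∧
    fderiv ℝ (fun v => P.pol₁ v + K) u a 2 = a 2 / (2 * Real.pi * P.T) := by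
  have hd : DifferentiableAt ℝ (fun v => P.pol₁ v + K) u :=
    (((pol₁_smooth P).differentiable (by simp)) u).add_const K
  have hr := ((co u a 0).const_sub P.R₁).div_const P.L₁
  refine ⟨dir hd a 0 ?_, dir hd a 1 ?_, dir hd a 2 ?_⟩
  · refine ((hr.fun_mul (co u a 1).cos).add_const (K 0)).congr_deriv ?_
    simp [Prof.r₁]; ring
  · refine ((hr.fun_mul (co u a 1).sin).fun_neg.add_const (K 1)).congr_deriv ?_
    simp [Prof.r₁]; ring
  · exact ((co u a 2).div_const _).add_const (K 2)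

theorem fd₂ (P : Prof) (K u a : E3) :
    fderiv ℝ (fun v => P.pol₂ v + K) u a 0 =
      a 0 / P.L₂ * Real.cos (u 2 / P.T) - P.r₂ (u 0) * Real.sin (u 2 / P.T) * (a 2 / P.T) ∧
    fderiv ℝ (fun v => P.pol₂ v + K) u a 1 =
      -(a 0 / P.L₂ * Real.sin (u 2 / P.T)) - P.r₂ (u 0) * Real.cos (u 2 / P.T) * (a 2 / P.T) ∧
    fderiv ℝ (fun v => P.pol₂ v + K) u a 2 =
      a 1 / (2 * Real.pi) + a 2 / (2 * Real.pi * P.T) := by
  have hd : DifferentiableAt ℝ (fun v => P.pol₂ v + K) u :=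
    (((pol₂_smooth P).differentiable (by simp)) u).add_const K
  have hr := ((co u a 0).const_add P.R₂).div_const P.L₂
  have hθ := (co u a 2).div_const P.T
  refine ⟨dir hd a 0 ?_, dir hd a 1 ?_, dir hd a 2 ?_⟩
  · refine ((hr.fun_mul hθ.cos).add_const (K 0)).congr_deriv ?_
    simp [Prof.r₂]; ring
  · refine ((hr.fun_mul hθ.sin).fun_neg.add_const (K 1)).congr_deriv ?_
    simp [Prof.r₂]; ring
  · exact (((co u a 1).div_const _).fun_add ((co u a 2).div_const _)).add_const (K 2)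

theorem yp_shift {P : Prof} (F : PFacts P) {y y' : E3} (hy : y ∈ Yp) (h : ZEq y y') : y' ∈ Yp := by
  obtain ⟨k, hk⟩ := h 0
  obtain ⟨l, hl⟩ := h 1
  show 1 / 64 < dz (y' 0) ^ 2 + dz (y' 1) ^ 2
  rw [hk, hl, F.dz_int, F.dz_int]
  exact hy

theorem zeq_shift {x y' v : E3} (h : ZEq x y') : ZEq v (v + (y' - x)) := by
  intro i
  obtain ⟨k, hk⟩ := h i
  exact ⟨k, by simp [hk]⟩

end PolTr

open PolTr in
theorem polTr (hF : PFactsS) (hN : NeckMetS) : PolTrS := by
  intro P hP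
  have F := hF P hP
  have N := hN P hP
  have hT := hP.T_pos
  have hpi := Real.pi_pos
  have hfi := hP.phi.fi_pos
  have hL1 : 0 < P.L₁ := by have := hP.phi.R_pos; unfold Prof.L₁; linarith
  have hL2 : 0 < P.L₂ := by have := hP.R₂_pos; unfold Prof.L₂; linarith
  have hc0 : Continuous fun u : E3 => u 0 := (prj 0).continuous
  constructor
  · intro y hy y' hy' h
    obtain ⟨h0, hz⟩ := (F.n1 y y').1 h
    refine ⟨fun v => P.pol₁ v + (y' - P.pol₁ y), P.YN ∩ {u | u 0 < -1},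
      F.open_N.inter (isOpen_lt hc0 continuous_const), ⟨hy, h0⟩, inter_subset_left,
      ((pol₁_smooth P).add contDiff_const).contDiffOn, fun u hu => ?_, by simp, fun u hu => ?_⟩
    · exact yp_shift F (F.rad₁ u hu.1 hu.2).2.2.1 (zeq_shift hz)
    have hu0 : u 0 < -1 := hu.2
    have hr := (F.rad₁ u hu.1 hu.2).1
    have hrp : 0 < P.r₁ (u 0) := by linarith
    have hsc := Real.sin_sq_add_cos_sq (u 1)
    refine ⟨((F.n1 u _).2 ⟨hu.2, zeq_shift hz⟩).symm, ?_, fun a b => ?_⟩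
    · rw [det_eq, Matrix.det_fin_three]
      simp only [Matrix.of_apply, fd₁, bas_apply]
      simp
      have : -1 / P.L₁ * Real.cos (u 1) * -(P.r₁ (u 0) * Real.cos (u 1)) *
          (1 / (2 * Real.pi * P.T)) - -(P.r₁ (u 0) * Real.sin (u 1)) * (1 / P.L₁ * Real.sin (u 1)) *
          (1 / (2 * Real.pi * P.T)) = P.r₁ (u 0) / (P.L₁ * (2 * Real.pi * P.T)) := by
        field_simp
        linear_combination hsc
      have h2 : 0 < P.r₁ (u 0) / (P.L₁ * (2 * Real.pi * P.T)) := by positivity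
      rw [← this] at h2
      simp at h2
      linarith
    · show ipL P.GN u a b = ipL (fun _ => Matrix.diagonal ![P.L₁ ^ 2, P.L₁ ^ 2,
        (2 * Real.pi * P.T) ^ 2]) _ _ _
      rw [N.ip, ipL_apply]
      simp only [Fin.sum_univ_three, fd₁]
      have e : P.R₁ - u 0 = P.r₁ (u 0) * P.L₁ := by unfold Prof.r₁; field_simp
      simp only [Prof.Bq, hP.phi.left _ hu0.le, hP.ψ_left _ (by linarith : u 0 ≤ 0),
        hP.lam_left _ (by linarith : u 0 ≤ 1 / 6), e]
      simp [Matrix.diagonal]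
      field_simp
      linear_combination (-(a 0 * b 0) - P.r₁ (u 0) ^ 2 * P.L₁ ^ 2 * a 1 * b 1) * hsc
  · intro y hy y' hy' h
    obtain ⟨h0, hz⟩ := (F.n2 y y').1 h
    refine ⟨fun v => P.pol₂ v + (y' - P.pol₂ y), P.YN ∩ {u | 3 / 2 < u 0},
      F.open_N.inter (isOpen_lt continuous_const hc0), ⟨hy, h0⟩, inter_subset_left,
      ((pol₂_smooth P).add contDiff_const).contDiffOn, fun u hu => ?_, by simp, fun u hu => ?_⟩
    · exact yp_shift F (F.rad₂ u hu.1 hu.2).2.2.1 (zeq_shift hz)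
    have hu0 : 3 / 2 < u 0 := hu.2
    have hr := (F.rad₂ u hu.1 hu.2).1
    have hrp : 0 < P.r₂ (u 0) := by linarith
    have hsc := Real.sin_sq_add_cos_sq (u 2 / P.T)
    refine ⟨((F.n2 u _).2 ⟨hu.2, zeq_shift hz⟩).symm, ?_, fun a b => ?_⟩
    · rw [det_eq, Matrix.det_fin_three]
      simp only [Matrix.of_apply, fd₂, bas_apply]
      simp
      have h2 : 0 < P.L₂⁻¹ * P.r₂ (u 0) * P.T⁻¹ * (Real.pi⁻¹ * 2⁻¹) := by positivity
      refine h2.trans_eq ?_
      linear_combination (-(P.L₂⁻¹ * P.r₂ (u 0) * P.T⁻¹ * (Real.pi⁻¹ * 2⁻¹))) * hsc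
    · show ipL P.GN u a b = ipL (fun _ => Matrix.diagonal ![P.L₂ ^ 2, P.L₂ ^ 2,
        (2 * Real.pi * P.fi) ^ 2]) _ _ _
      rw [N.ip, ipL_apply]
      simp only [Fin.sum_univ_three, fd₂]
      have e : P.R₂ + u 0 = P.r₂ (u 0) * P.L₂ := by unfold Prof.r₂; field_simp
      simp only [Prof.Bq, hP.phi.right _ (by linarith : u 0 ≥ 1 / 2), hP.ψ_right _ hu0.le,
        hP.lam_right _ (by linarith : u 0 ≥ 1 / 3), e]
      simp [Matrix.diagonal]
      field_simp
      linear_combination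
        (-(a 0 * b 0 * P.T ^ 2) - P.r₂ (u 0) ^ 2 * P.L₂ ^ 2 * a 2 * b 2) * hsc

end Crest.Agent.R244
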