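import Crest.Agent.R244.Defs2
/-!
Row 244, task ProfEx: existence of the neck profile.
-/
set_option autoImplicit false
open scoped Topology ContDiff
open Set Filter

noncomputable section
namespace Crest.Agent.R244

namespace ProfEx

theorem hasDerivAt_e (t : ℝ) : HasDerivAt expNegInvGlue (t⁻¹ ^ 2 * expNegInvGlue t) t := by
  simpa using expNegInvGlue.hasDerivAt_polynomial_eval_inv_mul 1 t

theorem e_le_one (t : ℝ) : expNegInvGlue t ≤ 1 := by
  unfold expNegInvGlue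
  split_ifs with h
  · norm_num
  · exact Real.exp_le_one_iff.2 (neg_nonpos.2 (inv_nonneg.2 (not_le.1 h).le))

theorem exists_s : ∃ s s' : ℝ → ℝ, ContDiff ℝ ∞ s ∧ (∀ t, HasDerivAt s (s' t) t) ∧
    (∀ t ≤ 0, s t = 0) ∧ (∀ t ≥ 3 / 2, s t = 1) ∧ (∀ t, 0 ≤ s t ∧ s t ≤ 1 ∧ 0 ≤ s' t) ∧
    (∀ t ∈ Icc (0 : ℝ) (1 / 2), 4 * s t ≤ s' t) ∧ ∀ t > 0, 0 < s t := by
  have hχ : ContDiff ℝ ∞ Real.smoothTransition := Real.smoothTransition.contDiff
  have he : ContDiff ℝ ∞ expNegInvGlue := expNegInvGlue.contDiff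
  have hd : ∀ t, HasDerivAt Real.smoothTransition (deriv Real.smoothTransition t) t := fun t =>
    (hχ.differentiable (by simp) t).hasDerivAt
  have hd0 : ∀ t, 0 ≤ deriv Real.smoothTransition t := fun t =>
    Real.smoothTransition.monotone.deriv_nonneg
  refine ⟨fun t => expNegInvGlue t + Real.smoothTransition (t - 1 / 2) * (1 - expNegInvGlue t),
    fun t => t⁻¹ ^ 2 * expNegInvGlue t * (1 - Real.smoothTransition (t - 1 / 2)) +
      deriv Real.smoothTransition (t - 1 / 2) * (1 - expNegInvGlue t), ?_, fun t => ?_,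
    fun t ht => ?_, fun t ht => ?_, fun t => ?_, fun t ht => ?_, fun t ht => ?_⟩
  · exact he.add ((hχ.comp (contDiff_id.sub contDiff_const)).mul (contDiff_const.sub he))
  · have h1 := (hd (t - 1 / 2)).comp_sub_const t (1 / 2)
    have := (hasDerivAt_e t).add (h1.mul ((hasDerivAt_e t).const_sub 1))
    refine this.congr_deriv ?_
    ring
  · simp only [expNegInvGlue.zero_of_nonpos ht,
      Real.smoothTransition.zero_of_nonpos (show t - 1 / 2 ≤ 0 by linarith)]
    ring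
  · simp only [Real.smoothTransition.one_of_one_le (show 1 ≤ t - 1 / 2 by linarith)]
    ring
  · have h1 := expNegInvGlue.nonneg t
    have h2 := e_le_one t
    have h3 := Real.smoothTransition.nonneg (t - 1 / 2)
    have h4 := Real.smoothTransition.le_one (t - 1 / 2)
    have h5 := hd0 (t - 1 / 2)
    have h6 : 0 ≤ t⁻¹ ^ 2 * expNegInvGlue t := by positivity
    refine ⟨by nlinarith, by nlinarith, add_nonneg (mul_nonneg h6 (by linarith))
      (mul_nonneg h5 (by linarith))⟩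
  · have h2 := e_le_one t
    have h5 := mul_nonneg (hd0 (t - 1 / 2)) (sub_nonneg.2 h2)
    simp only [Real.smoothTransition.zero_of_nonpos (show t - 1 / 2 ≤ 0 by linarith [ht.2])]
    rcases ht.1.eq_or_lt with h | h
    · rw [← h] at h5 ⊢
      simp only [expNegInvGlue.zero] at h5 ⊢
      linarith
    · have h6 : 2 ≤ t⁻¹ := by rw [le_inv_comm₀ (by norm_num) h]; linarith [ht.2]
      have h7 : 4 ≤ t⁻¹ ^ 2 := by nlinarith
      have h8 := mul_le_mul_of_nonneg_right h7 (expNegInvGlue.nonneg t)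
      linarith
  · have h1 := expNegInvGlue.pos_of_pos ht
    have h3 := mul_nonneg (Real.smoothTransition.nonneg (t - 1 / 2)) (sub_nonneg.2 (e_le_one t))
    simp only
    linarith

theorem exists_S {s : ℝ → ℝ} (hs : ContDiff ℝ ∞ s) (h0 : ∀ t ≤ 0, s t = 0)
    (h1 : ∀ t ≥ 3 / 2, s t = 1) (hb : ∀ t, 0 ≤ s t ∧ s t ≤ 1) :
    ∃ S : ℝ → ℝ, ContDiff ℝ ∞ S ∧ (∀ t, HasDerivAt S (s t) t) ∧ (∀ t ≤ 0, S t = 0) ∧
      (∀ t, 0 ≤ S t) ∧ (∀ t ≥ 0, S t ≤ t) ∧ ∀ t ≥ 3 / 2, S t = S (3 / 2) + (t - 3 / 2) := by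
  have hd : ∀ t, HasDerivAt (fun t => ∫ x in (0 : ℝ)..t, s x) (s t) t := fun t =>
    (hs.continuous.integral_hasStrictDerivAt 0 t).hasDerivAt
  have hz : ∀ t ≤ 0, ∫ x in (0 : ℝ)..t, s x = 0 := fun t ht => by
    rw [intervalIntegral.integral_congr (g := fun _ => 0) fun x hx => h0 x ?_]
    · simp
    · rw [uIcc_of_ge ht] at hx; exact hx.2
  refine ⟨fun t => ∫ x in (0 : ℝ)..t, s x, ?_, hd, hz, fun t => ?_, fun t ht => ?_, fun t ht => ?_⟩
  · rw [contDiff_infty_iff_deriv]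
    refine ⟨fun t => (hd t).differentiableAt, ?_⟩
    rw [show deriv (fun t => ∫ x in (0 : ℝ)..t, s x) = s from funext fun t => (hd t).deriv]
    exact hs
  · rcases le_total t 0 with h | h
    · exact (hz t h).ge
    · exact intervalIntegral.integral_nonneg h fun x _ => (hb x).1
  · have := intervalIntegral.integral_mono_on (μ := MeasureTheory.volume) ht
      (hs.continuous.intervalIntegrable 0 t) (continuous_const.intervalIntegrable 0 t)
      (g := fun _ => (1 : ℝ)) fun x _ => (hb x).2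
    simpa using this
  · have := intervalIntegral.integral_add_adjacent_intervals (μ := MeasureTheory.volume)
      (hs.continuous.intervalIntegrable 0 (3 / 2)) (hs.continuous.intervalIntegrable (3 / 2) t)
    rw [intervalIntegral.integral_congr (a := 3 / 2) (g := fun _ => 1) fun x hx => h1 x ?_] at this
    · simp only [← this]; simp
    · rw [uIcc_of_le ht] at hx; exact hx.1

theorem exists_L : ∃ (Λ : ℝ → ℝ) (C : ℝ), ContDiff ℝ ∞ Λ ∧ 0 < C ∧ (∀ t ≤ 1 / 6, Λ t = 0) ∧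
    (∀ t ≥ 1 / 3, Λ t = 1) ∧ (∀ t, 0 ≤ Λ t ∧ Λ t ≤ 1) ∧
    (∀ t ∈ Icc (1 / 6 : ℝ) (1 / 3), deriv Λ t ^ 2 ≤ C ∧ deriv (deriv Λ) t ^ 2 ≤ C) ∧
    ∀ t, t ∉ Icc (1 / 6 : ℝ) (1 / 3) → deriv Λ t = 0 ∧ deriv (deriv Λ) t = 0 := by
  have hΛ : ContDiff ℝ ∞ fun t : ℝ => Real.smoothTransition (6 * t - 1) :=
    Real.smoothTransition.contDiff.comp ((contDiff_const.mul contDiff_id).sub contDiff_const)
  have hl : ∀ t : ℝ, t ≤ 1 / 6 → Real.smoothTransition (6 * t - 1) = 0 := fun t ht =>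
    Real.smoothTransition.zero_of_nonpos (by linarith)
  have hr : ∀ t : ℝ, t ≥ 1 / 3 → Real.smoothTransition (6 * t - 1) = 1 := fun t ht =>
    Real.smoothTransition.one_of_one_le (by linarith)
  have hb : ∀ t : ℝ, 0 ≤ Real.smoothTransition (6 * t - 1) ∧
      Real.smoothTransition (6 * t - 1) ≤ 1 := fun t =>
    ⟨Real.smoothTransition.nonneg _, Real.smoothTransition.le_one _⟩
  set Λ := fun t : ℝ => Real.smoothTransition (6 * t - 1) with hΛdef
  have h1 : ContDiff ℝ ∞ (deriv Λ) := (contDiff_infty_iff_deriv.1 hΛ).2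
  have h2 : ContDiff ℝ ∞ (deriv (deriv Λ)) := (contDiff_infty_iff_deriv.1 h1).2
  obtain ⟨C, hC⟩ := (isCompact_Icc (a := (1 / 6 : ℝ)) (b := 1 / 3)).bddAbove_image
    (f := fun t => deriv Λ t ^ 2 + deriv (deriv Λ) t ^ 2)
    ((h1.continuous.pow 2).add (h2.continuous.pow 2)).continuousOn
  have key : ∀ (c t : ℝ), Λ =ᶠ[𝓝 t] (fun _ => c) → deriv Λ t = 0 ∧ deriv (deriv Λ) t = 0 := by
    intro c t h
    have h3 := h.deriv
    have h4 := h3.deriv
    simp only [deriv_const'] at h3 h4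
    exact ⟨h3.eq_of_nhds, h4.eq_of_nhds⟩
  refine ⟨Λ, max C 1, hΛ, by positivity, hl, hr, hb, fun t ht => ?_, fun t ht => ?_⟩
  · have h3 : deriv Λ t ^ 2 + deriv (deriv Λ) t ^ 2 ≤ C := hC ⟨t, ht, rfl⟩
    have h4 := le_max_left C 1
    constructor <;> nlinarith [sq_nonneg (deriv Λ t), sq_nonneg (deriv (deriv Λ) t)]
  · rcases lt_or_ge t (1 / 6) with h | h
    · exact key 0 t ((eventually_lt_nhds h).mono fun x hx => hl x hx.le)
    · have h' : 1 / 3 < t := not_le.1 fun h' => ht ⟨h, h'⟩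
      exact key 1 t ((eventually_gt_nhds h').mono fun x hx => hr x hx.le)

end ProfEx

open ProfEx in
theorem profEx : ProfExS := by
  intro φ R₁ fi hφ
  obtain ⟨s, s', hs, hs', s0, s1, sb, s4, spos⟩ := exists_s
  obtain ⟨S, hS, hS', S0, Snn, Sle, S1⟩ := exists_S hs s0 s1 fun t => ⟨(sb t).1, (sb t).2.1⟩
  obtain ⟨Λ, C, hΛ, hC, L0, L1, Lb, LC, Lz⟩ := exists_L
  have smono : Monotone s := monotone_of_deriv_nonneg (fun t => (hs' t).differentiableAt)
    fun t => by rw [(hs' t).deriv]; exact (sb t).2.2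
  obtain ⟨t₀, ht₀, hmin⟩ := (isCompact_Icc (a := (1 / 6 : ℝ)) (b := 1 / 3)).exists_isMinOn
    ⟨1 / 6, le_rfl, by norm_num⟩ (f := deriv φ)
    (contDiff_infty_iff_deriv.1 hφ.smooth).2.continuous.continuousOn
  have ha0 : 0 < deriv φ t₀ := hφ.spos t₀ ⟨by linarith [ht₀.1], by linarith [ht₀.2]⟩
  have hs0 : 0 < s (1 / 6) := spos _ (by norm_num)
  obtain ⟨ε, hε, e1, e2, e3⟩ : ∃ ε : ℝ, 0 < ε ∧ ε ≤ 1 / 200 ∧ ε ≤ s (1 / 6) / 1600 ∧
      ε * C ≤ (1 / 200) ^ 2 * (deriv φ t₀ / 2 * (s (1 / 6) / 8)) := by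
    refine ⟨min (1 / 200) (min (s (1 / 6) / 1600)
      ((1 / 200) ^ 2 * (deriv φ t₀ / 2 * (s (1 / 6) / 8)) / C)), by positivity, min_le_left _ _,
      (min_le_right _ _).trans (min_le_left _ _), ?_⟩
    rw [← le_div_iff₀ hC]
    exact (min_le_right _ _).trans (min_le_right _ _)
  have h1 : ∀ t, 1 ≤ 1 + ε * S t := fun t => by nlinarith [Snn t]
  have h0 : ∀ t, 0 < 1 + ε * S t := fun t => by linarith [h1 t]
  have hh : ∀ t, HasDerivAt (fun t => 1 + ε * S t) (ε * s t) t := fun t =>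
    ((hS' t).const_mul ε).const_add 1
  let P : Prof := ⟨φ, fun t => ((1 + ε * S t) ^ 2)⁻¹, fun t => ε * Λ t, 1 / ε, R₁,
    (1 + ε * S (3 / 2)) / ε - 3 / 2, fi⟩
  have hb : P.b = fun t => ε * s t / (1 + ε * S t) ^ 3 := by
    funext t
    have := (((hh t).fun_pow 2).fun_inv (pow_pos (h0 t) 2).ne').deriv
    simp only [Prof.b, P, this]
    have := h0 t
    field_simp
    ring
  have hb' : ∀ t, deriv P.b t =
      ε * s' t / (1 + ε * S t) ^ 3 - 3 * (ε * s t) ^ 2 / (1 + ε * S t) ^ 4 := by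
    intro t
    have := (((hs' t).const_mul ε).fun_div ((hh t).fun_pow 3) (pow_pos (h0 t) 3).ne').deriv
    rw [hb, this]
    have := h0 t
    field_simp
    ring
  have hbn : ∀ t, 0 ≤ P.b t := fun t => by
    rw [hb]; exact div_nonneg (mul_nonneg hε.le (sb t).1) (pow_pos (h0 t) 3).le
  have hd1 : deriv P.lam = fun t => ε * deriv Λ t := by
    funext t; exact deriv_const_mul_field ε
  have hd2 : ∀ t, deriv (deriv P.lam) t = ε * deriv (deriv Λ) t := by
    intro t; rw [hd1]; exact deriv_const_mul_field ε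
  have hblow : ∀ t ∈ Icc (1 / 6 : ℝ) (1 / 2), ε * (s (1 / 6) / 8) ≤ P.b t := by
    intro t ht
    have h2 : 1 + ε * S t ≤ 2 := by
      have := Sle t (by linarith [ht.1])
      nlinarith [Snn t, ht.2]
    have h3 : (1 + ε * S t) ^ 3 ≤ 2 ^ 3 := pow_le_pow_left₀ (h0 t).le h2 3
    rw [hb, le_div_iff₀ (pow_pos (h0 t) 3)]
    have h4 := smono ht.1
    have h5 : ε * (s (1 / 6) / 8) * (1 + ε * S t) ^ 3 ≤ ε * (s (1 / 6) / 8) * 2 ^ 3 :=
      mul_le_mul_of_nonneg_left h3 (by positivity)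
    nlinarith
  refine ⟨P, rfl, rfl, rfl, hφ, ?_, contDiff_const.mul hΛ, fun t => ?_, ?_, ?_, fun t ht => ?_,
    fun t ht => ?_, fun t ht => ?_, fun t ht => ?_, hbn, fun t => ?_, fun t ht => ?_,
    fun t ht => ?_⟩
  · exact ((contDiff_const.add (contDiff_const.mul hS)).pow 2).inv fun t => (pow_pos (h0 t) 2).ne'
  · exact inv_pos.2 (pow_pos (h0 t) 2)
  · exact one_div_pos.2 hε
  · have := div_pos (h0 (3 / 2)) hε
    simp only [P]; linarith
  · simp [P, S0 t ht]
  · have h2 := h0 t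
    have h3 : (1 + ε * S (3 / 2)) / ε - 3 / 2 + t = (1 + ε * S t) / ε := by
      rw [S1 t ht]; field_simp; ring
    simp only [P, h3]
    field_simp
  · simp [P, L0 t ht]
  · simp [P, L1 t ht]
  · have h2 := h0 t
    have : deriv P.b t * P.ψ t + 3 * P.b t ^ 2 = ε * s' t / (1 + ε * S t) ^ 5 := by
      rw [hb', hb]; simp only [P]; field_simp; ring
    rw [this]
    exact div_nonneg (mul_nonneg hε.le (sb t).2.2) (pow_pos h2 5).le
  · have ha : 0 ≤ P.a t := div_nonneg (hφ.mono t) (by norm_num)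
    have ha' : P.a t ≤ 1 / 200 := (hφ.bd t ht).2.2.1
    have hab := mul_nonneg ha (hbn t)
    obtain ⟨b1, b2, b3⟩ := sb t
    have hkey : ∀ x : ℝ, (t ∈ Icc (1 / 6 : ℝ) (1 / 3) → x ^ 2 ≤ C) →
        (t ∉ Icc (1 / 6 : ℝ) (1 / 3) → x = 0) → (ε * x) ^ 2 ≤ (1 / 200) ^ 2 * (P.a t * P.b t) := by
      intro x hx1 hx2
      by_cases h : t ∈ Icc (1 / 6 : ℝ) (1 / 3)
      · have h2 : deriv φ t₀ / 2 ≤ P.a t := div_le_div_of_nonneg_right (hmin h) (by norm_num)
        have h3 := hblow t ⟨h.1, ht.2⟩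
        have h4 : deriv φ t₀ / 2 * (ε * (s (1 / 6) / 8)) ≤ P.a t * P.b t :=
          mul_le_mul h2 h3 (by positivity) ha
        have h5 := mul_le_mul_of_nonneg_left (hx1 h) (sq_nonneg ε)
        have h6 := mul_le_mul_of_nonneg_left e3 hε.le
        nlinarith
      · rw [hx2 h]; simpa using hab
    refine ⟨?_, ?_, ?_, ?_, ?_, ?_, ?_⟩
    · exact (inv_le_one_of_one_le₀ (one_le_pow₀ (h1 t))).trans one_le_two
    · rw [hb]
      exact (div_le_self (mul_nonneg hε.le b1) (one_le_pow₀ (h1 t))).trans (by nlinarith)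
    · have h2 := h0 t
      have h3 : deriv P.b t - P.b t =
          ε * ((s' t - s t) * (1 + ε * S t) - 3 * ε * s t ^ 2) / (1 + ε * S t) ^ 4 := by
        rw [hb', hb]; field_simp; ring
      have h4 := s4 t ht
      have h5 : (s' t - s t) * 1 ≤ (s' t - s t) * (1 + ε * S t) :=
        mul_le_mul_of_nonneg_left (h1 t) (by linarith)
      have h6 : ε * s t ^ 2 ≤ s t := by nlinarith [mul_nonneg b1 (sub_nonneg.2 b2)]
      have h7 : 0 ≤ deriv P.b t - P.b t := by
        rw [h3]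
        exact div_nonneg (mul_nonneg hε.le (by linarith)) (pow_pos h2 4).le
      linarith
    · simp only [P]
      rw [abs_of_nonneg (mul_nonneg hε.le (Lb t).1)]
      nlinarith [(Lb t).1, (Lb t).2]
    · rw [hd1]
      exact hkey _ (fun h => (LC t h).1) fun h => (Lz t h).1
    · rw [hd2]
      exact hkey _ (fun h => (LC t h).2) fun h => (Lz t h).2
    · rcases le_total t (1 / 6) with h | h
      · have := hbn t
        simp only [P, L0 t h] at this ⊢
        simpa using this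
      · have h3 := hblow t ⟨h, ht.2⟩
        have h4 : P.lam t ^ 2 ≤ ε ^ 2 := by
          simp only [P]
          exact pow_le_pow_left₀ (mul_nonneg hε.le (Lb t).1)
            (mul_le_of_le_one_right hε.le (Lb t).2) 2
        have h5 : P.lam t ^ 2 * P.a t ≤ ε ^ 2 * (1 / 200) := mul_le_mul h4 ha' ha (sq_nonneg ε)
        have h6 := mul_le_mul_of_nonneg_left e2 hε.le
        nlinarith
  · rw [hb]
    exact div_pos (mul_pos hε (spos t ht.1)) (pow_pos (h0 t) 3)

end Crest.Agent.R244
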