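import Crest.Agent.R244.Form
set_option autoImplicit false
open scoped ContDiff Topology
open Set Filter

noncomputable section
namespace Crest.Agent.R244

theorem pureRho : PureRhoS := by
  intro P h p dp z s hs ht
  have hφ := h.phi.pos (z s).θ
  have hψ := h.ψ_pos (z s).θ
  have d1 := (h.dφ (z s).θ).comp s hs.θ
  have d2 := (h.dψ (z s).θ).comp s hs.θ
  have d3 := (h.dl (z s).θ).comp s hs.θ
  have hd := ((hs.η.pow 2).add (((hs.ξ₁.add (d3.mul hs.ξ₂)).pow 2).div d1 hφ.ne')).add
    ((hs.ξ₂.pow 2).div d2 hψ.ne')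
  refine HasDerivAt.congr_deriv hd ?_
  simp only [Pi.mul_apply, Pi.add_apply, Pi.pow_apply, Function.comp_apply, h.A1_eq,
    Nat.cast_ofNat, Nat.add_one_sub_one, pow_one]
  rcases ht with ht | ht
  · rw [Prof.cert, if_pos ht]
    simp only [Qf, Prof.Gf, Xf, Prof.Aq, Prof.a, h.lam_left (z s).θ (by linarith),
      h.dl_left (z s).θ (by linarith), h.dψ_left _ ht]
    field_simp; ring
  · rw [Prof.cert, if_neg (by linarith), if_pos ht]
    simp only [Qf, Prof.Gf, Xf, Prof.Aq, Prof.b, h.dl_right (z s).θ (by linarith),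
      h.dφ_right _ ht]
    field_simp; ring

end Crest.Agent.R244
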