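import Crest.Agent.R244.Form
set_option autoImplicit false
open scoped ContDiff Topology
open Set Filter

noncomputable section
namespace Crest.Agent.R244

theorem qk : QkS := by
  intro P h p dp q z s hs κ κ' hκ
  have hk := hκ.comp s hs.θ
  have hN := (h.hasDerivAt_Aq (z s).θ p q).comp s hs.θ
  have hX := (hs.ξ₁.const_mul q.1).add (hs.ξ₂.const_mul q.2)
  have hQ := ((hs.η.mul hs.η₁).add (hs.ξ₁.const_mul dp.1)).add (hs.ξ₂.const_mul dp.2)
  have hG := (hs.τ.mul (hX.pow 2)).sub (((hN.const_mul 2).mul hs.η).mul hX)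
  refine HasDerivAt.congr_deriv (hQ.sub (hk.mul hG)) ?_
  simp only [Pi.mul_apply, Pi.add_apply, Pi.pow_apply, Pi.sub_apply, Function.comp_apply,
    Prof.yf, Xf, Prof.V1, h.A1_eq, Prof.Aq, Prod.fst_sub, Prod.snd_sub, Prod.smul_fst,
    Prod.smul_snd, smul_eq_mul, Nat.cast_ofNat, Nat.add_one_sub_one, pow_one, Prof.Gf]
  generalize P.A2 (z s).θ p p = A2
  ring

end Crest.Agent.R244
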