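import Crest.Agent.R244.GamCov
/-! Row 244, task `RmCov`. -/
set_option autoImplicit false
open scoped ContDiff Manifold Topology
open Bundle Set Filter
open Crest.GeometryTopology.Geodesic Crest.GeometryTopology.CoordMetric
  Crest.GeometryTopology.ChartCurvature

noncomputable section
namespace Crest.Agent.R244

open GamCov in
theorem rmCov (hB : GamBasicS) (hC : GamCovS) : RmCovS := by
  intro g g' τ U U' h y hy u v w
  have b := hB g U h.riem
  have b' := hB g' U' h.riem'
  have hU : U ∈ 𝓝 y := h.riem.isOpen.mem_nhds hy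
  have hy' : τ y ∈ U' := h.maps hy
  have hτ : ContDiffAt ℝ ∞ τ y := h.smooth.contDiffAt hU
  have hτ1 : ContDiffAt ℝ ∞ (fderiv ℝ τ) y := hτ.fderiv_right (m := ∞) (by simp)
  have hτ2 : ContDiffAt ℝ ∞ (fderiv ℝ (fderiv ℝ τ)) y := hτ1.fderiv_right (m := ∞) (by simp)
  have d1 : DifferentiableAt ℝ (fderiv ℝ τ) y := hτ1.differentiableAt (by simp)
  have d2 : DifferentiableAt ℝ (fderiv ℝ (fderiv ℝ τ)) y := hτ2.differentiableAt (by simp)
  have hg : DifferentiableAt ℝ (Gam g) y :=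
    (b.gam_smooth.contDiffAt hU).differentiableAt (by simp)
  have hg' : DifferentiableAt ℝ (Gam g') (τ y) :=
    (b'.gam_smooth.contDiffAt (h.riem'.isOpen.mem_nhds hy')).differentiableAt (by simp)
  have hS : ∀ a c, fderiv ℝ (fderiv ℝ τ) y a c = fderiv ℝ (fderiv ℝ τ) y c a := fun a c =>
    (hτ.isSymmSndFDerivAt (by simp [minSmoothness_of_isRCLikeNormedField]; norm_cast)).eq a c
  have hS3 : ∀ a c, fderiv ℝ (fderiv ℝ (fderiv ℝ τ)) y a c =
      fderiv ℝ (fderiv ℝ (fderiv ℝ τ)) y c a := fun a c =>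
    (hτ1.isSymmSndFDerivAt (by simp [minSmoothness_of_isRCLikeNormedField]; norm_cast)).eq a c
  have hd : ∀ a c d, fderiv ℝ (fderiv ℝ τ) y a (Gam g y c d) +
      fderiv ℝ τ y (fderiv ℝ (Gam g) y a c d) =
      fderiv ℝ (fderiv ℝ (fderiv ℝ τ)) y a c d +
      (fderiv ℝ (Gam g') (τ y) (fderiv ℝ τ y a) (fderiv ℝ τ y c) (fderiv ℝ τ y d) +
      Gam g' (τ y) (fderiv ℝ (fderiv ℝ τ) y a c) (fderiv ℝ τ y d) +
      Gam g' (τ y) (fderiv ℝ τ y c) (fderiv ℝ (fderiv ℝ τ) y a d)) := by
    intro a c d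
    have e : (fun x => fderiv ℝ τ x (Gam g x c d)) =ᶠ[𝓝 y]
        fun x => fderiv ℝ (fderiv ℝ τ) x c d +
          Gam g' (τ x) (fderiv ℝ τ x c) (fderiv ℝ τ x d) := by
      filter_upwards [hU] with x hx using hC g g' τ U U' h x hx c d
    have e1 := congrArg (fun L : E3 →L[ℝ] E3 => L a) e.fderiv_eq
    have dG : DifferentiableAt ℝ (fun x => Gam g x c d) y :=
      (hg.clm_apply (differentiableAt_const c)).clm_apply (differentiableAt_const d)
    have dS : DifferentiableAt ℝ (fun x => fderiv ℝ (fderiv ℝ τ) x c d) y :=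
      (d2.clm_apply (differentiableAt_const c)).clm_apply (differentiableAt_const d)
    rw [fd2 d1 dG, fd3c hg, fderiv_fun_add dS (fd_pull hg' hτ a c d).1,
      ContinuousLinearMap.add_apply, fd3c d2, (fd_pull hg' hτ a c d).2] at e1
    exact e1
  have law := hC g g' τ U U' h y hy
  have h1 := hd u v w
  have h2 := hd v u w
  rw [hS3 v u, hS v u] at h2
  simp only [Rm, map_sub, map_add]
  rw [law u (Gam g y v w), law v (Gam g y u w), law v w, law u w]
  simp only [map_add]
  rw [eq_sub_of_add_eq' h1, eq_sub_of_add_eq' h2]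
  abel

end Crest.Agent.R244
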