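import Crest.Agent.R244.Defs2
/-!
Row 244, task SmallLoop: short geodesics stay in a chart ball.
-/
set_option autoImplicit false
open scoped Topology ContDiff Manifold
open Set Filter

noncomputable section
namespace Crest.Agent.R244

namespace SmallLoop

theorem coercive {g : MF} {U K : Set E3} (h : GamBasic g U) (hK : IsCompact K) (hKU : K ⊆ U) :
    ∃ c > 0, ∀ y ∈ K, ∀ u, c * ‖u‖ ^ 2 ≤ ipL g y u u := by
  have hc : ContinuousOn (fun p : E3 × E3 => ipL g p.1 p.2 p.2) (K ×ˢ Metric.sphere 0 1) :=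
    (((h.ip_smooth.continuousOn.mono hKU).comp continuousOn_fst fun p hp => hp.1).clm_apply
      continuousOn_snd).clm_apply continuousOn_snd
  obtain ⟨c, hc0, hc'⟩ := (hK.prod (isCompact_sphere (0 : E3) 1)).exists_forall_le' hc (a := 0)
    fun p hp => h.ip_pos _ (hKU hp.1) _ (by
      intro h0
      have := hp.2
      rw [h0] at this
      simp at this)
  refine ⟨c, hc0, fun y hy u => ?_⟩
  rcases eq_or_ne u 0 with rfl | hu
  · simp
  · have hn : 0 < ‖u‖ := norm_pos_iff.2 hu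
    have := hc' (y, ‖u‖⁻¹ • u) ⟨hy, by simp [norm_smul, hn.ne']⟩
    simp only [map_smul, ContinuousLinearMap.smul_apply, smul_eq_mul] at this
    have h2 := mul_le_mul_of_nonneg_right this (sq_nonneg ‖u‖)
    calc c * ‖u‖ ^ 2 ≤ _ := h2
      _ = _ := by field_simp

end SmallLoop

open SmallLoop in
theorem smallLoop (hG : GamBasicS) (hC : ChartFactsS) : SmallLoopS := by
  intro M _ _ _ _ _ g Fl hF
  have hc := hC M g
  have loc : ∀ z : M, ∃ r > 0, ∃ ε > 0, Metric.closedBall (ch z z) (2 * r) ⊆ (ch z).target ∧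
      ∀ y ∈ Metric.closedBall (ch z z) (2 * r), ∀ u,
        ipL (mic g z) y u u < ε ^ 2 → ‖u‖ ≤ r / 2 := by
    intro z
    obtain ⟨ρ, hρ, h1⟩ := Metric.nhds_basis_closedBall.mem_iff.1
      ((ch z).open_target.mem_nhds ((ch z).map_source (mem_chart_source E3 z)))
    obtain ⟨c, hc0, h2⟩ := coercive (hG _ _ (hc.riem z)) (isCompact_closedBall _ _) h1
    refine ⟨ρ / 2, by positivity, ρ / 4 * √c, by positivity, by rwa [show 2 * (ρ / 2) = ρ by ring],
      fun y hy u hu => ?_⟩
    rw [show 2 * (ρ / 2) = ρ by ring] at hy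
    have h3 := (h2 y hy u).trans_lt hu
    rw [mul_pow, Real.sq_sqrt hc0.le, mul_comm _ c] at h3
    have h4 := lt_of_mul_lt_mul_left h3 hc0.le
    have := abs_lt_of_sq_lt_sq h4 (by positivity)
    rw [abs_of_nonneg (norm_nonneg u)] at this
    linarith
  choose r hr ε hε hsub hco using loc
  obtain ⟨T, hT⟩ := CompactSpace.elim_nhds_subcover
    (fun z : M => (ch z).source ∩ ch z ⁻¹' Metric.ball (ch z z) (r z)) fun z =>
      ((ch z).isOpen_inter_preimage Metric.isOpen_ball).mem_nhds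
        ⟨mem_chart_source E3 z, Metric.mem_ball_self (hr z)⟩
  have hev : ∀ᶠ δ in 𝓝[>] (0 : ℝ), ∀ z ∈ T, δ < ε z :=
    (eventually_all_finset T).2 fun z _ => nhdsWithin_le_nhds (eventually_lt_nhds (hε z))
  obtain ⟨δ, hδ, hδ0⟩ := (hev.and self_mem_nhdsWithin).exists
  have hδ0' : 0 < δ := hδ0
  refine ⟨δ, hδ0', fun x v hv => ?_⟩
  have hx : x ∈ ⋃ z ∈ T, (ch z).source ∩ ch z ⁻¹' Metric.ball (ch z z) (r z) := by
    rw [hT]; trivial
  obtain ⟨z, hz, hx1, hx2⟩ := mem_iUnion₂.1 hx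
  have hγ : Continuous fun t => (Fl t (x, v)).1 :=
    continuous_iff_continuousAt.2 fun t => (hF.sol (x, v) t).1
  let K : Set M := (ch z).symm '' Metric.closedBall (ch z z) (2 * r z)
  have hK : IsClosed K := ((isCompact_closedBall _ _).image_of_continuousOn
    ((ch z).continuousOn_symm.mono (hsub z))).isClosed
  have hK1 : ∀ y ∈ K, y ∈ (ch z).source ∧ ch z y ∈ Metric.closedBall (ch z z) (2 * r z) := by
    rintro _ ⟨y, hy, rfl⟩
    exact ⟨(ch z).map_target (hsub z hy), by rwa [(ch z).right_inv (hsub z hy)]⟩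
  have hK2 : ∀ y ∈ (ch z).source, ch z y ∈ Metric.closedBall (ch z z) (2 * r z) → y ∈ K :=
    fun y h1 h2 => ⟨_, h2, (ch z).left_inv h1⟩
  have hrz := hr z
  have hx3 : dist (ch z x) (ch z z) < r z := hx2
  have main : Icc (0 : ℝ) 1 ⊆ (fun t => (Fl t (x, v)).1) ⁻¹' K := by
    refine IsClosed.Icc_subset_of_forall_mem_nhdsGT_of_Icc_subset
      ((hK.preimage hγ).inter isClosed_Icc) ?_ fun t ht hsub' => ?_
    · rw [mem_preimage, hF.zero]
      exact hK2 x hx1 (Metric.mem_closedBall.2 (by linarith))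
    · have h1 := norm_image_sub_le_of_norm_deriv_le_segment'
        (f := fun s => ch z (Fl s (x, v)).1) (f' := fun s => TT z (Fl s (x, v)).1 (Fl s (x, v)).2)
        (a := 0) (b := t) (C := r z / 2)
        (fun s hs => ((ContinuousLinearMap.fst ℝ E3 E3).hasFDerivAt.comp_hasDerivAt s
          ((hF.sol (x, v) s).2 z (hK1 _ (hsub' hs)).1)).hasDerivWithinAt)
        (fun s hs => by
          obtain ⟨h2, h3⟩ := hK1 _ (hsub' (Ico_subset_Icc_self hs))
          refine hco z _ h3 _ ?_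
          rw [hc.tt_ip z _ h2, hF.speed]
          exact hv.trans (pow_lt_pow_left₀ (hδ z hz) hδ0'.le two_ne_zero)) t ⟨ht.1, le_rfl⟩
      simp only [hF.zero] at h1
      have h2 : dist (ch z (Fl t (x, v)).1) (ch z z) < 2 * r z := by
        have h3 := dist_triangle (ch z (Fl t (x, v)).1) (ch z x) (ch z z)
        rw [dist_eq_norm (ch z (Fl t (x, v)).1) (ch z x)] at h3
        nlinarith [ht.2, ht.1]
      refine nhdsWithin_le_nhds (mem_of_superset (hγ.continuousAt.preimage_mem_nhds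
        (((ch z).isOpen_inter_preimage (Metric.isOpen_ball (x := ch z z) (ε := 2 * r z))).mem_nhds
          ⟨(hK1 _ (hsub' ⟨ht.1, le_rfl⟩)).1, h2⟩)) fun s hs => ?_)
      exact hK2 _ hs.1 (Metric.ball_subset_closedBall hs.2)
  exact ⟨z, _, convex_closedBall _ _, hsub z, fun t ht => hK1 _ (main ht)⟩

end Crest.Agent.R244
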