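import Crest.Agent.R244.TanAux
/-! Row 244, task `SolLocal`. -/
set_option autoImplicit false
open scoped ContDiff Manifold Topology
open Bundle Set Filter
open Crest.GeometryTopology.Geodesic Crest.GeometryTopology.CoordMetric
  Crest.GeometryTopology.ChartCurvature

noncomputable section
namespace Crest.Agent.R244

namespace SolLocal

theorem locEx {X : Type} [NormedAddCommGroup X] [NormedSpace ℝ X] [CompleteSpace X]
    (f : X → X) (q₀ : X) (hf : ContDiffAt ℝ 1 f q₀) (O : Set X) (hO : O ∈ 𝓝 q₀) :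
    ∃ W ∈ 𝓝 q₀, ∃ ε > 0, ∀ q ∈ W, ∃ α : ℝ → X, α 0 = q ∧
      ∀ t ∈ Ioo (-ε) ε, α t ∈ O ∧ HasDerivAt α (f (α t)) t := by
  obtain ⟨ε, hε, a, r, L, K, hr, hpl⟩ := IsPicardLindelof.of_contDiffAt_one hf
  obtain ⟨α, hα, hc⟩ := (hpl 0).exists_forall_mem_closedBall_eq_hasDerivWithinAt_continuousOn
  have hn : Metric.closedBall q₀ r ×ˢ Icc (0 - ε) (0 + ε) ∈ 𝓝 (q₀, (0 : ℝ)) :=
    prod_mem_nhds (Metric.closedBall_mem_nhds q₀ hr) (Icc_mem_nhds (by linarith) (by linarith))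
  have hca : ContinuousAt α (q₀, 0) := hc.continuousAt hn
  have h0 : α (q₀, 0) = q₀ := (hα q₀ (Metric.mem_closedBall_self hr.le)).1
  have hpre : α ⁻¹' O ∈ 𝓝 (q₀, (0 : ℝ)) := hca (by rw [h0]; exact hO)
  obtain ⟨W, hW, T, hT, hWT⟩ := mem_nhds_prod_iff.1 hpre
  obtain ⟨δ, hδ, hδT⟩ := Metric.mem_nhds_iff.1 hT
  refine ⟨W ∩ Metric.closedBall q₀ r, inter_mem hW (Metric.closedBall_mem_nhds q₀ hr),
    min δ ε, lt_min hδ hε, fun q hq => ⟨fun t => α (q, t), (hα q hq.2).1, fun t ht => ⟨?_, ?_⟩⟩⟩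
  · refine hWT (mk_mem_prod hq.1 (hδT ?_))
    rw [Metric.mem_ball, Real.dist_eq, sub_zero, abs_lt]
    have := min_le_left δ ε
    exact ⟨by linarith [ht.1], by linarith [ht.2]⟩
  · have := min_le_right δ ε
    have h1 : 0 - ε < t := by linarith [ht.1]
    have h2 : t < 0 + ε := by linarith [ht.2]
    exact ((hα q hq.2).2 t ⟨h1.le, h2.le⟩).hasDerivAt (Icc_mem_nhds h1 h2)

theorem cptEx {X : Type} [NormedAddCommGroup X] [NormedSpace ℝ X] [CompleteSpace X]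
    (f : X → X) (O : Set X) (hO : IsOpen O) (hf : ContDiffOn ℝ 1 f O) (K : Set X)
    (hK : IsCompact K) (hKO : K ⊆ O) :
    ∃ ε > 0, ∀ q ∈ K, ∃ α : ℝ → X, α 0 = q ∧
      ∀ t ∈ Ioo (-ε) ε, α t ∈ O ∧ HasDerivAt α (f (α t)) t := by
  refine hK.induction_on (p := fun S => ∃ ε > 0, ∀ q ∈ S, ∃ α : ℝ → X, α 0 = q ∧
      ∀ t ∈ Ioo (-ε) ε, α t ∈ O ∧ HasDerivAt α (f (α t)) t) ⟨1, one_pos, by simp⟩ ?_ ?_ ?_
  · rintro S T hST ⟨ε, hε, h⟩
    exact ⟨ε, hε, fun q hq => h q (hST hq)⟩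
  · rintro S T ⟨ε, hε, h⟩ ⟨δ, hδ, h'⟩
    refine ⟨min ε δ, lt_min hε hδ, fun q hq => ?_⟩
    have m1 := min_le_left ε δ
    have m2 := min_le_right ε δ
    rcases hq with hq | hq
    · obtain ⟨α, h0, hα⟩ := h q hq
      exact ⟨α, h0, fun t ht => hα t ⟨by linarith [ht.1], by linarith [ht.2]⟩⟩
    · obtain ⟨α, h0, hα⟩ := h' q hq
      exact ⟨α, h0, fun t ht => hα t ⟨by linarith [ht.1], by linarith [ht.2]⟩⟩
  · intro q hq
    have hn := hO.mem_nhds (hKO hq)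
    obtain ⟨W, hW, h⟩ := locEx f q (hf.contDiffAt hn) O hn
    exact ⟨W, mem_nhdsWithin_of_mem_nhds hW, h⟩

/-- unit vectors are uniformly bounded over a compact set -/
theorem bdd (B : E3 → E3 →L[ℝ] E3 →L[ℝ] ℝ) (C : Set E3) (hC : IsCompact C)
    (hB : ContinuousOn B C) (hpos : ∀ y ∈ C, ∀ u, u ≠ 0 → 0 < B y u u) :
    ∃ R : ℝ, ∀ y ∈ C, ∀ v, B y v v ≤ 1 → ‖v‖ ≤ R := by
  rcases C.eq_empty_or_nonempty with rfl | hne
  · exact ⟨0, by simp⟩
  have hs : (Metric.sphere (0 : E3) 1).Nonempty := NormedSpace.sphere_nonempty.2 zero_le_one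
  have hc : ContinuousOn (fun q : E3 × E3 => B q.1 q.2 q.2) (C ×ˢ Metric.sphere (0 : E3) 1) := by
    have h1 : ContinuousOn (fun q : E3 × E3 => B q.1) (C ×ˢ Metric.sphere (0 : E3) 1) :=
      hB.comp continuousOn_fst fun q hq => hq.1
    exact (h1.clm_apply continuousOn_snd).clm_apply continuousOn_snd
  obtain ⟨q, hq, hmin⟩ := (hC.prod (isCompact_sphere (0 : E3) 1)).exists_isMinOn (hne.prod hs) hc
  have hq1 : ‖q.2‖ = 1 := by simpa using hq.2
  have hp : 0 < B q.1 q.2 q.2 := hpos _ hq.1 _ (by intro h; rw [h] at hq1; simp at hq1)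
  refine ⟨1 + 1 / B q.1 q.2 q.2, fun y hy v hv => ?_⟩
  by_cases h0 : v = 0
  · rw [h0, norm_zero]; positivity
  have hn : 0 < ‖v‖ := norm_pos_iff.2 h0
  have hm : (‖v‖⁻¹ • v) ∈ Metric.sphere (0 : E3) 1 := by
    simp [norm_smul, hn.ne']
  have h1 : B q.1 q.2 q.2 ≤ B y (‖v‖⁻¹ • v) (‖v‖⁻¹ • v) := hmin (mk_mem_prod hy hm)
  simp only [map_smul, smul_apply, smul_eq_mul] at h1
  have h2 : B q.1 q.2 q.2 * ‖v‖ ^ 2 ≤ B y v v := by
    have : ‖v‖⁻¹ * (‖v‖⁻¹ * B y v v) * ‖v‖ ^ 2 = B y v v := by field_simp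
    nlinarith [sq_nonneg ‖v‖]
  have h3 : ‖v‖ ^ 2 ≤ 1 / B q.1 q.2 q.2 := by
    rw [le_div_iff₀ hp]; nlinarith
  nlinarith [sq_nonneg (‖v‖ - 1), one_div_pos.2 hp]

theorem fv_smooth {g : MF} {U : Set E3} (b : GamBasic g U) :
    ContDiffOn ℝ 1 (Fv g) (U ×ˢ univ) := by
  have h1 : ContDiffOn ℝ 1 (fun q : E3 × E3 => Gam g q.1) (U ×ˢ univ) :=
    (b.gam_smooth.of_le (by norm_cast)).comp contDiffOn_fst fun q hq => hq.1
  exact contDiffOn_snd.prodMk ((h1.clm_apply contDiffOn_snd).clm_apply contDiffOn_snd).neg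

end SolLocal

open TanAux SolLocal in
theorem solLocal (hB : GamBasicS) (hC : ChartFactsS) (h1 : SolOneS) : SolLocalS := by
  intro M _ _ _ _ g
  have cf := hC M g
  have main := (isCompact_univ (X := M)).induction_on (p := fun S => ∃ ε > 0, ∀ p : M × E3,
      p.1 ∈ S → ipM g p.1 p.2 p.2 ≤ 1 → ∃ σ : ℝ → M × E3, σ 0 = p ∧
        ∀ t ∈ Ioo (-ε) ε, SolAt g σ t) ⟨1, one_pos, by simp⟩ ?_ ?_ ?_
  · obtain ⟨ε, hε, h⟩ := main
    exact ⟨ε, hε, fun p hp => h p (mem_univ _) hp⟩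
  · rintro S T hST ⟨ε, hε, h⟩
    exact ⟨ε, hε, fun q hq => h q (hST hq)⟩
  · rintro S T ⟨ε, hε, h⟩ ⟨δ, hδ, h'⟩
    refine ⟨min ε δ, lt_min hε hδ, fun q hq hq1 => ?_⟩
    have m1 := min_le_left ε δ
    have m2 := min_le_right ε δ
    rcases hq with hq | hq
    · obtain ⟨α, h0, hα⟩ := h q hq hq1
      exact ⟨α, h0, fun t ht => hα t ⟨by linarith [ht.1], by linarith [ht.2]⟩⟩
    · obtain ⟨α, h0, hα⟩ := h' q hq hq1
      exact ⟨α, h0, fun t ht => hα t ⟨by linarith [ht.1], by linarith [ht.2]⟩⟩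
  intro z _
  have b := hB _ _ (cf.riem z)
  obtain ⟨r, hr, hsub⟩ := Metric.nhds_basis_closedBall.mem_iff.1
    ((ch z).open_target.mem_nhds (mem_chart_target E3 z))
  obtain ⟨R, hR⟩ := bdd (ipL (mic g z)) _ (isCompact_closedBall (ch z z) r)
    (b.ip_smooth.continuousOn.mono hsub) fun y hy => b.ip_pos y (hsub hy)
  obtain ⟨ε, hε, hex⟩ := cptEx (Fv (mic g z)) ((ch z).target ×ˢ univ)
    ((ch z).open_target.prod isOpen_univ) (fv_smooth b)
    (Metric.closedBall (ch z z) r ×ˢ Metric.closedBall (0 : E3) R)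
    ((isCompact_closedBall _ _).prod (isCompact_closedBall _ _))
    (prod_mono hsub (subset_univ _))
  have hz : z ∈ (ch z).source := mem_chart_source E3 z
  refine ⟨(ch z).source ∩ ch z ⁻¹' Metric.closedBall (ch z z) r, mem_nhdsWithin_of_mem_nhds
    (inter_mem ((ch z).open_source.mem_nhds hz)
      (((ch z).continuousAt hz) (Metric.closedBall_mem_nhds _ hr))), ε, hε, ?_⟩
  rintro ⟨x, v⟩ ⟨hx, hxr⟩ hv
  have hv' : ipL (mic g z) (ch z x) (TT z x v) (TT z x v) ≤ 1 := by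
    rw [cf.tt_ip z x hx]; exact hv
  obtain ⟨α, h0, hα⟩ := hex (ch z x, TT z x v)
    ⟨hxr, by simpa using hR _ hxr _ hv'⟩
  let σ : ℝ → M × E3 := fun t =>
    ((ch z).symm (α t).1, fderiv ℝ (trM z ((ch z).symm (α t).1)) (α t).1 (α t).2)
  have hst : ∀ t ∈ Ioo (-ε) ε, st z (σ t) = α t := by
    intro t ht
    have hy : (α t).1 ∈ (ch z).target := (hα t ht).1.1
    have h2 := cf.tt_inv z _ ((ch z).map_target hy) (α t).2
    rw [(ch z).right_inv hy] at h2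
    exact Prod.ext ((ch z).right_inv hy) h2
  refine ⟨σ, ?_, fun t ht => ?_⟩
  · have e : (ch z).symm (ch z x) = x := (ch z).left_inv hx
    simp only [σ, h0, e]
    congr 1
    show fderiv ℝ (trM z x) (ch z x) (fderiv ℝ (trM x z) (ch x x) v) = v
    rw [fd_comp (mem_chart_source E3 x) hx (mem_chart_source E3 x),
      fd_self (mem_chart_source E3 x)]
  · have hy : (α t).1 ∈ (ch z).target := (hα t ht).1.1
    refine h1 M g σ t z ?_ ((ch z).map_target hy) ?_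
    · exact ContinuousAt.comp (g := (ch z).symm) ((ch z).continuousAt_symm hy)
        (hα t ht).2.continuousAt.fst
    · rw [hst t ht]
      refine (hα t ht).2.congr_of_eventuallyEq ?_
      filter_upwards [isOpen_Ioo.mem_nhds ht] with s hs using hst s hs

end Crest.Agent.R244
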