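import Crest.Agent.R244.TanAux
/-!
Row 244, task SolOne: solving the geodesic equation in one chart suffices.
-/
set_option autoImplicit false
open scoped ContDiff Manifold Topology
open Set Filter

noncomputable section
namespace Crest.Agent.R244

namespace SolOne

theorem chain {τ : E3 → E3} {c w : ℝ → E3} {t : ℝ} {a b : E3} (hsm : ContDiffAt ℝ ∞ τ (c t))
    (hd : HasDerivAt (fun s => (c s, w s)) (a, b) t) :
    HasDerivAt (fun s => (τ (c s), fderiv ℝ τ (c s) (w s)))
      (fderiv ℝ τ (c t) a, fderiv ℝ (fderiv ℝ τ) (c t) a (w t) + fderiv ℝ τ (c t) b) t := by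
  have hc1 : HasDerivAt c a t := by
    exact ((ContinuousLinearMap.fst ℝ E3 E3).hasFDerivAt.comp_hasDerivAt t hd :)
  have hw1 : HasDerivAt w b t := by
    exact ((ContinuousLinearMap.snd ℝ E3 E3).hasFDerivAt.comp_hasDerivAt t hd :)
  have hτ1 : HasFDerivAt τ (fderiv ℝ τ (c t)) (c t) :=
    (hsm.differentiableAt (by simp)).hasFDerivAt
  have hτ2 : HasFDerivAt (fderiv ℝ τ) (fderiv ℝ (fderiv ℝ τ) (c t)) (c t) :=
    ((hsm.fderiv_right (m := 1) (by norm_cast)).differentiableAt (by simp)).hasFDerivAt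
  have hA := hτ1.comp_hasDerivAt t hc1
  have hB := (hτ2.comp_hasDerivAt t hc1).clm_apply hw1
  exact hA.prodMk hB

end SolOne

theorem solOne (_hG : GamBasicS) (hC : GamCovS) (hCF : ChartFactsS) : SolOneS := by
  intro M _ _ _ g σ t z hc hz hd
  have cf := hCF M g
  refine ⟨hc, fun z' hz' => ?_⟩
  have hdom : ch z (σ t).1 ∈ dom z z' := TanAux.mem_dom hz hz'
  have hsm : ContDiffAt ℝ ∞ (trM z z') (ch z (σ t).1) :=
    (TanAux.trM_smooth z z').contDiffAt ((TanAux.isOpen_dom z z').mem_nhds hdom)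
  have hAB := SolOne.chain (c := fun s => ch z (σ s).1) (w := fun s => TT z (σ s).1 (σ s).2)
    hsm hd
  have hev : ∀ᶠ s in 𝓝 t, (σ s).1 ∈ (ch z).source ∧ (σ s).1 ∈ (ch z').source :=
    (hc.eventually ((ch z).open_source.mem_nhds hz)).and
      (hc.eventually ((ch z').open_source.mem_nhds hz'))
  have heq : (fun s => st z' (σ s)) =ᶠ[𝓝 t] fun s =>
      (trM z z' (ch z (σ s).1), fderiv ℝ (trM z z') (ch z (σ s).1) (TT z (σ s).1 (σ s).2)) := by
    filter_upwards [hev] with s hs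
    rw [TanAux.trM_apply z' hs.1, cf.tt_comp _ z z' hs.1 hs.2]
    rfl
  have hcov := hC _ _ _ _ _ (cf.iso z z') _ hdom (TT z (σ t).1 (σ t).2) (TT z (σ t).1 (σ t).2)
  refine HasDerivAt.congr_of_eventuallyEq (hAB.congr_deriv ?_) heq
  simp only [st, Fv]
  rw [map_neg, hcov, TanAux.trM_apply z' hz, cf.tt_comp _ z z' hz hz']
  congr 1
  abel

end Crest.Agent.R244
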