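import Crest.Agent.R244.Defs2
/-! Row 244, task `SolSpeed`. -/
set_option autoImplicit false
open scoped ContDiff Manifold Topology
open Bundle Set Filter
open Crest.GeometryTopology.Geodesic Crest.GeometryTopology.CoordMetric
  Crest.GeometryTopology.ChartCurvature

noncomputable section
namespace Crest.Agent.R244

theorem solSpeed (hB : GamBasicS) (hC : ChartFactsS) : SolSpeedS := by
  intro M _ _ _ g σ t hs
  have cf := hC M g
  obtain ⟨z, hz⟩ : ∃ z : M, (σ t).1 ∈ (ch z).source := ⟨_, mem_chart_source E3 _⟩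
  have b := hB _ _ (cf.riem z)
  have hd := hs.2 z hz
  have hy : (st z (σ t)).1 ∈ (ch z).target := (ch z).map_source hz
  have h1 : HasDerivAt (fun s => (st z (σ s)).1) (st z (σ t)).2 t := hd.fst
  have h2 : HasDerivAt (fun s => (st z (σ s)).2)
      (-Gam (mic g z) (st z (σ t)).1 (st z (σ t)).2 (st z (σ t)).2) t := hd.snd
  have hg : HasFDerivAt (ipL (mic g z)) (fderiv ℝ (ipL (mic g z)) (st z (σ t)).1) (st z (σ t)).1 :=
    ((b.ip_smooth.contDiffAt ((ch z).open_target.mem_nhds hy)).differentiableAt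
      (by simp)).hasFDerivAt
  have h3 := HasFDerivAt.comp_hasDerivAt (E := E3 →L[ℝ] E3 →L[ℝ] ℝ) (l := ipL (mic g z)) t hg h1
  have h4 := (h3.clm_apply h2).clm_apply h2
  refine (h4.congr_deriv ?_).congr_of_eventuallyEq ?_
  · have := b.compat _ hy (st z (σ t)).2 (st z (σ t)).2 (st z (σ t)).2
    simp only [Function.comp_apply, add_apply, map_neg, neg_apply]
    linarith
  · filter_upwards [hs.1 ((ch z).open_source.mem_nhds hz)] with s h
    exact (cf.tt_ip z _ h _ _).symm

end Crest.Agent.R244
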