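import Crest.Agent.R244.Defs2
/-! Row 244, task SolUnique: uniqueness of solutions of the geodesic equation. -/
set_option autoImplicit false
open scoped ContDiff Manifold Topology
open Bundle Set Filter
open Crest.GeometryTopology.Geodesic Crest.GeometryTopology.CoordMetric
  Crest.GeometryTopology.ChartCurvature

noncomputable section
namespace Crest.Agent.R244
namespace SolUnique

lemma fv_at {g : MF} {U : Set E3} (hU : IsOpen U) (b : GamBasic g U) {q : E3 × E3}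
    (hq : q.1 ∈ U) : ContDiffAt ℝ 1 (Fv g) q := by
  have h1 : ContDiffAt ℝ 1 (fun r : E3 × E3 => Gam g r.1) q :=
    ((b.gam_smooth.contDiffAt (hU.mem_nhds hq)).of_le (by exact_mod_cast le_top)).comp q
      contDiffAt_fst
  exact contDiffAt_snd.prodMk ((h1.clm_apply contDiffAt_snd).clm_apply contDiffAt_snd).neg

variable {M : Type} [TopologicalSpace M] [ChartedSpace E3 M] [IsManifold I3 ∞ M]

lemma st_inj {g : RM M} (hC : ChartFacts g) {z : M} {p q : M × E3} (hp : p.1 ∈ (ch z).source)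
    (hq : q.1 ∈ (ch z).source) (h : st z p = st z q) : p = q := by
  obtain ⟨x, u⟩ := p
  obtain ⟨x', v⟩ := q
  have h1 : x = x' := (ch z).injOn hp hq (congrArg Prod.fst h)
  subst h1
  have h2 : TT z x u = TT z x v := congrArg Prod.snd h
  have a := hC.tt_comp x z x hp (mem_chart_source E3 x) u
  have b := hC.tt_comp x z x hp (mem_chart_source E3 x) v
  rw [h2, b, hC.tt_self, hC.tt_self] at a
  rw [a]

lemma loc (hG : GamBasicS) {g : RM M} (hC : ChartFacts g) {σ₁ σ₂ : ℝ → M × E3} {t : ℝ}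
    (h₁ : ∀ᶠ s in 𝓝 t, SolAt g σ₁ s) (h₂ : ∀ᶠ s in 𝓝 t, SolAt g σ₂ s) (e : σ₁ t = σ₂ t) :
    σ₁ =ᶠ[𝓝 t] σ₂ := by
  set z := (σ₁ t).1 with hz
  have m1 : (σ₁ t).1 ∈ (ch z).source := mem_chart_source E3 z
  have m2 : (σ₂ t).1 ∈ (ch z).source := e ▸ m1
  have s1 : ∀ᶠ s in 𝓝 t, (σ₁ s).1 ∈ (ch z).source :=
    h₁.self_of_nhds.1.eventually ((ch z).open_source.mem_nhds m1)
  have s2 : ∀ᶠ s in 𝓝 t, (σ₂ s).1 ∈ (ch z).source :=
    h₂.self_of_nhds.1.eventually ((ch z).open_source.mem_nhds m2)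
  have hF : ContDiffAt ℝ 1 (Fv (mic g z)) (st z (σ₁ t)) :=
    fv_at (ch z).open_target (hG _ _ (hC.riem z)) ((ch z).map_source m1)
  obtain ⟨K, W, hW, hK⟩ := hF.exists_lipschitzOnWith
  have c1 : ContinuousAt (fun s => st z (σ₁ s)) t := (h₁.self_of_nhds.2 z m1).continuousAt
  have c2 : ContinuousAt (fun s => st z (σ₂ s)) t := (h₂.self_of_nhds.2 z m2).continuousAt
  have w1 : ∀ᶠ s in 𝓝 t, st z (σ₁ s) ∈ W := c1.eventually hW
  have w2 : ∀ᶠ s in 𝓝 t, st z (σ₂ s) ∈ W := c2.eventually (show W ∈ 𝓝 (st z (σ₂ t)) from e ▸ hW)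
  have key : (fun s => st z (σ₁ s)) =ᶠ[𝓝 t] fun s => st z (σ₂ s) := by
    refine ODE_solution_unique_of_eventually (v := fun _ => Fv (mic g z)) (s := fun _ => W)
      (K := K) (Eventually.of_forall fun _ => hK) ?_ ?_ (by simp only [e])
    · filter_upwards [h₁, s1, w1] with s a b c using ⟨a.2 z b, c⟩
    · filter_upwards [h₂, s2, w2] with s a b c using ⟨a.2 z b, c⟩
  filter_upwards [key, s1, s2] with s a b c using st_inj hC b c a

lemma closed [T2Space M] {g : RM M} (hC : ChartFacts g) {σ₁ σ₂ : ℝ → M × E3} {t : ℝ}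
    (h₁ : SolAt g σ₁ t) (h₂ : SolAt g σ₂ t) (e : ∃ᶠ s in 𝓝 t, σ₁ s = σ₂ s) : σ₁ t = σ₂ t := by
  have e1 : (σ₁ t).1 = (σ₂ t).1 :=
    tendsto_nhds_unique_of_frequently_eq h₁.1 h₂.1 (e.mono fun s hs => by rw [hs])
  set z := (σ₁ t).1 with hz
  have m1 : (σ₁ t).1 ∈ (ch z).source := mem_chart_source E3 z
  have m2 : (σ₂ t).1 ∈ (ch z).source := e1 ▸ m1
  refine st_inj hC m1 m2 ?_
  exact tendsto_nhds_unique_of_frequently_eq (h₁.2 z m1).continuousAt (h₂.2 z m2).continuousAt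
    (e.mono fun s hs => by simp only [hs])

end SolUnique

open SolUnique in
theorem solUnique (hG : GamBasicS) (hC : ChartFactsS) : SolUniqueS := by
  intro M _ _ _ _ g σ₁ σ₂ a b t₀ ht₀ h₁ h₂ e
  have hc := hC M g
  have ev : ∀ {σ : ℝ → M × E3}, (∀ t ∈ Ioo a b, SolAt g σ t) → ∀ t ∈ Ioo a b,
      ∀ᶠ s in 𝓝 t, SolAt g σ s := fun h t ht =>
    Filter.Eventually.mono (isOpen_Ioo.mem_nhds ht) h
  have hU : IsOpen {t | σ₁ =ᶠ[𝓝 t] σ₂} := isOpen_setOfPred_eventually_nhds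
  have := isPreconnected_Ioo.subset_of_closure_inter_subset hU
    ⟨t₀, ht₀, loc hG hc (ev h₁ t₀ ht₀) (ev h₂ t₀ ht₀) e⟩ (fun t ⟨ht, ht'⟩ => by
      refine loc hG hc (ev h₁ t ht') (ev h₂ t ht') (closed hc (h₁ t ht') (h₂ t ht') ?_)
      exact (mem_closure_iff_frequently.1 ht).mono fun s hs => hs.self_of_nhds)
  exact fun t ht => (this ht).self_of_nhds

end Crest.Agent.R244
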