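import Crest.Agent.R244.Defs2
set_option autoImplicit false
open scoped Topology
open Set Filter

noncomputable section
namespace Crest.Agent.R244

theorem sqrtConvex : SqrtConvexS := by
  intro ρ ρ₁ c h0 h1 h2 hz hlim
  have key : ∀ e > 0, ∀ s ∈ Ioo (0 : ℝ) 1,
      √(ρ s + e ^ 2) ≤ (1 - s) * e + s * √(ρ 1 + e ^ 2) := by
    intro e he s hs
    have hpos : ∀ t, 0 < ρ t + e ^ 2 := fun t => by have := h0 t; positivity
    have hd : ∀ t, HasDerivAt (fun t => √(ρ t + e ^ 2)) (ρ₁ t / (2 * √(ρ t + e ^ 2))) t :=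
      fun t => ((h1 t).add_const _).sqrt (hpos t).ne'
    have hde : deriv (fun t => √(ρ t + e ^ 2)) = fun t => ρ₁ t / (2 * √(ρ t + e ^ 2)) :=
      funext fun t => (hd t).deriv
    have hdd : ∀ t, ∃ D, HasDerivAt (fun t => ρ₁ t / (2 * √(ρ t + e ^ 2))) D t ∧ 0 ≤ D := by
      intro t
      obtain ⟨ρ₂, hρ, hn, hq⟩ := h2 t
      have hs := Real.sqrt_pos.2 (hpos t)
      refine ⟨_, hρ.div ((hd t).const_mul 2) (by positivity), ?_⟩
      refine div_nonneg ?_ (sq_nonneg _)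
      have e1 : ρ₂ * (2 * √(ρ t + e ^ 2)) - ρ₁ t * (2 * (ρ₁ t / (2 * √(ρ t + e ^ 2)))) =
          (2 * ρ₂ * √(ρ t + e ^ 2) ^ 2 - ρ₁ t ^ 2) / √(ρ t + e ^ 2) := by field_simp
      rw [e1, Real.sq_sqrt (hpos t).le]
      refine div_nonneg ?_ hs.le
      nlinarith [sq_nonneg e]
    have hcv : ConvexOn ℝ univ (fun t => √(ρ t + e ^ 2)) := by
      refine convexOn_univ_of_deriv2_nonneg (fun t => (hd t).differentiableAt) ?_ fun t => ?_
      · rw [hde]; exact fun t => (hdd t).choose_spec.1.differentiableAt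
      · obtain ⟨D, hD, hD0⟩ := hdd t
        simp only [Function.iterate_succ, Function.iterate_zero, Function.comp_apply, id, hde]
        rwa [hD.deriv]
    have := hcv.2 (mem_univ (0 : ℝ)) (mem_univ 1) (show 0 ≤ 1 - s by linarith [hs.2]) hs.1.le
      (by ring)
    simpa [hz, Real.sqrt_sq he.le] using this
  have key2 : ∀ s ∈ Ioo (0 : ℝ) 1, √(ρ s) ≤ s * √(ρ 1) := by
    intro s hs
    have t1 : Tendsto (fun e : ℝ => √(ρ s + e ^ 2)) (𝓝[>] 0) (𝓝 (√(ρ s + 0 ^ 2))) :=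
      tendsto_nhdsWithin_of_tendsto_nhds (Continuous.tendsto (by fun_prop) 0)
    have t2 : Tendsto (fun e : ℝ => (1 - s) * e + s * √(ρ 1 + e ^ 2)) (𝓝[>] 0)
        (𝓝 ((1 - s) * 0 + s * √(ρ 1 + 0 ^ 2))) :=
      tendsto_nhdsWithin_of_tendsto_nhds (Continuous.tendsto (by fun_prop) 0)
    have := le_of_tendsto_of_tendsto t1 t2 (eventually_nhdsWithin_of_forall fun e he => key e he s hs)
    simpa using this
  refine le_of_tendsto hlim ?_
  filter_upwards [Ioo_mem_nhdsGT (zero_lt_one' ℝ)] with s hs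
  have h3 := pow_le_pow_left₀ (Real.sqrt_nonneg _) (key2 s hs) 2
  rw [mul_pow, Real.sq_sqrt (h0 _), Real.sq_sqrt (h0 _)] at h3
  rw [div_le_iff₀ (pow_pos hs.1 2)]
  linarith

end Crest.Agent.R244
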