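import Crest.Agent.R244.Defs2
/-! Row 244, task `StableLen`. -/
set_option autoImplicit false
open scoped Topology
open Set Filter

noncomputable section
namespace Crest.Agent.R244

theorem stableLen : StableLenS := by
  intro G _ len hl
  have hsub : ∀ g : G, Subadditive fun n : ℕ => len (g ^ n) := fun g m n => by
    show len (g ^ (m + n)) ≤ len (g ^ m) + len (g ^ n)
    rw [pow_add]; exact hl.mul _ _
  have hlim : ∀ g : G, Tendsto (fun n : ℕ => len (g ^ n) / n) atTop (𝓝 (hsub g).lim) :=
    fun g => (hsub g).tendsto_lim ⟨0, by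
      rintro _ ⟨n, rfl⟩
      exact div_nonneg (hl.nonneg _) (Nat.cast_nonneg n)⟩
  set l : G → ℝ := fun g => (hsub g).lim with hld
  have hlim' : ∀ g : G, Tendsto (fun n : ℕ => len (g ^ n) / n) atTop (𝓝 (l g)) := hlim
  have hsq : ∀ g : G, l (g * g) = 2 * l g := by
    intro g
    have h1 : Tendsto (fun n : ℕ => 2 * n) atTop atTop :=
      tendsto_atTop_mono (fun n => by show n ≤ 2 * n; omega) tendsto_id
    have h2 := ((hlim' g).comp h1).const_mul 2
    refine tendsto_nhds_unique (hlim' (g * g)) (h2.congr fun n => ?_)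
    simp only [Function.comp_apply]
    rw [← pow_two, ← pow_mul]
    push_cast
    rcases eq_or_ne (n : ℝ) 0 with h | h
    · simp [h]
    · field_simp
  have hle : ∀ u a : G, Commute u a → l (u * a) ^ 2 + l (u * a⁻¹) ^ 2 ≤ 2 * l u ^ 2 + 2 * l a ^ 2 := by
    intro u a h
    refine le_of_tendsto_of_tendsto' (((hlim' (u * a)).pow 2).add ((hlim' (u * a⁻¹)).pow 2))
      ((((hlim' u).pow 2).const_mul 2).add (((hlim' a).pow 2).const_mul 2)) fun n => ?_
    have hc : Commute ((u * a⁻¹) ^ n) (a ^ n) :=
      (Commute.mul_left h (Commute.refl a).inv_left).pow_pow n n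
    have q := hl.quad _ _ _ hc hc
    have e1 : (u * a⁻¹) ^ n * a ^ n = u ^ n := by
      rw [h.inv_right.mul_pow, inv_pow, inv_mul_cancel_right]
    have e2 : u ^ n * a ^ n = (u * a) ^ n := (h.mul_pow n).symm
    rw [e1, e2] at q
    simp only [div_pow]
    rw [← add_div, ← mul_div_assoc, ← mul_div_assoc, ← add_div]
    exact div_le_div_of_nonneg_right (by linarith) (by positivity)
  refine ⟨l, hlim', fun g hg => ?_, fun u a h => le_antisymm (hle u a h) ?_⟩
  · obtain ⟨ε, hε, h⟩ := hl.grow g hg
    have h1 : Tendsto (fun k : ℕ => 2 ^ k) atTop atTop :=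
      tendsto_pow_atTop_atTop_of_one_lt (by norm_num : (1 : ℕ) < 2)
    refine hε.trans_le (ge_of_tendsto' ((hlim' g).comp h1) fun k => ?_)
    simp only [Function.comp_apply]
    rw [le_div_iff₀ (by positivity)]
    push_cast
    linarith [h k]
  · have hc : Commute (u * a) (u * a⁻¹) :=
      Commute.mul_left (Commute.mul_right (Commute.refl u) h.inv_right)
        (Commute.mul_right h.symm (Commute.refl a).inv_right)
    have q := hle _ _ hc
    have e1 : u * a * (u * a⁻¹) = u * u := by
      rw [mul_assoc, ← mul_assoc a, ← h.eq, mul_assoc, mul_inv_cancel, mul_one]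
    have e2 : u * a * (u * a⁻¹)⁻¹ = a * a := by
      rw [mul_inv_rev, inv_inv, h.eq, mul_assoc, ← mul_assoc u, h.eq, mul_assoc, mul_inv_cancel,
        mul_one]
    rw [e1, e2, hsq, hsq] at q
    linarith

end Crest.Agent.R244
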