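import Crest.Agent.R244.Form
set_option autoImplicit false
open scoped ContDiff Topology
open Set Filter

noncomputable section
namespace Crest.Agent.R244
namespace Star1

lemma abs_le_of_sq {x y : ℝ} (hy : 0 ≤ y) (h : x ^ 2 ≤ y ^ 2) : |x| ≤ y :=
  abs_le_of_sq_le_sq' h hy |> abs_le.2

lemma fin (a n D N1 D1 A : ℝ) (ha : 0 ≤ a) (haδ : a ≤ 1 / 200) (hn : 0 ≤ n) (hn2 : n ≤ 11 / 10 * a)
    (hD1' : 9 / 10 ≤ D) (hD2 : D ≤ 21 / 10) (hN : a / 2 ≤ N1) (hDD : -(1 / 100) ≤ D1)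
    (hA : A ≤ 21 / 10) : n ^ 2 * A ≤ N1 * D ^ 2 + 2 * n * D * D1 := by
  have e1 : n ^ 2 * A ≤ a / 20 := by
    have : n ^ 2 ≤ a / 100 := by nlinarith
    nlinarith [sq_nonneg n]
  have e2 : a * (2 / 5) ≤ N1 * D ^ 2 := by
    have : 4 / 5 ≤ D ^ 2 := by nlinarith
    nlinarith
  have e3 : -(a / 10) ≤ 2 * n * D * D1 := by
    have h1 : 0 ≤ n * D := by positivity
    have h2 : n * D ≤ 3 * a := by nlinarith
    nlinarith
  linarith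

lemma mul_abs {c C x B : ℝ} (hc : 0 ≤ c) (hC : c ≤ C) (hx : |x| ≤ B) : |c * x| ≤ C * B := by
  rw [abs_mul, abs_of_nonneg hc]
  exact mul_le_mul hC hx (abs_nonneg x) (hc.trans hC)

/-- the scalar inequality; `x = λ' u`, `y = λ'' u`, `z = λ u`, `w = b u²`, `w1 = b' u²`. -/
lemma core (a b a1 φ ψ l l1 x y z w w1 : ℝ) (ha : 0 ≤ a) (hb : 0 ≤ b) (haδ : a ≤ 1 / 200)
    (hbδ : b ≤ 1 / 200) (hφ1 : 1 ≤ φ) (hφ2 : φ ≤ 2) (hψ0 : 0 < ψ) (hψ2 : ψ ≤ 2)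
    (ha1 : a ≤ -a1) (hw0 : 0 ≤ w) (hw1 : w ≤ w1) (hl : |l| ≤ 1 / 200)
    (hl1 : l1 ^ 2 ≤ (1 / 200) ^ 2 * (a * b)) (hx : x ^ 2 ≤ (1 / 200) ^ 2 * (a * w))
    (hy : y ^ 2 ≤ (1 / 200) ^ 2 * (a * w)) (hz : w ≤ 2 * a → z ^ 2 ≤ 2 * (1 / 200) ^ 2)
    (hn : 0 ≤ a - ψ * x - w) :
    0 < φ - ψ * z ∧ (a - ψ * x - w) ^ 2 * (φ + ψ * l ^ 2) ≤
      -(a1 - ψ * y + 4 * b * x + ψ * l1 ^ 2 - w1) * (φ - ψ * z) ^ 2
        + 2 * (a - ψ * x - w) * (φ - ψ * z) * (2 * a - ψ * x + 2 * b * z + ψ * l * l1) := by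
  have hx0 : |x| ≤ (a + w) / 400 := abs_le_of_sq (by positivity)
    (by linarith [sq_nonneg (a - w), show ((a + w) / 400) ^ 2 =
      (1 / 200) ^ 2 * (a * w) + (a - w) ^ 2 / 160000 by ring])
  have hψx := mul_abs hψ0.le hψ2 hx0
  have hw2 : w ≤ 2 * a := by have := (abs_le.1 hψx).1; linarith
  have hx1 : |x| ≤ a / 100 := by linarith
  have haw : a * w ≤ 2 * a ^ 2 := by nlinarith
  have hy1 : |y| ≤ a / 100 := abs_le_of_sq (by positivity)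
    (by linarith [sq_nonneg a, show (a / 100) ^ 2 = a ^ 2 / 10000 by ring])
  have hz1 : |z| ≤ 1 / 100 := abs_le_of_sq (by positivity) (by have := hz hw2; linarith)
  have hψx1 := mul_abs hψ0.le hψ2 hx1
  have hψy1 := mul_abs hψ0.le hψ2 hy1
  have hψz1 := mul_abs hψ0.le hψ2 hz1
  have hbx := mul_abs hb hbδ hx1
  have hbz := mul_abs hb hbδ hz1
  have hab : a * b ≤ a / 200 := by nlinarith
  have hl12 : ψ * l1 ^ 2 ≤ 2 * l1 ^ 2 := mul_le_mul_of_nonneg_right hψ2 (sq_nonneg l1)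
  have hl1' : |l1| ≤ 1 / 1000 := abs_le_of_sq (by positivity) (by linarith)
  have hll : |ψ * l * l1| ≤ 2 * (1 / 200) * (1 / 1000) := by
    rw [abs_mul]
    exact mul_le_mul (mul_abs hψ0.le hψ2 hl) hl1' (abs_nonneg _) (by norm_num)
  have hl2 : l ^ 2 ≤ (1 / 200) ^ 2 := by
    rw [← sq_abs]; exact pow_le_pow_left₀ (abs_nonneg l) hl 2
  have hl3 : ψ * l ^ 2 ≤ 2 * l ^ 2 := mul_le_mul_of_nonneg_right hψ2 (sq_nonneg l)
  obtain ⟨x1, x2⟩ := abs_le.1 hψx1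
  obtain ⟨y1, y2⟩ := abs_le.1 hψy1
  obtain ⟨z1, z2⟩ := abs_le.1 hψz1
  obtain ⟨bx1, bx2⟩ := abs_le.1 hbx
  obtain ⟨bz1, bz2⟩ := abs_le.1 hbz
  obtain ⟨ll1, ll2⟩ := abs_le.1 hll
  refine ⟨by linarith, fin a _ _ _ _ _ ha haδ hn (by linarith) (by linarith) (by linarith)
    (by linarith) (by linarith) (by linarith)⟩

end Star1

theorem star1 : Star1S := by
  intro P h p t ht hp hV
  obtain ⟨hψ2, hbδ, hb1, hl, hl1, hl2, hla⟩ := h.bd t ht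
  obtain ⟨hφ1, hφ2, haδ, ha1⟩ := h.phi.bd t ht
  have ha : 0 ≤ P.a t := by have := h.phi.mono t; rw [Prof.a]; linarith
  have hb := h.b_nonneg t
  set u := (p.2 - P.lam t * p.1) / p.1 with hu
  have hR : p.2 - P.lam t * p.1 = u * p.1 := by rw [hu]; field_simp
  have hp2 : p.2 = (u + P.lam t) * p.1 := by linarith
  have hP2 : 0 < p.1 ^ 2 := by positivity
  have hVn : P.V1 p t = p.1 ^ 2 * (P.a t - P.ψ t * (deriv P.lam t * u) - P.b t * u ^ 2) := by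
    rw [h.V1_eq, hR]; ring
  have hn : 0 ≤ P.a t - P.ψ t * (deriv P.lam t * u) - P.b t * u ^ 2 := by
    rw [hVn] at hV; exact nonneg_of_mul_nonneg_right hV hP2 |> fun h => by
      exact (mul_nonneg_iff_of_pos_left hP2).1 hV
  obtain ⟨hD, hcore⟩ := Star1.core (P.a t) (P.b t) (deriv (deriv P.φ) t / 2) (P.φ t) (P.ψ t)
    (P.lam t) (deriv P.lam t) (deriv P.lam t * u) (deriv (deriv P.lam) t * u) (P.lam t * u)
    (P.b t * u ^ 2) (deriv P.b t * u ^ 2) ha hb haδ hbδ hφ1 hφ2 (h.ψ_pos t) hψ2 ha1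
    (by positivity) (by nlinarith [sq_nonneg u]) hl hl1
    (by rw [mul_pow]; nlinarith [sq_nonneg u]) (by rw [mul_pow]; nlinarith [sq_nonneg u])
    (fun hw => by
      rcases eq_or_lt_of_le ht.1 with h0 | h0
      · rw [h.lam_left t (by linarith)]; norm_num
      · have hbp := h.b_pos t ⟨h0, ht.2⟩
        refine le_of_mul_le_mul_left ?_ hbp
        nlinarith [sq_nonneg (P.lam t)]) hn
  have hNe : P.Aq t p (1, 0) = p.1 * (P.φ t - P.ψ t * (P.lam t * u)) := by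
    rw [Prof.Aq, hR]; ring
  have hN : P.Aq t p (1, 0) ≠ 0 := by rw [hNe]; exact mul_ne_zero hp hD.ne'
  refine ⟨hN, ?_⟩
  rw [(h.hasDerivAt_kap p (1, 0) t hN).deriv, Prof.kap, hNe, hVn, h.A2_eq, h.A1_eq, hR]
  have hA : P.Aq t (1, 0) (1, 0) = P.φ t + P.ψ t * P.lam t ^ 2 := by rw [Prof.Aq]; ring
  rw [hA]
  rw [h.deriv_b] at hcore
  simp only [Prof.a, Prof.b] at hcore ⊢
  set D := P.φ t - P.ψ t * (P.lam t * u) with hDd
  have hD4 : 0 < D ^ 4 := by positivity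
  refine le_of_mul_le_mul_right ?_ hD4
  refine le_of_eq_of_le ?_ (le_of_le_of_eq hcore ?_)
  · field_simp
  · field_simp
    ring

end Crest.Agent.R244
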