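import Crest.Agent.R244.Defs2
/-! Row 244: tangent bundle bookkeeping shared by `ChartFacts` and `GlueMet`. -/
set_option autoImplicit false
open scoped ContDiff Manifold Topology
open Bundle Set Filter
open Crest.GeometryTopology.Geodesic Crest.GeometryTopology.CoordMetric
  Crest.GeometryTopology.ChartCurvature

noncomputable section
namespace Crest.Agent.R244.TanAux

variable {M : Type} [TopologicalSpace M] [ChartedSpace E3 M]

theorem isOpen_dom (x z : M) : IsOpen (dom x z) :=
  (ch x).continuousOn_symm.isOpen_inter_preimage (ch x).open_target (ch z).open_source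

theorem mem_dom {x z w : M} (hx : w ∈ (ch x).source) (hz : w ∈ (ch z).source) :
    ch x w ∈ dom x z := by
  refine ⟨(ch x).map_source hx, ?_⟩
  show (ch x).symm (ch x w) ∈ (ch z).source
  rw [(ch x).left_inv hx]; exact hz

theorem trM_apply {x w : M} (z : M) (hx : w ∈ (ch x).source) : trM x z (ch x w) = ch z w := by
  show ch z ((ch x).symm (ch x w)) = _
  rw [(ch x).left_inv hx]

theorem sum_bas (u : E3) : u = ∑ i, u i • bas i := by
  ext j
  simp [Fin.sum_univ_three, bas_apply]
  fin_cases j <;> simp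

theorem bilin_expand (B : E3 →L[ℝ] E3 →L[ℝ] ℝ) (u v : E3) :
    B u v = ∑ i, ∑ j, B (bas i) (bas j) * u i * v j := by
  conv_lhs => rw [sum_bas u, sum_bas v]
  simp only [Fin.sum_univ_three, map_add, map_smul, ContinuousLinearMap.add_apply,
    ContinuousLinearMap.smul_apply, smul_eq_mul]
  ring

theorem ipL_bas (g : MF) (y : E3) (i j : Fin 3) : ipL g y (bas i) (bas j) = g y i j := by
  rw [ipL_apply]
  fin_cases i <;> fin_cases j <;> simp [Fin.sum_univ_three, bas_apply]

variable [IsManifold I3 ∞ M]

theorem tcc (x z w : M) : tangentCoordChange I3 x z w = fderiv ℝ (trM x z) (ch x w) := by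
  rw [tangentCoordChange_def]
  simp only [modelWithCornersSelf_coe, range_id, fderivWithin_univ, extChartAt_coe,
    extChartAt_coe_symm, modelWithCornersSelf_coe_symm, Function.id_comp, Function.comp_id]
  rfl

theorem trM_smooth (x z : M) : ContDiffOn ℝ ∞ (trM x z) (dom x z) := by
  have h := contDiffOn_ext_coord_change (I := I3) (n := ∞) z x
  have e : ((extChartAt I3 x).symm ≫ extChartAt I3 z).source = dom x z := by
    ext y
    simp [dom]
  rw [e] at h
  exact h

theorem trM_diff {x z : M} {y : E3} (hy : y ∈ dom x z) : DifferentiableAt ℝ (trM x z) y :=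
  ((trM_smooth x z).contDiffAt ((isOpen_dom x z).mem_nhds hy)).differentiableAt (by simp)

theorem fd_self {x w : M} (h : w ∈ (ch x).source) (v : E3) :
    fderiv ℝ (trM x x) (ch x w) v = v := by
  rw [← tcc]
  exact tangentCoordChange_self (by simpa using h)

theorem fd_comp {a b c w : M} (ha : w ∈ (ch a).source) (hb : w ∈ (ch b).source)
    (hc : w ∈ (ch c).source) (v : E3) :
    fderiv ℝ (trM b c) (ch b w) (fderiv ℝ (trM a b) (ch a w) v) =
      fderiv ℝ (trM a c) (ch a w) v := by
  rw [← tcc, ← tcc, ← tcc]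
  exact tangentCoordChange_comp (by simpa using ⟨⟨ha, hb⟩, hc⟩)

theorem mfd_symm {z : M} {y : E3} (hy : y ∈ (ch z).target) :
    mfderiv I3 I3 (ch z).symm y = fderiv ℝ (trM z ((ch z).symm y)) y := by
  have hd : MDifferentiableAt I3 I3 (ch z).symm y :=
    mdifferentiableAt_atlas_symm (chart_mem_atlas E3 z) hy
  rw [hd.mfderiv]
  simp only [modelWithCornersSelf_coe, range_id, fderivWithin_univ, writtenInExtChartAt,
    extChartAt_coe, extChartAt_coe_symm, modelWithCornersSelf_coe_symm, Function.id_comp,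
    Function.comp_id, chartAt_self_eq, OpenPartialHomeomorph.refl_apply,
    OpenPartialHomeomorph.refl_symm, id]
  rfl

theorem mfd {z x : M} (hx : x ∈ (ch z).source) : mfderiv I3 I3 (ch z) x = TT z x := by
  have hd : MDifferentiableAt I3 I3 (ch z) x :=
    mdifferentiableAt_atlas (chart_mem_atlas E3 z) hx
  rw [hd.mfderiv]
  simp only [modelWithCornersSelf_coe, range_id, fderivWithin_univ, writtenInExtChartAt,
    extChartAt_coe, extChartAt_coe_symm, modelWithCornersSelf_coe_symm, Function.id_comp,
    Function.comp_id, chartAt_self_eq, OpenPartialHomeomorph.refl_apply,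
    OpenPartialHomeomorph.refl_symm, id]
  rfl

/-- the metric in a chart, as a bilinear form -/
theorem ipL_mic (g : RM M) {z : M} {y : E3} (hy : y ∈ (ch z).target) (u v : E3) :
    ipL (mic g z) y u v = g.inner ((ch z).symm y) (fderiv ℝ (trM z ((ch z).symm y)) y u)
      (fderiv ℝ (trM z ((ch z).symm y)) y v) := by
  let A : E3 →L[ℝ] E3 := fderiv ℝ (trM z ((ch z).symm y)) y
  let G : E3 →L[ℝ] E3 →L[ℝ] ℝ := g.inner ((ch z).symm y)
  have h := bilin_expand (G.bilinearComp A A) u v
  rw [ipL_apply]
  refine Eq.trans ?_ h.symm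
  refine Finset.sum_congr rfl fun i _ => Finset.sum_congr rfl fun j _ => ?_
  congr 2
  show g.inner _ (mfderiv I3 I3 (ch z).symm y _) (mfderiv I3 I3 (ch z).symm y _) = _
  rw [mfd_symm hy]
  rfl

/-- a family of bilinear forms read in the trivialization at `m` -/
theorem triv_apply (s : ∀ x : M, TangentSpace I3 x →L[ℝ] TangentSpace I3 x →L[ℝ] ℝ) {m x : M}
    (hx : x ∈ (ch m).source) (u v : E3) :
    (trivializationAt (E3 →L[ℝ] E3 →L[ℝ] ℝ)
      (fun x : M => TangentSpace I3 x →L[ℝ] TangentSpace I3 x →L[ℝ] ℝ) m ⟨x, s x⟩).2 u v =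
      s x (fderiv ℝ (trM m x) (ch m x) u) (fderiv ℝ (trM m x) (ch m x) v) := by
  have hb : x ∈ (trivializationAt E3 (TangentSpace I3 : M → Type) m).baseSet := by
    simpa using hx
  rw [hom_trivializationAt_apply]
  have h := inCoordinates_apply_eq₂ (𝕜 := ℝ) (F₁ := E3) (F₂ := E3) (F₃ := ℝ)
    (E₁ := fun x : M => TangentSpace I3 x) (E₂ := fun x : M => TangentSpace I3 x)
    (E₃ := fun _ : M => ℝ) (x₀ := m) (x := x) (ϕ := s x) (v := u) (w := v) hb hb (by simp)
  refine h.trans ?_
  have e : ∀ w : E3, (trivializationAt E3 (TangentSpace I3 : M → Type) m).symm x w =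
      fderiv ℝ (trM m x) (ch m x) w := by
    intro w
    rw [← tcc, ← Trivialization.symmL_apply (R := ℝ) _ hb,
      TangentBundle.symmL_trivializationAt_eq_core hx]
    rfl
  rw [e, e]
  simp

end Crest.Agent.R244.TanAux
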