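import Crest.Agent.R244.Defs2
/-! Row 244, task ThetaEx: functions on the graph manifold that detect the boundary loop. -/
set_option autoImplicit false
open scoped ContDiff Manifold Topology
open Bundle Set Filter

noncomputable section
namespace Crest.Agent.R244
namespace ThetaEx

def ee (x : ℝ) : ℂ := Complex.exp (2 * Real.pi * x * Complex.I)

lemma ee_eq (x : ℝ) : ee x = Complex.exp (((2 * Real.pi * x : ℝ) : ℂ) * Complex.I) := by
  unfold ee; push_cast; rfl

lemma ee_cont : Continuous ee := by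
  unfold ee; fun_prop

lemma ee_norm (x : ℝ) : ‖ee x‖ = 1 := by
  rw [ee_eq]; exact Complex.norm_exp_ofReal_mul_I _

lemma ee_re (x : ℝ) : (ee x).re = Real.cos (2 * Real.pi * x) := by
  rw [ee_eq]; exact Complex.exp_ofReal_mul_I_re _

lemma ee_im (x : ℝ) : (ee x).im = Real.sin (2 * Real.pi * x) := by
  rw [ee_eq]; exact Complex.exp_ofReal_mul_I_im _

lemma ee_add (x y : ℝ) : ee (x + y) = ee x * ee y := by
  unfold ee; rw [← Complex.exp_add]; congr 1; push_cast; ring

lemma ee_zero : ee 0 = 1 := by simp [ee]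

lemma ee_int (k : ℤ) : ee k = 1 := by
  unfold ee
  rw [Complex.exp_eq_one_iff]
  exact ⟨k, by push_cast; ring⟩

lemma ee_add_int (x : ℝ) (k : ℤ) : ee (x + k) = ee x := by
  rw [ee_add, ee_int, mul_one]

lemma ee_ne (x : ℝ) : ee x ≠ 0 := Complex.exp_ne_zero _

lemma ee_inj {x y : ℝ} (h : ee x = ee y) : ∃ k : ℤ, x = y + k := by
  unfold ee at h
  obtain ⟨k, hk⟩ := Complex.exp_eq_exp_iff_exists_int.1 h
  refine ⟨k, ?_⟩
  have h2 := congrArg Complex.im hk
  simp at h2
  have hp := Real.pi_pos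
  have : 2 * Real.pi * x = 2 * Real.pi * (y + k) := by linarith
  exact mul_left_cancel₀ (by positivity) this

def ww (x : ℝ) : ℝ := Real.arcsin (Real.sin (2 * Real.pi * x)) / (2 * Real.pi)

lemma ww_cont : Continuous ww := by
  unfold ww
  exact (Real.continuous_arcsin.comp (by fun_prop)).div_const _

lemma ww_add_int (x : ℝ) (k : ℤ) : ww (x + k) = ww x := by
  unfold ww
  rw [show 2 * Real.pi * (x + k) = 2 * Real.pi * x + k * (2 * Real.pi) by ring,
    Real.sin_add_int_mul_two_pi]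

lemma ww_small {x : ℝ} (h : |x| ≤ 1 / 4) : ww x = x := by
  unfold ww
  have hp := Real.pi_pos
  obtain ⟨h1, h2⟩ := abs_le.1 h
  rw [Real.arcsin_sin (by nlinarith) (by nlinarith)]
  field_simp

lemma ww_eq {x : ℝ} (h : dz x ≤ 1 / 4) : ww x = x - round x := by
  have := ww_add_int (x - round x) (round x)
  rw [sub_add_cancel] at this
  rw [this]
  exact ww_small h

def chi (r : ℝ) : ℝ := max 0 (min 1 ((1 / 4 - r) * 16))

lemma chi_cont : Continuous chi := by
  unfold chi; fun_prop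

lemma chi_nonneg (r : ℝ) : 0 ≤ chi r := le_max_left _ _

lemma chi_le (r : ℝ) : chi r ≤ 1 := max_le zero_le_one (min_le_left _ _)

lemma chi_one {r : ℝ} (h : r ≤ 1 / 8) : chi r = 1 := by
  unfold chi
  rw [min_eq_left (by linarith), max_eq_right zero_le_one]

lemma chi_zero {r : ℝ} (h : 1 / 4 ≤ r) : chi r = 0 := by
  unfold chi
  exact max_eq_left (min_le_of_right_le (by linarith))

lemma chi_pos {r : ℝ} (h : r < 1 / 4) : 0 < chi r := by
  unfold chi
  exact lt_max_of_lt_right (lt_min one_pos (by linarith))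

def rr (y : E3) : ℝ := Real.sqrt (dz (y 0) ^ 2 + dz (y 1) ^ 2)

lemma rr_pos {y : E3} (hy : y ∈ Yp) : 0 < rr y :=
  Real.sqrt_pos.2 (lt_trans (by norm_num) hy)

abbrev C4 : Type := ℂ × ℂ × ℂ × ℂ

def F0 (y : E3) : C4 :=
  (ee (y 0 - chi (rr y) * ww (y 0)), ee (y 1 - chi (rr y) * ww (y 1)),
    ((1 - chi (rr y) : ℝ) : ℂ) * ee (y 2),
    (chi (rr y) : ℂ) * ee (y 2) * (((ww (y 0) : ℂ) - Complex.I * (ww (y 1) : ℂ)) / (rr y : ℂ)))

def FN (P : Prof) (y : E3) : C4 :=
  (ee (P.r₁ (y 0) * Real.cos (y 1) - chi (P.r₁ (y 0)) * (P.r₁ (y 0) * Real.cos (y 1))),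
    ee (-(P.r₁ (y 0) * Real.sin (y 1)) - chi (P.r₁ (y 0)) * -(P.r₁ (y 0) * Real.sin (y 1))),
    ((1 - chi (P.r₁ (y 0)) : ℝ) : ℂ) * ee (y 2 / (2 * Real.pi * P.T)),
    (chi (P.r₁ (y 0)) : ℂ) * ee (y 2 / (2 * Real.pi * P.T)) * ee (y 1 / (2 * Real.pi)))

def F2 (y : E3) : C4 := (1, 1, 0, ee (y 2))

lemma co (i : Fin 3) : Continuous fun y : E3 => y i := (prj i).continuous

lemma rr_cont (hd : Continuous dz) : Continuous rr := by
  unfold rr
  exact Real.continuous_sqrt.comp (((hd.comp (co 0)).pow 2).add ((hd.comp (co 1)).pow 2))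

lemma F0_cont (hd : Continuous dz) : ContinuousOn F0 Yp := by
  have hc : Continuous fun y : E3 => chi (rr y) := chi_cont.comp (rr_cont hd)
  have hw : ∀ i, Continuous fun y : E3 => ww (y i) := fun i => ww_cont.comp (co i)
  refine ContinuousOn.prodMk ?_ (ContinuousOn.prodMk ?_ (ContinuousOn.prodMk ?_ ?_))
  · exact (ee_cont.comp ((co 0).sub (hc.mul (hw 0)))).continuousOn
  · exact (ee_cont.comp ((co 1).sub (hc.mul (hw 1)))).continuousOn
  · exact ((Complex.continuous_ofReal.comp (continuous_const.sub hc)).mul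
      (ee_cont.comp (co 2))).continuousOn
  · refine ((Complex.continuous_ofReal.comp hc).mul (ee_cont.comp (co 2))).continuousOn.mul ?_
    refine ContinuousOn.div ((Complex.continuous_ofReal.comp (hw 0)).sub
      (continuous_const.mul (Complex.continuous_ofReal.comp (hw 1)))).continuousOn
      (Complex.continuous_ofReal.comp (rr_cont hd)).continuousOn ?_
    intro y hy
    exact Complex.ofReal_ne_zero.2 (rr_pos hy).ne'

lemma FN_cont (P : Prof) : Continuous (FN P) := by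
  have hr : Continuous fun y : E3 => P.r₁ (y 0) := by
    unfold Prof.r₁
    exact (continuous_const.sub (co 0)).div_const _
  have hc : Continuous fun y : E3 => chi (P.r₁ (y 0)) := chi_cont.comp hr
  have h1 : Continuous fun y : E3 => P.r₁ (y 0) * Real.cos (y 1) :=
    hr.mul (Real.continuous_cos.comp (co 1))
  have h2 : Continuous fun y : E3 => -(P.r₁ (y 0) * Real.sin (y 1)) :=
    (hr.mul (Real.continuous_sin.comp (co 1))).neg
  have h3 : Continuous fun y : E3 => ee (y 2 / (2 * Real.pi * P.T)) :=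
    ee_cont.comp ((co 2).div_const _)
  refine Continuous.prodMk ?_ (Continuous.prodMk ?_ (Continuous.prodMk ?_ ?_))
  · exact ee_cont.comp (h1.sub (hc.mul h1))
  · exact ee_cont.comp (h2.sub (hc.mul h2))
  · exact (Complex.continuous_ofReal.comp (continuous_const.sub hc)).mul h3
  · exact ((Complex.continuous_ofReal.comp hc).mul h3).mul (ee_cont.comp ((co 1).div_const _))

lemma F2_cont : Continuous F2 := by
  unfold F2
  exact continuous_const.prodMk (continuous_const.prodMk (continuous_const.prodMk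
    (ee_cont.comp (co 2))))

lemma F0_zeq (hd : ∀ (x : ℝ) (k : ℤ), dz (x + k) = dz x) {y y' : E3} (h : ZEq y y') :
    F0 y = F0 y' := by
  obtain ⟨k0, h0⟩ := h 0
  obtain ⟨k1, h1⟩ := h 1
  obtain ⟨k2, h2⟩ := h 2
  have hr : rr y' = rr y := by unfold rr; rw [h0, h1, hd, hd]
  unfold F0
  rw [hr, h0, h1, h2, ww_add_int, ww_add_int, ee_add_int,
    show y 0 + k0 - chi (rr y) * ww (y 0) = y 0 - chi (rr y) * ww (y 0) + k0 by ring,
    show y 1 + k1 - chi (rr y) * ww (y 1) = y 1 - chi (rr y) * ww (y 1) + k1 by ring,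
    ee_add_int, ee_add_int]

lemma F2_zeq {y y' : E3} (h : ZEq y y') : F2 y = F2 y' := by
  obtain ⟨k2, h2⟩ := h 2
  unfold F2
  rw [h2, ee_add_int]

lemma FN_nn (P : Prof) (hT : 0 < P.T) {y y' : E3} (h0 : y' 0 = y 0)
    (h1 : ∃ k : ℤ, y' 1 = y 1 + 2 * Real.pi * k)
    (h2 : ∃ k : ℤ, y' 2 = y 2 + 2 * Real.pi * P.T * k) : FN P y = FN P y' := by
  obtain ⟨k1, h1⟩ := h1
  obtain ⟨k2, h2⟩ := h2
  have hp := Real.pi_pos
  have e1 : y' 1 / (2 * Real.pi) = y 1 / (2 * Real.pi) + k1 := by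
    rw [h1]; field_simp
  have e2 : y' 2 / (2 * Real.pi * P.T) = y 2 / (2 * Real.pi * P.T) + k2 := by
    rw [h2]; field_simp
  have e3 : Real.cos (y' 1) = Real.cos (y 1) := by
    rw [h1, mul_comm _ (k1 : ℝ), Real.cos_add_int_mul_two_pi]
  have e4 : Real.sin (y' 1) = Real.sin (y 1) := by
    rw [h1, mul_comm _ (k1 : ℝ), Real.sin_add_int_mul_two_pi]
  unfold FN
  rw [h0, e1, e2, e3, e4, ee_add_int, ee_add_int]

lemma FN_pol₁ (P : Prof) (hF : PFacts P) {y : E3} (hy : y ∈ P.YN) (h : y 0 < -1) :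
    FN P y = F0 (P.pol₁ y) := by
  obtain ⟨a1, a2, -, a4⟩ := hF.rad₁ y hy h
  have hp := Real.pi_pos
  have hr : rr (P.pol₁ y) = P.r₁ (y 0) := by
    unfold rr; rw [a4, Real.sqrt_sq (by linarith)]
  have p0 : P.pol₁ y 0 = P.r₁ (y 0) * Real.cos (y 1) := rfl
  have p1 : P.pol₁ y 1 = -(P.r₁ (y 0) * Real.sin (y 1)) := rfl
  have p2 : P.pol₁ y 2 = y 2 / (2 * Real.pi * P.T) := rfl
  have w0 : ww (P.r₁ (y 0) * Real.cos (y 1)) = P.r₁ (y 0) * Real.cos (y 1) := by
    apply ww_small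
    rw [abs_mul, abs_of_pos (by linarith)]
    have := Real.abs_cos_le_one (y 1)
    nlinarith [abs_nonneg (Real.cos (y 1))]
  have w1 : ww (-(P.r₁ (y 0) * Real.sin (y 1))) = -(P.r₁ (y 0) * Real.sin (y 1)) := by
    apply ww_small
    rw [abs_neg, abs_mul, abs_of_pos (by linarith)]
    have := Real.abs_sin_le_one (y 1)
    nlinarith [abs_nonneg (Real.sin (y 1))]
  have hE : ee (y 1 / (2 * Real.pi)) =
      (((P.r₁ (y 0) * Real.cos (y 1) : ℝ) : ℂ) -
        Complex.I * ((-(P.r₁ (y 0) * Real.sin (y 1)) : ℝ) : ℂ)) / (P.r₁ (y 0) : ℂ) := by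
    have hne : (P.r₁ (y 0) : ℂ) ≠ 0 := Complex.ofReal_ne_zero.2 (by linarith)
    rw [eq_div_iff hne, ee_eq, show 2 * Real.pi * (y 1 / (2 * Real.pi)) = y 1 by field_simp,
      Complex.exp_mul_I]
    push_cast
    ring
  unfold FN F0
  rw [hr, p0, p1, p2, w0, w1, hE]

lemma FN_right (P : Prof) (hR : 0 < P.R₁ + 1) {y : E3} (h : -1 ≤ y 0) :
    FN P y = (1, 1, 0, ee (y 1 / (2 * Real.pi) + y 2 / (2 * Real.pi * P.T))) := by
  have hr : P.r₁ (y 0) ≤ 1 / 8 := by
    unfold Prof.r₁ Prof.L₁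
    rw [div_le_iff₀ (by positivity)]
    linarith
  unfold FN
  rw [chi_one hr, ee_add]
  simp [ee_zero, mul_comm]

def Pt (v : C4) : Prop :=
  ‖v.1‖ = 1 ∧ ‖v.2.1‖ = 1 ∧ (v.2.2.2 ≠ 0 → 0 ≤ v.2.1.re) ∧
    ∀ η ∈ Icc (-1 / 2 : ℝ) (1 / 2), ee η = v.2.1 →
      v.2.2.1 * (starRingEnd ℂ) (W0 v.1 η) + v.2.2.2 ≠ 0

lemma Pt_triv (x : ℝ) : Pt (1, 1, 0, ee x) := by
  refine ⟨by simp, by simp, fun _ => by simp, fun η _ _ => ?_⟩
  simpa using ee_ne x

lemma W0_re (X : ℂ) (η : ℝ) : (W0 X η).re = X.im := by simp [W0]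
lemma W0_im (X : ℂ) (η : ℝ) : (W0 X η).im = η + max 0 (-X.re) := by simp [W0]

lemma dz_le_rr0 (y : E3) : dz (y 0) ≤ rr y := by
  unfold rr
  exact Real.le_sqrt_of_sq_le (by nlinarith [sq_nonneg (dz (y 1))])

lemma dz_le_rr1 (y : E3) : dz (y 1) ≤ rr y := by
  unfold rr
  exact Real.le_sqrt_of_sq_le (by nlinarith [sq_nonneg (dz (y 0))])

lemma dz_int_zero {x : ℝ} {k : ℤ} (h : x = k) : dz x = 0 := by
  subst h; simp [dz]

lemma cos_nn {c x : ℝ} (hc0 : 0 ≤ c) (hc1 : c ≤ 1) (hx : |x| ≤ 1 / 4) :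
    0 ≤ Real.cos (2 * Real.pi * (c * x)) := by
  have hp := Real.pi_pos
  obtain ⟨h1, h2⟩ := abs_le.1 hx
  have a1 : -(1 / 4) ≤ c * x := by nlinarith
  have a2 : c * x ≤ 1 / 4 := by nlinarith
  apply Real.cos_nonneg_of_neg_pi_div_two_le_of_le <;> nlinarith

lemma sin_mul_nn {c x : ℝ} (hc0 : 0 ≤ c) (hc1 : c ≤ 1) (hx : |x| ≤ 1 / 4) :
    0 ≤ Real.sin (2 * Real.pi * (c * x)) * x := by
  have hp := Real.pi_pos
  obtain ⟨h1, h2⟩ := abs_le.1 hx
  rcases le_total 0 x with h | h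
  · have a1 : 0 ≤ c * x := mul_nonneg hc0 h
    have a2 : c * x ≤ 1 / 4 := by nlinarith
    exact mul_nonneg (Real.sin_nonneg_of_nonneg_of_le_pi (by positivity) (by nlinarith)) h
  · have a1 : c * x ≤ 0 := mul_nonpos_of_nonneg_of_nonpos hc0 h
    have a2 : -(1 / 4) ≤ c * x := by nlinarith
    exact mul_nonneg_of_nonpos_of_nonpos
      (Real.sin_nonpos_of_nonpos_of_neg_pi_le (by nlinarith) (by nlinarith)) h

lemma Pt_F0 {y : E3} (hy : y ∈ Yp) : Pt (F0 y) := by
  have hr := rr_pos hy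
  have hy' : 1 / 64 < dz (y 0) ^ 2 + dz (y 1) ^ 2 := hy
  rcases le_or_gt (1 / 4) (rr y) with h | h
  · have e : F0 y = (ee (y 0), ee (y 1), ee (y 2), 0) := by
      unfold F0; rw [chi_zero h]; simp
    rw [e]
    refine ⟨ee_norm _, ee_norm _, fun h => (h rfl).elim, fun η hη hE h0 => ?_⟩
    simp only [add_zero, mul_eq_zero, ee_ne, false_or, map_eq_zero] at h0
    have h1 : (ee (y 0)).im = 0 := by rw [← W0_re _ η, h0]; rfl
    have h2 : η + max 0 (-(ee (y 0)).re) = 0 := by rw [← W0_im, h0]; rfl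
    have h3 : (ee (y 0)).re ^ 2 = 1 := by
      have := Complex.sq_norm (ee (y 0))
      rw [ee_norm, Complex.normSq_apply, h1] at this
      linarith
    have h4 : (ee (y 0)).re = 1 := by
      rcases sq_eq_one_iff.1 h3 with h5 | h5
      · exact h5
      · rw [h5] at h2
        have := hη.1
        norm_num at h2
        linarith
    have h5 : η = 0 := by
      rw [h4] at h2
      norm_num at h2
      exact h2
    have h6 : ee (y 0) = ee 0 := by
      rw [ee_zero]; exact Complex.ext h4 h1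
    obtain ⟨k0, hk0⟩ := ee_inj h6
    rw [h5] at hE
    obtain ⟨k1, hk1⟩ := ee_inj hE.symm
    rw [zero_add] at hk0 hk1
    rw [dz_int_zero hk0, dz_int_zero hk1] at hy'
    norm_num at hy'
  · have d0 : dz (y 0) ≤ 1 / 4 := (dz_le_rr0 y).trans h.le
    have d1 : dz (y 1) ≤ 1 / 4 := (dz_le_rr1 y).trans h.le
    have hc := chi_pos h
    have hc1 := chi_le (rr y)
    set c := chi (rr y) with hcdef
    set ξ := y 0 - round (y 0) with hξ
    set ζ := y 1 - round (y 1) with hζ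
    have d0' : |ξ| ≤ 1 / 4 := d0
    have d1' : |ζ| ≤ 1 / 4 := d1
    have hy'' : 1 / 64 < ξ ^ 2 + ζ ^ 2 := by
      have : dz (y 0) ^ 2 + dz (y 1) ^ 2 = ξ ^ 2 + ζ ^ 2 := by
        unfold dz; rw [sq_abs, sq_abs]
      linarith
    have e : F0 y = (ee ((1 - c) * ξ), ee ((1 - c) * ζ), ((1 - c : ℝ) : ℂ) * ee (y 2),
        (c : ℂ) * ee (y 2) * (((ξ : ℂ) - Complex.I * (ζ : ℂ)) / (rr y : ℂ))) := by
      unfold F0
      rw [ww_eq d0, ww_eq d1, ← hcdef, ← hξ, ← hζ,
        show y 0 - c * ξ = (1 - c) * ξ + round (y 0) by rw [hξ]; ring,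
        show y 1 - c * ζ = (1 - c) * ζ + round (y 1) by rw [hζ]; ring, ee_add_int, ee_add_int]
    rw [e]
    refine ⟨ee_norm _, ee_norm _, fun _ => ?_, fun η hη hE h0 => ?_⟩
    · show 0 ≤ (ee ((1 - c) * ζ)).re
      rw [ee_re]
      exact cos_nn (by linarith) (by linarith) d1'
    · obtain ⟨k, hk⟩ := ee_inj hE
      obtain ⟨z1, z2⟩ := abs_le.1 d1'
      have b1 : -(1 / 4) ≤ (1 - c) * ζ := by nlinarith
      have b2 : (1 - c) * ζ ≤ 1 / 4 := by nlinarith
      have hk0 : k = 0 := by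
        have a1 : (k : ℝ) < 1 := by linarith [hη.2]
        have a2 : (-1 : ℝ) < k := by linarith [hη.1]
        have a1' : k < 1 := by exact_mod_cast a1
        have a2' : -1 < k := by exact_mod_cast a2
        omega
      rw [hk0, Int.cast_zero, add_zero] at hk
      have hcos : 0 ≤ (ee ((1 - c) * ξ)).re := by
        rw [ee_re]; exact cos_nn (by linarith) (by linarith) d0'
      have hS := sin_mul_nn (c := 1 - c) (by linarith) (by linarith) d0'
      rw [← ee_im] at hS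
      set S := (ee ((1 - c) * ξ)).im with hSdef
      have hW : W0 (ee ((1 - c) * ξ)) η = (S : ℂ) + Complex.I * (((1 - c) * ζ : ℝ) : ℂ) := by
        unfold W0
        rw [max_eq_left (by linarith), add_zero, hk]
      have h1 : ee (y 2) * ((((1 - c) * S + c * ξ / rr y : ℝ) : ℂ) -
          Complex.I * ((((1 - c) ^ 2 + c / rr y) * ζ : ℝ) : ℂ)) = 0 := by
        rw [← h0]
        simp only [hW, map_add, map_mul, Complex.conj_ofReal, Complex.conj_I]
        push_cast
        ring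
      rcases mul_eq_zero.1 h1 with h2 | h2
      · exact ee_ne _ h2
      · have r1 := congrArg Complex.re h2
        have r2 := congrArg Complex.im h2
        simp only [Complex.sub_re, Complex.ofReal_re, Complex.mul_re, Complex.I_re, zero_mul,
          Complex.I_im, Complex.ofReal_im, mul_zero, sub_zero, Complex.zero_re, Complex.sub_im,
          Complex.mul_im, one_mul, zero_add, zero_sub, Complex.zero_im, neg_eq_zero] at r1 r2
        have hq : 0 < c / rr y := div_pos hc hr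
        have hz : ζ = 0 := by
          rcases mul_eq_zero.1 r2 with h3 | h3
          · nlinarith [sq_nonneg (1 - c)]
          · exact h3
        have hx : ξ ^ 2 = 0 := by
          have e1 : (1 - c) * (S * ξ) + c / rr y * ξ ^ 2 = 0 := by
            have : (1 - c) * (S * ξ) + c / rr y * ξ ^ 2 = ((1 - c) * S + c * ξ / rr y) * ξ := by
              ring
            rw [this, r1, zero_mul]
          have e2 : 0 ≤ (1 - c) * (S * ξ) := mul_nonneg (by linarith) hS
          have e3 : c / rr y * ξ ^ 2 ≤ 0 := by linarith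
          have e4 : ξ ^ 2 ≤ 0 := by
            by_contra h5
            have := mul_pos hq (not_le.1 h5)
            linarith
          exact le_antisymm e4 (sq_nonneg _)
        rw [hx, hz] at hy''
        norm_num at hy''

lemma Pt_FN (P : Prof) (hP : P.OK) (hF : PFacts P) {y : E3} (hy : y ∈ P.YN) : Pt (FN P y) := by
  rcases lt_or_ge (y 0) (-1) with h | h
  · rw [FN_pol₁ P hF hy h]
    exact Pt_F0 (hF.rad₁ y hy h).2.2.1
  · rw [FN_right P hP.phi.R_pos h]
    exact Pt_triv _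

def FF (P : Prof) : Fin 3 → E3 → C4 := ![F0, FN P, F2]

lemma FN_F0 (P : Prof) (hF : PFacts P) {y y' : E3} (hy : y ∈ P.YN) (h : P.PN y = PP 0 y') :
    FN P y = F0 y' := by
  obtain ⟨h1, h2⟩ := (hF.n1 y y').1 h
  rw [FN_pol₁ P hF hy h1]
  exact F0_zeq hF.dz_int h2

lemma FN_F2 (P : Prof) (hP : P.OK) (hF : PFacts P) {y y' : E3} (h : P.PN y = PP 2 y') :
    FN P y = F2 y' := by
  obtain ⟨h1, h2⟩ := (hF.n2 y y').1 h
  rw [FN_right P hP.phi.R_pos (by linarith), ← F2_zeq h2]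
  rfl

lemma compat (P : Prof) (hP : P.OK) (hF : PFacts P) (i j : Fin 3) (y : E3)
    (hy : y ∈ P.glue.Y i) (y' : E3) (hy' : y' ∈ P.glue.Y j)
    (h : P.glue.P i y = P.glue.P j y') : FF P i y = FF P j y' := by
  fin_cases i <;> fin_cases j
  · exact F0_zeq hF.dz_int ((hF.pp 0 y y').1 h)
  · exact (FN_F0 P hF hy' h.symm).symm
  · exact absurd (congrArg Prod.fst h) (by decide : ¬ ((0 : Fin 3) = 2))
  · exact FN_F0 P hF hy h
  · obtain ⟨h0, h1, h2⟩ := (hF.nn y hy y' hy').1 h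
    exact FN_nn P hP.T_pos h0 h1 h2
  · exact FN_F2 P hP hF h
  · exact absurd (congrArg Prod.fst h) (by decide : ¬ ((2 : Fin 3) = 0))
  · exact (FN_F2 P hP hF h.symm).symm
  · exact F2_zeq ((hF.pp 2 y y').1 h)

end ThetaEx

open ThetaEx in
theorem thetaEx (hPF : PFactsS) (hG : GoodS) (hT : GlueTrS) : ThetaExS := by
  intro P hP M _ _ p ty hGl
  have hF := hPF P hP
  obtain ⟨F, hFc, hFe⟩ := (hT NF P.glue (hG P hP) M p ty hGl).2.2 C4 (FF P)
    (fun i => by
      fin_cases i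
      · exact F0_cont hF.dz_cont
      · exact (FN_cont P).continuousOn
      · exact F2_cont.continuousOn) (compat P hP hF)
  have hPt : ∀ m, Pt (F m) := by
    intro m
    obtain ⟨i, y, hy, rfl⟩ := hGl.surj m
    rw [hFe i y hy]
    fin_cases i
    · exact Pt_F0 hy
    · exact Pt_FN P hP hF hy
    · exact Pt_triv _
  refine ⟨fun m => (F m).1, fun m => (F m).2.1, fun m => (F m).2.2.1, fun m => (F m).2.2.2,
    hFc.fst, hFc.snd.fst, hFc.snd.snd.fst, hFc.snd.snd.snd, fun m => (hPt m).1,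
    fun m => (hPt m).2.1, fun m => (hPt m).2.2.1, fun m => (hPt m).2.2.2, fun s => ?_⟩
  have hy : (!₂[0, s, 0] : E3) ∈ P.glue.Y 1 := by
    have h1 := hP.phi.R_pos
    have h2 := hP.R₂_pos
    show -1 - (P.R₁ + 1) < (0 : ℝ) ∧ (0 : ℝ) < 3 / 2 + (P.R₂ + 3 / 2)
    constructor <;> linarith
  have e : F (p 1 !₂[0, s, 0]) = (1, 1, 0, ee (s / (2 * Real.pi) + 0 / (2 * Real.pi * P.T))) := by
    rw [hFe 1 _ hy]
    exact FN_right P hP.phi.R_pos (y := !₂[0, s, 0]) (by show (-1 : ℝ) ≤ 0; norm_num)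
  have hp := Real.pi_pos
  refine ⟨by simp only [e], ?_, by simp only [e], by simp only [e]⟩
  simp only [e]
  rw [zero_div, add_zero, ee_eq, show 2 * Real.pi * (s / (2 * Real.pi)) = s by field_simp]

end Crest.Agent.R244
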