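import Crest.Agent.R244.Defs2
/-! Row 244, task ThetaNe: the boundary loop does not close up in a simply connected space. -/
set_option autoImplicit false
open scoped ContDiff Manifold Topology
open Bundle Set Filter

noncomputable section
namespace Crest.Agent.R244
namespace ThetaNe

lemma clog (f : E3 → ℂ) (hf : Continuous f) (h0 : ∀ a, f a ≠ 0) :
    ∃ L : E3 → ℂ, Continuous L ∧ ∀ a, Complex.exp (L a) = f a := by
  have hs : IsSimplyConnected (univ : Set E3) := by
    have : ContractibleSpace (univ : Set E3) := (convex_univ).contractibleSpace univ_nonempty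
    exact SimplyConnectedSpace.ofContractible _
  obtain ⟨L, h1, h2⟩ := Complex.exists_continuousOn_eqOn_exp_comp hs isOpen_univ
    hf.continuousOn (by rintro ⟨a, -, ha⟩; exact h0 a ha)
  exact ⟨L, continuousOn_univ.1 h1, fun a => h2 (mem_univ a)⟩

lemma int_const (g : ℝ → ℝ) (hg : Continuous g) (h : ∀ s, ∃ k : ℤ, g s = k) (a b : ℝ) :
    g a = g b := by
  have key : ∀ a b, ¬ g a < g b := fun a b hab => by
    obtain ⟨k, hk⟩ := h a
    obtain ⟨l, hl⟩ := h b
    have h1 : k + 1 ≤ l := by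
      have : (k : ℝ) < l := by rwa [← hk, ← hl]
      exact_mod_cast this
    have h2 : (k : ℝ) + 1 ≤ l := by exact_mod_cast h1
    obtain ⟨c, hc⟩ := intermediate_value_univ a b hg
      (show (k : ℝ) + 1 / 2 ∈ Icc (g a) (g b) from ⟨by linarith, by linarith⟩)
    obtain ⟨m, hm⟩ := h c
    have h3 : (2 * m : ℝ) = 2 * k + 1 := by linarith
    have h4 : 2 * m = 2 * k + 1 := by exact_mod_cast h3
    omega
  exact le_antisymm (not_lt.1 (key b a)) (not_lt.1 (key a b))

lemma W0_pos (X : ℂ) : W0 X (1 / 2) ≠ 0 := fun h => by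
  have := congrArg Complex.im h
  simp [W0] at this
  have h2 := le_max_left 0 (-X.re)
  linarith

lemma W0_neg (X : ℂ) (hX : ‖X‖ = 1) : W0 X (-1 / 2) ≠ 0 := fun h => by
  have h1 := congrArg Complex.im h
  have h2 := congrArg Complex.re h
  simp [W0] at h1 h2
  have h3 : X.re ^ 2 + X.im ^ 2 = 1 := by
    have := Complex.sq_norm X
    rw [hX, Complex.normSq_apply] at this
    nlinarith
  rcases le_total 0 (-X.re) with h4 | h4
  · rw [max_eq_right h4] at h1
    rw [h2] at h3
    have : X.re = -1 / 2 := by linarith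
    rw [this] at h3; norm_num at h3
  · rw [max_eq_left h4] at h1; norm_num at h1

lemma W0_cont {X : E3 → ℂ} {η : E3 → ℝ} (hX : Continuous X) (hη : Continuous η) :
    Continuous fun a => W0 (X a) (η a) := by
  unfold W0
  fun_prop

end ThetaNe

open ThetaNe in
theorem thetaNe : ThetaNeS := by
  intro M _ Xh Yh A B ℓ hT pr ν hpr hν hl heq
  have hY0 : ∀ a, Yh (pr a) ≠ 0 := fun a h => by simpa [h] using hT.nY (pr a)
  obtain ⟨L₀, hL₀, hL₀e⟩ := clog (fun a => Yh (pr a)) (hT.cY.comp hpr) hY0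
  have hπ : (0 : ℝ) < 2 * Real.pi := by positivity
  set ψ : E3 → ℝ := fun a => (L₀ a).im / (2 * Real.pi) with hψ
  have hψc : Continuous ψ := by fun_prop
  have hψe : ∀ a, Complex.exp (2 * Real.pi * ψ a * Complex.I) = Yh (pr a) := fun a => by
    have h1 : (L₀ a).re = 0 := by
      have := hT.nY (pr a)
      rw [← hL₀e a, Complex.norm_exp] at this
      exact Real.exp_eq_one_iff _ |>.1 this
    rw [← hL₀e a]
    congr 1
    have h2 : (2 * Real.pi * ψ a : ℝ) = (L₀ a).im := by simp only [hψ]; field_simp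
    have h3 : (2 * Real.pi * ψ a : ℂ) = ((L₀ a).im : ℂ) := by exact_mod_cast h2
    rw [h3]
    apply Complex.ext <;> simp [h1]
  have hψk : ∀ a (k : ℤ), Complex.exp (2 * Real.pi * ((ψ a - k : ℝ) : ℂ) * Complex.I) = Yh (pr a) :=
    fun a k => by
      rw [← hψe a, Complex.exp_eq_exp_iff_exists_int]
      exact ⟨-k, by push_cast; ring⟩
  set μ : E3 → ℂ := fun a => W0 (Xh (pr a)) (1 / 2) / W0 (Xh (pr a)) (-1 / 2) with hμ
  have hXc : Continuous fun a => Xh (pr a) := hT.cX.comp hpr
  have hμc : Continuous μ :=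
    (W0_cont hXc continuous_const).div (W0_cont hXc continuous_const)
      fun a => W0_neg _ (hT.nX _)
  have hμ0 : ∀ a, μ a ≠ 0 := fun a => div_ne_zero (W0_pos _) (W0_neg _ (hT.nX _))
  set H : ℤ → E3 → ℂ := fun k a => (starRingEnd ℂ) (μ a ^ k) *
    (A (pr a) * (starRingEnd ℂ) (W0 (Xh (pr a)) (ψ a - k)) + B (pr a)) with hH
  set H' : ℤ → E3 → ℂ := fun k a => (starRingEnd ℂ) (μ a ^ k) *
    (A (pr a) * (starRingEnd ℂ) (W0 (Xh (pr a)) (ψ a - k))) with hH'
  have hzc : ∀ k : ℤ, Continuous fun a => (starRingEnd ℂ) (μ a ^ k) := fun k =>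
    Complex.continuous_conj.comp (hμc.zpow₀ k fun a => Or.inl (hμ0 a))
  have hWc : ∀ k : ℤ, Continuous fun a => A (pr a) * (starRingEnd ℂ) (W0 (Xh (pr a)) (ψ a - k)) :=
    fun k => (hT.cA.comp hpr).mul
      (Complex.continuous_conj.comp (W0_cont hXc (hψc.sub continuous_const)))
  have hHc : ∀ k, Continuous (H k) := fun k => (hzc k).mul ((hWc k).add (hT.cB.comp hpr))
  have hH'c : ∀ k, Continuous (H' k) := fun k => (hzc k).mul (hWc k)
  have hround : ∀ (x : ℝ) (k : ℤ), (k : ℝ) - 1 / 2 ≤ x → x < k + 1 / 2 → round x = k :=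
    fun x k h1 h2 => by
      rw [round_eq, Int.floor_eq_iff]
      constructor <;> linarith
  have hrd : ∀ x : ℝ, (round x : ℝ) - 1 / 2 ≤ x ∧ x < round x + 1 / 2 := fun x => by
    rw [round_eq]
    have h1 := Int.floor_le (x + 1 / 2)
    have h2 := Int.lt_floor_add_one (x + 1 / 2)
    constructor <;> linarith
  set Θ : E3 → ℂ := fun a => H (round (ψ a)) a with hΘ
  have hΘc : Continuous Θ := by
    refine continuous_iff_continuousAt.2 fun a₀ => ?_
    set k : ℤ := round (ψ a₀) with hk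
    obtain ⟨h1, h2⟩ := hrd (ψ a₀)
    have e2 : ∀ᶠ a in 𝓝 a₀, ψ a < k + 1 / 2 := hψc.continuousAt.eventually_lt continuousAt_const h2
    rcases h1.lt_or_eq with h1 | h1
    · have e1 : ∀ᶠ a in 𝓝 a₀, (k : ℝ) - 1 / 2 < ψ a :=
        continuousAt_const.eventually_lt hψc.continuousAt h1
      refine (hHc k).continuousAt.congr ?_
      filter_upwards [e1, e2] with a ha1 ha2
      simp only [hΘ]
      rw [hround _ k ha1.le ha2]
    · have e1 : ∀ᶠ a in 𝓝 a₀, (k : ℝ) - 3 / 2 < ψ a :=
        continuousAt_const.eventually_lt hψc.continuousAt (by linarith)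
      have hY : (Yh (pr a₀)).re < 0 := by
        rw [← hψk a₀ k, show ψ a₀ - k = -1 / 2 by linarith,
          show (2 * Real.pi * ((-1 / 2 : ℝ) : ℂ) * Complex.I) = -(Real.pi * Complex.I) by
            push_cast; ring, Complex.exp_neg, Complex.exp_pi_mul_I]
        norm_num
      have e3 : ∀ᶠ a in 𝓝 a₀, (Yh (pr a)).re < 0 :=
        (Complex.continuous_re.comp (hT.cY.comp hpr)).continuousAt.eventually_lt
          continuousAt_const hY
      have hG : Continuous fun a => if (k : ℝ) - 1 / 2 ≤ ψ a then H' k a else H' (k - 1) a := by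
        refine Continuous.if_le (hH'c k) (hH'c (k - 1)) continuous_const hψc fun a ha => ?_
        simp only [hH']
        rw [show ψ a - k = -1 / 2 by linarith, show ψ a - ((k - 1 : ℤ) : ℝ) = 1 / 2 by
          push_cast; linarith]
        have h3 : μ a ^ k * W0 (Xh (pr a)) (-1 / 2) = μ a ^ (k - 1) * W0 (Xh (pr a)) (1 / 2) := by
          have h4 : μ a * W0 (Xh (pr a)) (-1 / 2) = W0 (Xh (pr a)) (1 / 2) :=
            div_mul_cancel₀ _ (W0_neg _ (hT.nX _))
          rw [← h4, ← mul_assoc, ← zpow_add_one₀ (hμ0 a), sub_add_cancel]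
        have h5 := congrArg (starRingEnd ℂ) h3
        rw [map_mul, map_mul] at h5
        linear_combination A (pr a) * h5
      refine hG.continuousAt.congr ?_
      filter_upwards [e1, e2, e3] with a ha1 ha2 ha3
      have hB : B (pr a) = 0 := by
        by_contra hB
        exact absurd (hT.supp _ hB) (not_le.2 ha3)
      simp only [hΘ]
      split_ifs with h
      · rw [hround _ k h ha2]; simp only [hH, hH', hB, add_zero]
      · rw [hround _ (k - 1) (by push_cast; linarith) (by push_cast; linarith)]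
        simp only [hH, hH', hB, add_zero]
  have hΘ0 : ∀ a, Θ a ≠ 0 := fun a => by
    obtain ⟨h1, h2⟩ := hrd (ψ a)
    refine mul_ne_zero ((map_ne_zero _).2 (zpow_ne_zero _ (hμ0 a))) ?_
    exact hT.ne _ _ ⟨by linarith, by linarith⟩ (hψk a _)
  obtain ⟨L, hL, hLe⟩ := clog Θ hΘc hΘ0
  have hψν : ∀ s, ψ (ν s) = ψ (ν 0) := fun s => by
    refine int_const (fun s => ψ (ν s)) (hψc.comp hν) (fun s => ?_) s 0
    have h1 := hψe (ν s)
    rw [hl s, (hT.loop s).2.2.2, Complex.exp_eq_one_iff] at h1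
    obtain ⟨n, hn⟩ := h1
    refine ⟨n, ?_⟩
    have h2 := congrArg Complex.im hn
    simp at h2
    have : ψ (ν s) * (2 * Real.pi) = n * (2 * Real.pi) := by linarith
    exact mul_right_cancel₀ hπ.ne' this
  have hΘν : ∀ s : ℝ, Θ (ν s) = Θ (ν 0) * Complex.exp (s * Complex.I) := fun s => by
    simp only [hΘ, hH, hμ, hψν s, hl, (hT.loop s).1, (hT.loop s).2.1, (hT.loop s).2.2.1,
      (hT.loop 0).1, (hT.loop 0).2.1, (hT.loop 0).2.2.1]
    simp
  have h := int_const (fun s => (L (ν s) - s * Complex.I - L (ν 0)).im / (2 * Real.pi))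
    (by fun_prop) (fun s => by
      have h1 : Complex.exp (L (ν s) - s * Complex.I - L (ν 0)) = 1 := by
        rw [Complex.exp_sub, Complex.exp_sub, hLe, hLe, hΘν s]
        have := hΘ0 (ν 0)
        have := Complex.exp_ne_zero (s * Complex.I)
        field_simp
      obtain ⟨n, hn⟩ := Complex.exp_eq_one_iff.1 h1
      refine ⟨n, ?_⟩
      rw [hn, div_eq_iff hπ.ne']
      simp) (2 * Real.pi) 0
  simp [heq] at h

end Crest.Agent.R244
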