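import Crest.Agent.R244.Defs2
/-! Row 244, TrSymm: transitions can be inverted. -/
set_option autoImplicit false
open scoped ContDiff Topology
open Set Filter

noncomputable section
namespace Crest.Agent.R244

theorem trSymm : TrSymmS := by
  intro A D i j y y' _ ⟨τ, V, hV, hyV, hVY, hτ, hmaps, hy', hu⟩
  have hcd : ∀ u ∈ V, ContDiffAt ℝ ∞ τ u := fun u h => hτ.contDiffAt (hV.mem_nhds h)
  have hEq : ∀ u ∈ V, ∃ L : E3 ≃L[ℝ] E3, (L : E3 →L[ℝ] E3) = fderiv ℝ τ u := fun u h =>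
    ⟨(fderiv ℝ τ u).toContinuousLinearEquivOfDetNeZero (hu u h).2.1.ne', by simp⟩
  have hfd : ∀ u ∈ V, ∀ L : E3 ≃L[ℝ] E3, (L : E3 →L[ℝ] E3) = fderiv ℝ τ u →
      HasFDerivAt τ (L : E3 →L[ℝ] E3) u := fun u h L hL =>
    hL ▸ ((hcd u h).differentiableAt (by simp)).hasFDerivAt
  obtain ⟨L₀, hL₀⟩ := hEq y hyV
  let φ := ((hcd y hyV).toOpenPartialHomeomorph τ (hfd y hyV L₀ hL₀) (by simp)).restrOpen V hV
  have hφ : ∀ u, φ u = τ u := fun _ => rfl
  have hsrc : ∀ u ∈ φ.source, u ∈ V := fun u h => h.2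
  have hy : y ∈ φ.source :=
    ⟨(hcd y hyV).mem_toOpenPartialHomeomorph_source (hfd y hyV L₀ hL₀) (by simp), hyV⟩
  have hin : ∀ v ∈ φ.target, φ.symm v ∈ V := fun v h => hsrc _ (φ.map_target h)
  have hinv : ∀ v ∈ φ.target, τ (φ.symm v) = v := fun v h => φ.right_inv h
  refine ⟨φ.symm, φ.target, φ.open_target, hy' ▸ φ.map_source hy, fun v h => ?_, fun v h => ?_,
    fun v h => hVY (hin v h), hy' ▸ φ.left_inv hy, fun v h => ?_⟩
  · rw [← hinv v h]; exact hmaps (hin v h)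
  · obtain ⟨L, hL⟩ := hEq _ (hin v h)
    exact (φ.contDiffAt_symm h (hfd _ (hin v h) L hL) (hcd _ (hin v h))).contDiffWithinAt
  · obtain ⟨L, hL⟩ := hEq _ (hin v h)
    obtain ⟨h1, h2, h3⟩ := hu _ (hin v h)
    have hd : fderiv ℝ φ.symm v = (L.symm : E3 →L[ℝ] E3) :=
      (φ.hasFDerivAt_symm h (hfd _ (hin v h) L hL)).fderiv
    rw [hinv v h] at h1 h3
    refine ⟨h1.symm, ?_, fun a b => ?_⟩
    · rw [hd]
      rw [← hL] at h2
      have := ContinuousLinearEquiv.det_coe_symm L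
      exact lt_of_lt_of_eq (inv_pos.2 h2) this.symm
    · rw [hd, h3, ← hL]
      simp

end Crest.Agent.R244
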