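import Crest.Agent.R244.Defs2
/-! Row 244, task Transl: the coordinate equations in terms of `Gam`, `Rm`. -/
set_option autoImplicit false
set_option synthInstance.maxHeartbeats 400000
open scoped ContDiff Manifold Topology
open Bundle Set Filter
open Crest.GeometryTopology.Geodesic Crest.GeometryTopology.CoordMetric
  Crest.GeometryTopology.ChartCurvature

noncomputable section
namespace Crest.Agent.R244
namespace Transl

lemma bas_sum (u : E3) : u = ∑ i, u i • bas i := by
  ext j
  simp [bas_apply, Fin.sum_univ_three]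
  fin_cases j <;> simp

lemma fd_app {E : Type} [NormedAddCommGroup E] [NormedSpace ℝ E] (G : E → E →L[ℝ] E →L[ℝ] E)
    (x : E) (hd : DifferentiableAt ℝ G x) (φ : E →L[ℝ] ℝ) (u v w : E) :
    fderiv ℝ (fun y => φ (G y v w)) x u = φ (fderiv ℝ G x u v w) := by
  have h1 := (hd.hasFDerivAt.clm_apply (hasFDerivAt_const v x)).clm_apply (hasFDerivAt_const w x)
  have h2 : HasFDerivAt (fun y => φ (G y v w)) _ x := φ.hasFDerivAt.comp x h1
  rw [h2.fderiv]
  simp

lemma chr (g : MF) (y : E3) (l j k : Fin 3) :
    christoffel g y l j k = Gam g y (bas j) (bas k) l := by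
  rw [Gam_apply]
  simp [bas_apply]

lemma tri (T : E3 →L[ℝ] E3 →L[ℝ] E3 →L[ℝ] E3) (u v w : E3) (l : Fin 3) :
    T u v w l = ∑ k, ∑ i, ∑ j, T (bas i) (bas j) (bas k) l * w k * u i * v j := by
  conv_lhs => rw [bas_sum u, bas_sum v, bas_sum w]
  simp only [Fin.sum_univ_three, map_add, map_smul, add_apply, smul_apply, PiLp.add_apply,
    PiLp.smul_apply, smul_eq_mul]
  ring

lemma rm_apply (hG : GamBasicS) {g : MF} {U : Set E3} (hU : IsRiemannianOn g U) {x : E3}
    (hx : x ∈ U) (u v w : E3) (l : Fin 3) :
    Rm g x u v w l = ∑ k, ∑ i, ∑ j, riemann g x l k i j * w k * u i * v j := by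
  have hd : DifferentiableAt ℝ (Gam g) x :=
    ((hG g U hU).gam_smooth.contDiffAt (hU.1.mem_nhds hx)).differentiableAt (by simp)
  have hp : ∀ i j k, pderiv i (fun y => christoffel g y l j k) x =
      fderiv ℝ (Gam g) x (bas i) (bas j) (bas k) l := fun i j k => by
    simp only [chr]
    exact fd_app (Gam g) x hd (prj l) (bas i) (bas j) (bas k)
  simp only [Rm, riemann, hp, PiLp.add_apply, PiLp.sub_apply]
  rw [tri _ u v w l, tri _ v u w l]
  simp only [Gam_apply, Fin.sum_univ_three]
  ring

lemma cov_eq (g : MF) (c V : ℝ → E3) : covDeriv g c V = cov g c V := by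
  funext t
  ext k
  simp [covDeriv, cov, Gam_apply]

end Transl

open Transl in
theorem transl (hG : GamBasicS) : TranslS := by
  refine ⟨fun g c t => ?_, fun g U hU c J t ht => ?_, fun g U hU x hx u v => ?_⟩
  · unfold GeodesicEqAt GeoAt
    constructor
    · intro h
      ext k
      simpa [Gam_apply] using h k
    · intro h k
      simpa [Gam_apply] using congrArg (fun a : E3 => a k) h
  · unfold JacobiEqAt JacAt
    simp only [cov_eq]
    constructor
    · intro h
      ext l
      simpa [rm_apply hG hU ht] using h l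
    · intro h l
      simpa [rm_apply hG hU ht] using congrArg (fun a : E3 => a l) h
  · simp only [secNumer, ipL_apply, rm_apply hG hU hx]

end Crest.Agent.R244
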